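import Vale.Agent.P229.JetComp

/-!
P229: derivatives of `g (x p)` when the derivatives of `g` carry weights.
-/

namespace Vale.Agent.P229

open Set Finset
open scoped ContDiff Topology

variable {g x : ℝ → ℝ} {U : ℕ → ℝ} {L : ℕ} {C0 Cg Cx p : ℝ} {I : Set ℝ}

lemma hasDerivAt_atom (hg : ContDiff ℝ ∞ g) (hI : IsOpen I) (hx : ContDiffOn ℝ ∞ x I) (k : ℕ)
    {y : ℝ} (hy : y ∈ I) :
    HasDerivAt (fun z => iteratedDeriv k g (x z))
      (iteratedDeriv (k + 1) g (x y) * deriv x y) y := by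
  have h1 := hasDerivAt_iteratedDeriv isOpen_univ hg.contDiffOn k (mem_univ (x y))
  have h2 := hasDerivAt_iteratedDeriv hI hx 0 hy
  rw [iteratedDeriv_zero, zero_add, iteratedDeriv_one] at h2
  exact h1.comp y h2

lemma contDiffOn_atom (hg : ContDiff ℝ ∞ g) (hx : ContDiffOn ℝ ∞ x I) (k : ℕ) :
    ContDiffOn ℝ ∞ (fun z => iteratedDeriv k g (x z)) I :=
  (contDiffOn_iteratedDeriv isOpen_univ hg.contDiffOn k).comp hx (mapsTo_univ _ _)

/-- Constants of `atom_good`. -/
noncomputable def atomC (L : ℕ) (C0 Cg Cx : ℝ) : ℕ → ℝ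
  | 0 => Cg
  | i + 1 => atomC L C0 Cg Cx i + 2 ^ L * atomC L C0 Cg Cx i * Cx * C0

lemma atomC_nonneg (L : ℕ) (hC0 : 0 ≤ C0) (hCg : 0 ≤ Cg) (hCx : 0 ≤ Cx) (i : ℕ) :
    0 ≤ atomC L C0 Cg Cx i := by
  induction i with
  | zero => exact hCg
  | succ i ih => unfold atomC; positivity

lemma atomC_mono (L : ℕ) (hC0 : 0 ≤ C0) (hCg : 0 ≤ Cg) (hCx : 0 ≤ Cx) {a b : ℕ} (hab : a ≤ b) :
    atomC L C0 Cg Cx a ≤ atomC L C0 Cg Cx b := by
  refine monotone_nat_of_le_succ (fun n => ?_) hab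
  have := atomC_nonneg L hC0 hCg hCx n
  have : 0 ≤ 2 ^ L * atomC L C0 Cg Cx n * Cx * C0 := by positivity
  simp only [atomC]
  linarith

lemma atom_aux (hU : Wt U L C0) (hg : ContDiff ℝ ∞ g) (hI : IsOpen I) (hp : p ∈ I)
    (hx : ContDiffOn ℝ ∞ x I) (hCg : 0 ≤ Cg) (hCx : 0 ≤ Cx)
    (hgb : ∀ k ≤ L, |iteratedDeriv k g (x p)| ≤ Cg * U k) (hxb : Good U L 1 Cx (deriv x) p)
    (i : ℕ) : ∀ k, k + i ≤ L →
      ‖iteratedDeriv i (fun z => iteratedDeriv k g (x z)) p‖
        ≤ atomC L C0 Cg Cx i * U (k + i) := by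
  induction i using Nat.strong_induction_on with
  | _ i ih =>
    intro k hk
    cases i with
    | zero => simpa [atomC] using hgb k hk
    | succ i =>
      have hU' : Wt U (k + (i + 1)) C0 :=
        ⟨fun a ha => hU.one_le a (ha.trans hk), fun a b hab hb => hU.mono a b hab (hb.trans hk),
          fun a b l ha hb hl hs => hU.mult a b l ha hb (hl.trans hk) hs⟩
      have hmono : ∀ a ≤ i, atomC L C0 Cg Cx a ≤ atomC L C0 Cg Cx i := fun a ha =>
        atomC_mono L hU.C0_pos.le hCg hCx ha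
      have hf : Good U (k + (i + 1)) (k + 1) (atomC L C0 Cg Cx i)
          (fun z => iteratedDeriv (k + 1) g (x z)) p := fun a ha =>
        (ih a (by omega) (k + 1) (by omega)).trans
          (mul_le_mul_of_nonneg_right (hmono a (by omega)) (hU.pos (by omega)).le)
      have hx' : Good U (k + (i + 1)) 1 Cx (deriv x) p := fun a ha => hxb a (by omega)
      have hb := Good.bilin (q := k + 1) hU' (ContinuousLinearMap.mul ℝ ℝ) hI hp
        (contDiffOn_atom hg hx (k + 1)) (hx.deriv_of_isOpen hI le_rfl)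
        (atomC_nonneg L hU.C0_pos.le hCg hCx i) hCx hf hx' le_rfl (by omega) (by omega) i (by omega)
      have e : deriv (fun z => iteratedDeriv k g (x z)) =ᶠ[𝓝 p]
          fun z => (ContinuousLinearMap.mul ℝ ℝ) (iteratedDeriv (k + 1) g (x z)) (deriv x z) :=
        Filter.eventuallyEq_of_mem (hI.mem_nhds hp) fun z hz =>
          (hasDerivAt_atom hg hI hx k hz).deriv
      rw [iteratedDeriv_succ', e.iteratedDeriv_eq, show k + (i + 1) = k + 1 + i by omega]
      refine hb.trans (mul_le_mul_of_nonneg_right ?_ (hU.pos (by omega)).le)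
      have hn := atomC_nonneg L hU.C0_pos.le hCg hCx i
      have h1 : ‖ContinuousLinearMap.mul ℝ ℝ‖ ≤ 1 := ContinuousLinearMap.opNorm_mul_le ℝ ℝ
      have h2 : (2 : ℝ) ^ (k + (i + 1)) ≤ 2 ^ L := pow_le_pow_right₀ (by norm_num) hk
      calc ‖ContinuousLinearMap.mul ℝ ℝ‖ * 2 ^ (k + (i + 1)) * atomC L C0 Cg Cx i * Cx * C0
          ≤ 1 * 2 ^ L * atomC L C0 Cg Cx i * Cx * C0 := by
            have := hU.C0_pos.le; gcongr
        _ ≤ atomC L C0 Cg Cx (i + 1) := by simp [atomC]; exact hn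

/-- Compositions `g^(k) ∘ x` have weight `k`. -/
theorem atom_good (hU : Wt U L C0) (hg : ContDiff ℝ ∞ g) (hI : IsOpen I) (hp : p ∈ I)
    (hx : ContDiffOn ℝ ∞ x I) (hCg : 0 ≤ Cg) (hCx : 0 ≤ Cx)
    (hgb : ∀ k ≤ L, |iteratedDeriv k g (x p)| ≤ Cg * U k) (hxb : Good U L 1 Cx (deriv x) p)
    (k : ℕ) : Good U L k (atomC L C0 Cg Cx L) (fun z => iteratedDeriv k g (x z)) p := by
  intro i hi
  refine (atom_aux hU hg hI hp hx hCg hCx hgb hxb i k hi).trans
    (mul_le_mul_of_nonneg_right ?_ (hU.pos hi).le)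
  exact atomC_mono L hU.C0_pos.le hCg hCx (by omega)

/-- A derivative of `g ∘ x` without the top term and the pure chain term. -/
noncomputable def atomRest (g x : ℝ → ℝ) (m : ℕ) (y : ℝ) : ℝ :=
  iteratedDeriv m (fun z => g (x z)) y - deriv g (x y) * iteratedDeriv m x y
    - deriv x y ^ m * iteratedDeriv m g (x y)

lemma atomRest_succ (hg : ContDiff ℝ ∞ g) (hI : IsOpen I) (hx : ContDiffOn ℝ ∞ x I) (m : ℕ)
    {y : ℝ} (hy : y ∈ I) :
    atomRest g x (m + 1) y = deriv (atomRest g x m) y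
      + (iteratedDeriv 2 g (x y) * deriv x y * iteratedDeriv m x y
        + (m : ℝ) * (deriv x y ^ (m - 1) * iteratedDeriv 2 x y * iteratedDeriv m g (x y))) := by
  have d0 := hasDerivAt_iteratedDeriv hI (hg.comp_contDiffOn hx) m hy
  have d1 := (hasDerivAt_atom hg hI hx 1 hy).mul (hasDerivAt_iteratedDeriv hI hx m hy)
  simp only [iteratedDeriv_one] at d1
  have dx : HasDerivAt (deriv x) (iteratedDeriv 2 x y) y := by
    have := hasDerivAt_iteratedDeriv hI hx 1 hy
    rwa [iteratedDeriv_one] at this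
  have d2 := (dx.pow m).mul (hasDerivAt_atom hg hI hx m hy)
  have d : HasDerivAt (atomRest g x m) _ y := (d0.sub d1).sub d2
  rw [d.deriv]
  simp only [atomRest, Function.comp_def, Pi.pow_apply]
  ring

lemma atomRest_two (hg : ContDiff ℝ ∞ g) (hI : IsOpen I) (hx : ContDiffOn ℝ ∞ x I) {y : ℝ}
    (hy : y ∈ I) : atomRest g x 2 y = 0 := by
  have h1 : ∀ z ∈ I, atomRest g x 1 z = -(deriv x z * deriv g (x z)) := by
    intro z hz
    have := (hasDerivAt_atom hg hI hx 0 hz).deriv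
    simp only [iteratedDeriv_zero, zero_add, iteratedDeriv_one] at this
    simp [atomRest, iteratedDeriv_one, this]
  rw [atomRest_succ hg hI hx 1 hy,
    (Filter.eventuallyEq_of_mem (hI.mem_nhds hy) h1).deriv_eq]
  have dx : HasDerivAt (deriv x) (iteratedDeriv 2 x y) y := by
    have := hasDerivAt_iteratedDeriv hI hx 1 hy
    rwa [iteratedDeriv_one] at this
  have d := (dx.mul (hasDerivAt_atom hg hI hx 1 hy)).neg
  simp only [iteratedDeriv_one] at d
  rw [show (fun z => -(deriv x z * deriv g (x z))) = -(deriv x * fun z => deriv g (x z)) from rfl,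
    d.deriv]
  simp [iteratedDeriv_one]
  try ring

lemma contDiffOn_atomRest (hg : ContDiff ℝ ∞ g) (hI : IsOpen I) (hx : ContDiffOn ℝ ∞ x I)
    (m : ℕ) : ContDiffOn ℝ ∞ (atomRest g x m) I := by
  have h1 := contDiffOn_atom hg hx 1
  simp only [iteratedDeriv_one] at h1
  exact ((contDiffOn_iteratedDeriv hI (hg.comp_contDiffOn hx) m).sub
    (h1.mul (contDiffOn_iteratedDeriv hI hx m))).sub
    (((hx.deriv_of_isOpen hI le_rfl).pow m).mul (contDiffOn_atom hg hx m))

/-- The rest has weight `m - 1`. -/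
theorem atomRest_good (L : ℕ) (C0 Cg Cx : ℝ) (hC0 : 0 ≤ C0) (hCg : 0 ≤ Cg) (hCx : 0 ≤ Cx)
    (m : ℕ) (hm : 2 ≤ m) :
    ∃ C : ℝ, 0 ≤ C ∧ ∀ (U : ℕ → ℝ) (g x : ℝ → ℝ) (I : Set ℝ) (p : ℝ),
      Wt U L C0 → ContDiff ℝ ∞ g → IsOpen I → p ∈ I → ContDiffOn ℝ ∞ x I →
      (∀ k ≤ L, |iteratedDeriv k g (x p)| ≤ Cg * U k) → Good U L 1 Cx (deriv x) p →
      Good U L (m - 1) C (atomRest g x m) p := by
  set A := atomC L C0 Cg Cx L
  have hA : 0 ≤ A := atomC_nonneg L hC0 hCg hCx L
  induction m, hm using Nat.le_induction with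
  | base =>
    refine ⟨0, le_rfl, fun U g x I p hU hg hI hp hx hgb hxb i hi => ?_⟩
    have e : atomRest g x 2 =ᶠ[𝓝 p] fun _ => (0 : ℝ) :=
      Filter.eventuallyEq_of_mem (hI.mem_nhds hp) fun z hz => atomRest_two hg hI hx hz
    rw [e.iteratedDeriv_eq, iteratedDeriv_const]
    simp
  | succ m hm ih =>
    obtain ⟨C, hC, hT⟩ := ih
    let P : ℕ → ℝ := fun j => Nat.rec Cx (fun _ a => 2 ^ L * a * Cx * C0) j
    have hP : ∀ j, 0 ≤ P j := by
      intro j
      induction j with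
      | zero => exact hCx
      | succ j ihj => show 0 ≤ 2 ^ L * P j * Cx * C0; positivity
    set K1 := 2 ^ L * (2 ^ L * A * Cx * C0) * Cx * C0
    set K2 := 2 ^ L * (2 ^ L * P (m - 2) * Cx * C0) * A * C0
    have hK1 : 0 ≤ K1 := by positivity
    have hK2 : 0 ≤ K2 := by have := hP (m - 2); positivity
    refine ⟨C + (K1 + |(m : ℝ)| * K2), by positivity,
      fun U g x I p hU hg hI hp hx hgb hxb => ?_⟩
    have hd := hx.deriv_of_isOpen hI (m := ∞) le_rfl
    have mulG : ∀ {r s q : ℕ} {Ca Cb : ℝ} {a b : ℝ → ℝ}, ContDiffOn ℝ ∞ a I →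
        ContDiffOn ℝ ∞ b I → 0 ≤ Ca → 0 ≤ Cb → Good U L r Ca a p → Good U L s Cb b p →
        r ≤ q → s ≤ q → r + s ≤ q + 3 →
        Good U L q (2 ^ L * Ca * Cb * C0) (fun z => a z * b z) p := by
      intro r s q Ca Cb a b ha hb hCa hCb ga gb h1 h2 h3
      refine Good.mono_const hU (Good.bilin hU (ContinuousLinearMap.mul ℝ ℝ) hI hp ha hb hCa hCb
        ga gb h1 h2 h3) ?_
      calc _ = ‖ContinuousLinearMap.mul ℝ ℝ‖ * (2 ^ L * Ca * Cb * C0) := by ring
        _ ≤ 1 * (2 ^ L * Ca * Cb * C0) :=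
          mul_le_mul_of_nonneg_right (ContinuousLinearMap.opNorm_mul_le ℝ ℝ) (by positivity)
        _ = _ := one_mul _
    have hpow : ∀ j, Good U L 1 (P j) (fun z => deriv x z ^ (j + 1)) p := by
      intro j
      induction j with
      | zero => simpa [P] using hxb
      | succ j ihj =>
        have h := mulG (q := 1) (hd.pow (j + 1)) hd (hP j) hCx ihj hxb le_rfl le_rfl (by omega)
        simpa [P, pow_succ] using h
    have hat := fun k => atom_good hU hg hI hp hx hCg hCx hgb hxb k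
    have hxm : Good U L m Cx (iteratedDeriv m x) p := by
      have := hxb.iterDeriv (m - 1)
      rwa [show 1 + (m - 1) = m by omega,
        show iteratedDeriv (m - 1) (deriv x) = iteratedDeriv m x by
          rw [← iteratedDeriv_succ', show m - 1 + 1 = m by omega]] at this
    have hx2 : Good U L 2 Cx (iteratedDeriv 2 x) p := by
      have := hxb.iterDeriv 1
      rwa [← iteratedDeriv_succ'] at this
    have cx2 := contDiffOn_iteratedDeriv hI hx 2
    have cxm := contDiffOn_iteratedDeriv hI hx m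
    have t1a := mulG (q := 2) (contDiffOn_atom hg hx 2) hd hA hCx (hat 2) hxb le_rfl (by omega)
      (by omega)
    have t1 := mulG (q := m) ((contDiffOn_atom hg hx 2).mul hd) cxm (by positivity) hCx t1a hxm
      (by omega) le_rfl (by omega)
    have hp1 : Good U L 1 (P (m - 2)) (fun z => deriv x z ^ (m - 1)) p := by
      have := hpow (m - 2)
      rwa [show m - 2 + 1 = m - 1 by omega] at this
    have t2a := mulG (q := 2) (hd.pow (m - 1)) cx2 (hP _) hCx hp1 hx2 (by omega) le_rfl (by omega)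
    have t2 := mulG (q := m) ((hd.pow (m - 1)).mul cx2) (contDiffOn_atom hg hx m)
      (by have := hP (m - 2); positivity) hA t2a (hat m) (by omega) le_rfl (by omega)
    have c2 := ((hd.pow (m - 1)).mul cx2).mul (contDiffOn_atom hg hx m)
    have t2s := t2.const_smul (m : ℝ)
    simp only [smul_eq_mul] at t2s
    have c1 := ((contDiffOn_atom hg hx 2).mul hd).mul cxm
    have c2' : ContDiffOn ℝ ∞ (fun z => (m : ℝ) *
        (deriv x z ^ (m - 1) * iteratedDeriv 2 x z * iteratedDeriv m g (x z))) I :=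
      contDiffOn_const.mul c2
    have hd' : Good U L m C (deriv (atomRest g x m)) p := by
      have h := (hT U g x I p hU hg hI hp hx hgb hxb).deriv
      rwa [show m - 1 + 1 = m by omega] at h
    have hall := hd'.add hI hp ((contDiffOn_atomRest hg hI hx m).deriv_of_isOpen hI le_rfl)
      (c1.add c2') (t1.add hI hp c1 c2' t2s)
    rw [show m + 1 - 1 = m by omega]
    exact hall.congr hI hp fun z hz => (atomRest_succ hg hI hx m hz).symm

end Vale.Agent.P229
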