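import Vale.Agent.P229.Interfaces

/-!
P229: the lens profile with a micro bump.  Smoothness, symmetries, the region where it equals
`psi0`, and bounds of the derivatives up to order `n`, uniform in the width of the bump.
-/

namespace Vale.Agent.P229

open Real Set Filter
open scoped ContDiff Topology

lemma contDiff_sqn : ContDiff ℝ ∞ sqn := by unfold sqn; fun_prop

lemma contDiff_psi0 : ContDiff ℝ ∞ psi0 := by unfold psi0 sqn; fun_prop

lemma contDiff_cutR : ContDiff ℝ ∞ cutR :=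
  Real.smoothTransition.contDiff.comp ((contDiff_const.sub contDiff_sqn).div_const 20)

lemma contDiff_bumpB : ContDiff ℝ ∞ bumpB :=
  Real.smoothTransition.contDiff.comp (contDiff_const.sub contDiff_sqn)

lemma bumpArg_eq (δ : ℝ) (z : E2) : ((z.1 / δ, z.2 / δ) : E2) = δ⁻¹ • z := by
  ext <;> simp [div_eq_inv_mul]

lemma contDiff_psi (n : ℕ) (δ : ℝ) : ContDiff ℝ ∞ (psi n δ) := by
  unfold psi
  exact (contDiff_cutR.mul contDiff_psi0).add
    (contDiff_const.mul (contDiff_bumpB.comp (by fun_prop)))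

lemma hasCompactSupport_of_sqn {f : E2 → ℝ} {C : ℝ} (h : ∀ z, C ≤ sqn z → f z = 0) :
    HasCompactSupport f := by
  refine HasCompactSupport.intro (isCompact_closedBall (0 : E2) (|C| + 1)) fun z hz => h z ?_
  rw [Metric.mem_closedBall, dist_zero_right, not_le, Prod.norm_def] at hz
  unfold sqn
  rcases lt_max_iff.1 hz with h1 | h1 <;> rw [Real.norm_eq_abs] at h1
  · nlinarith [sq_abs z.1, sq_nonneg z.2, abs_nonneg C, le_abs_self C, abs_nonneg z.1]
  · nlinarith [sq_abs z.2, sq_nonneg z.1, abs_nonneg C, le_abs_self C, abs_nonneg z.2]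

lemma bumpB_eq_zero {z : E2} (h : 2 ≤ sqn z) : bumpB z = 0 :=
  Real.smoothTransition.zero_of_nonpos (by linarith)

lemma cutR_eq_zero {z : E2} (h : 120 ≤ sqn z) : cutR z = 0 :=
  Real.smoothTransition.zero_of_nonpos (by linarith)

lemma cutR_eq_one {z : E2} (h : sqn z ≤ 100) : cutR z = 1 :=
  Real.smoothTransition.one_of_one_le (by linarith)

lemma exists_iteratedFDeriv_bound {f : E2 → ℝ} (hf : ContDiff ℝ ∞ f) (hs : HasCompactSupport f)
    (N : ℕ) : ∃ C, ∀ z, ‖iteratedFDeriv ℝ N f z‖ ≤ C :=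
  (hf.continuous_iteratedFDeriv (by exact_mod_cast le_top)).bounded_above_of_compact_support
    (hs.iteratedFDeriv N)

theorem psiBound : PsiBoundStmt := by
  intro n N hN
  obtain ⟨CA, hA⟩ := exists_iteratedFDeriv_bound (contDiff_cutR.mul contDiff_psi0)
    (hasCompactSupport_of_sqn (C := 120) fun z hz => by simp [cutR_eq_zero hz]) N
  obtain ⟨CB, hB⟩ := exists_iteratedFDeriv_bound contDiff_bumpB
    (hasCompactSupport_of_sqn (C := 2) fun z hz => bumpB_eq_zero hz) N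
  refine ⟨CA + CB, fun δ hδ hδ1 z => ?_⟩
  have hb : ContDiff ℝ N bumpB := contDiff_bumpB.of_le (by exact_mod_cast le_top)
  have hAc : ContDiff ℝ N (fun z => cutR z * psi0 z) :=
    (contDiff_cutR.mul contDiff_psi0).of_le (by exact_mod_cast le_top)
  have hS : ContDiff ℝ N (fun z : E2 => bumpB (δ⁻¹ • z)) := hb.comp (by fun_prop)
  have e : psi n δ = (fun z => cutR z * psi0 z) +
      (δ ^ n * Real.sqrt δ) • (fun z : E2 => bumpB (δ⁻¹ • z)) := by
    funext z; simp [psi, bumpArg_eq]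
  have hc1 : ContDiff ℝ N ((δ ^ n * Real.sqrt δ) • fun z : E2 => bumpB (δ⁻¹ • z)) :=
    ContDiff.const_smul (R := ℝ) (δ ^ n * Real.sqrt δ) hS
  rw [e, iteratedFDeriv_add_apply hAc.contDiffAt hc1.contDiffAt,
    iteratedFDeriv_const_smul_apply hS.contDiffAt]
  refine (norm_add_le _ _).trans (add_le_add (hA z) ?_)
  have h2 := congrFun (iteratedFDeriv_comp_const_smul (f := bumpB) δ⁻¹ hb) z
  rw [norm_smul, h2, norm_smul, Real.norm_eq_abs, Real.norm_eq_abs, ← mul_assoc]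
  have hc : 0 ≤ δ ^ n * Real.sqrt δ := by positivity
  rw [abs_of_nonneg hc, abs_of_nonneg (pow_nonneg (inv_nonneg.2 hδ.le) N)]
  have h1 : δ ^ n * Real.sqrt δ * δ⁻¹ ^ N ≤ 1 := by
    obtain ⟨k, rfl⟩ := Nat.exists_eq_add_of_le hN
    have hk : δ ^ (N + k) * Real.sqrt δ * δ⁻¹ ^ N = δ ^ k * Real.sqrt δ := by
      rw [pow_add, inv_pow]; field_simp
    rw [hk]
    exact mul_le_one₀ (pow_le_one₀ hδ.le hδ1) (Real.sqrt_nonneg _)
      (by rw [← Real.sqrt_one]; exact Real.sqrt_le_sqrt hδ1)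
  have hCB : 0 ≤ CB := (norm_nonneg _).trans (hB (δ⁻¹ • z))
  calc δ ^ n * Real.sqrt δ * δ⁻¹ ^ N * ‖iteratedFDeriv ℝ N bumpB (δ⁻¹ • z)‖
      ≤ 1 * CB := mul_le_mul h1 (hB _) (norm_nonneg _) zero_le_one
    _ = CB := one_mul CB

/-- The profile depends only on the squared radius. -/
lemma psi_congr_sqn (n : ℕ) (δ : ℝ) {z w : E2} (h : sqn z = sqn w) : psi n δ z = psi n δ w := by
  have h' : sqn (z.1 / δ, z.2 / δ) = sqn (w.1 / δ, w.2 / δ) := by
    have e : ∀ u : E2, sqn (u.1 / δ, u.2 / δ) = sqn u / δ ^ 2 := fun u => by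
      simp [sqn, div_pow, add_div]
    rw [e, e, h]
  unfold psi cutR psi0 bumpB
  rw [h, h']

lemma psi_neg (n : ℕ) (δ : ℝ) (z : E2) : psi n δ (-z) = psi n δ z :=
  psi_congr_sqn n δ (by simp [sqn])

lemma psi_eq_psi0 (n : ℕ) {δ : ℝ} (hδ : 0 < δ) {z : E2} (h1 : 2 * δ ^ 2 ≤ sqn z)
    (h2 : sqn z ≤ 100) : psi n δ z = psi0 z := by
  have h : (2 : ℝ) ≤ sqn (z.1 / δ, z.2 / δ) := by
    have e : sqn (z.1 / δ, z.2 / δ) = sqn z / δ ^ 2 := by simp [sqn, div_pow, add_div]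
    rw [e, le_div_iff₀ (by positivity)]; exact h1
  simp [psi, cutR_eq_one h2, bumpB_eq_zero h]

lemma psi_eventuallyEq_psi0 (n : ℕ) {δ : ℝ} (hδ : 0 < δ) {z : E2} (h1 : 2 * δ ^ 2 < sqn z)
    (h2 : sqn z < 100) : psi n δ =ᶠ[𝓝 z] psi0 := by
  have ho : IsOpen {w : E2 | 2 * δ ^ 2 < sqn w ∧ sqn w < 100} :=
    (isOpen_lt continuous_const contDiff_sqn.continuous).inter
      (isOpen_lt contDiff_sqn.continuous continuous_const)
  filter_upwards [ho.mem_nhds ⟨h1, h2⟩] with w hw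
  exact psi_eq_psi0 n hδ hw.1.le hw.2.le

end Vale.Agent.P229
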