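import Vale.Agent.P229.Rhs
import Vale.Agent.P229.Psi

/-!
P229: derivatives of the profile: the lens part plus a scaled bump.
-/

namespace Vale.Agent.P229

open Set Filter Finset
open scoped ContDiff Topology

/-- The four functions entering the right-hand side. -/
noncomputable def atom (ψ : E2 → ℝ) (k : Fin 4) : E2 → ℝ := ![ψ, d1 ψ, d2 ψ, lap ψ] k

/-- Order of derivatives in `atom`. -/
def atomOrd (k : Fin 4) : ℕ := ![0, 1, 1, 2] k

/-- A scaled function. -/
noncomputable def scaled (c δ : ℝ) (f : E2 → ℝ) (u : E2) : ℝ := c * f (u.1 / δ, u.2 / δ)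

/-- The micro bump. -/
noncomputable def bumpPart (n : ℕ) (δ : ℝ) : E2 → ℝ := scaled (δ ^ n * Real.sqrt δ) δ bumpB

/-- Size of the `k`-th derivative of the Laplacian of the bump along a solution. -/
noncomputable def bumpW (n : ℕ) (δ : ℝ) (X : E2 → ℝ) (k : ℕ) (z : E2) : ℝ :=
  if sqn (X z, z.2) ≤ 2 * δ ^ 2 then δ ^ n * Real.sqrt δ / δ ^ (k + 2) else 0

lemma contDiff_scaled (c δ : ℝ) {f : E2 → ℝ} (hf : ContDiff ℝ ∞ f) :
    ContDiff ℝ ∞ (scaled c δ f) := by
  have h : ContDiff ℝ ∞ fun u : E2 => (u.1 / δ, u.2 / δ) :=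
    (contDiff_fst.div_const δ).prodMk (contDiff_snd.div_const δ)
  exact contDiff_const.mul (hf.comp h)

lemma fderiv_scaled (c δ : ℝ) {f : E2 → ℝ} (hf : ContDiff ℝ ∞ f) (u v : E2) :
    fderiv ℝ (scaled c δ f) u v = c * fderiv ℝ f (u.1 / δ, u.2 / δ) (δ⁻¹ • v) := by
  have hS : HasFDerivAt (fun u : E2 => (u.1 / δ, u.2 / δ))
      (δ⁻¹ • ContinuousLinearMap.id ℝ E2) u := by
    have e : (fun u : E2 => (u.1 / δ, u.2 / δ)) = fun u : E2 => δ⁻¹ • u := by
      funext u; ext <;> simp [div_eq_inv_mul]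
    rw [e]
    exact (hasFDerivAt_id u).const_smul δ⁻¹
  have h := ((hf.differentiable (by simp) _).hasFDerivAt.comp u hS).const_mul c
  rw [show scaled c δ f = fun u => c * (f ∘ fun u : E2 => (u.1 / δ, u.2 / δ)) u from rfl, h.fderiv]
  simp

lemma d1_scaled (c δ : ℝ) {f : E2 → ℝ} (hf : ContDiff ℝ ∞ f) :
    d1 (scaled c δ f) = scaled (c / δ) δ (d1 f) := by
  funext u
  simp only [d1, scaled, fderiv_scaled c δ hf, map_smul, smul_eq_mul]
  ring

lemma d2_scaled (c δ : ℝ) {f : E2 → ℝ} (hf : ContDiff ℝ ∞ f) :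
    d2 (scaled c δ f) = scaled (c / δ) δ (d2 f) := by
  funext u
  simp only [d2, scaled, fderiv_scaled c δ hf, map_smul, smul_eq_mul]
  ring

lemma contDiff_d2' {f : E2 → ℝ} (hf : ContDiff ℝ ∞ f) : ContDiff ℝ ∞ (d2 f) :=
  contDiffOn_univ.mp (contDiffOn_d2W isOpen_univ hf.contDiffOn)

lemma contDiff_atom {f : E2 → ℝ} (hf : ContDiff ℝ ∞ f) (k : Fin 4) :
    ContDiff ℝ ∞ (atom f k) := by
  fin_cases k
  · exact hf
  · exact contDiff_d1_iter' hf 1
  · exact contDiff_d2' hf
  · exact contDiff_lapW hf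

lemma atom_scaled (c δ : ℝ) {f : E2 → ℝ} (hf : ContDiff ℝ ∞ f) (k : Fin 4) :
    atom (scaled c δ f) k = scaled (c / δ ^ atomOrd k) δ (atom f k) := by
  have h1 : ContDiff ℝ ∞ (d1 f) := contDiff_d1_iter' hf 1
  have h2 := contDiff_d2' hf
  fin_cases k
  · simp [atom, atomOrd]
  · simp [atom, atomOrd, d1_scaled c δ hf]
  · simp [atom, atomOrd, d2_scaled c δ hf]
  · funext u
    simp [atom, atomOrd, lap, d1_scaled c δ hf, d2_scaled c δ hf, d1_scaled _ δ h1,
      d2_scaled _ δ h2, scaled]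
    ring

lemma d1_iter_scaled (c δ : ℝ) {f : E2 → ℝ} (hf : ContDiff ℝ ∞ f) (j : ℕ) :
    (d1^[j]) (scaled c δ f) = scaled (c / δ ^ j) δ ((d1^[j]) f) := by
  induction j with
  | zero => simp
  | succ j ih =>
    rw [Function.iterate_succ_apply', Function.iterate_succ_apply', ih,
      d1_scaled _ δ (contDiff_d1_iter' hf j), pow_succ, div_div]

lemma d1_add_apply {f g : E2 → ℝ} (hf : ContDiff ℝ ∞ f) (hg : ContDiff ℝ ∞ g) (u : E2) :
    d1 (fun v => f v + g v) u = d1 f u + d1 g u := by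
  simp [d1, fderiv_fun_add (hf.differentiable (by simp) u) (hg.differentiable (by simp) u)]

lemma d2_add_apply {f g : E2 → ℝ} (hf : ContDiff ℝ ∞ f) (hg : ContDiff ℝ ∞ g) (u : E2) :
    d2 (fun v => f v + g v) u = d2 f u + d2 g u := by
  simp [d2, fderiv_fun_add (hf.differentiable (by simp) u) (hg.differentiable (by simp) u)]

lemma atom_add {f g : E2 → ℝ} (hf : ContDiff ℝ ∞ f) (hg : ContDiff ℝ ∞ g) (k : Fin 4) :
    atom (fun v => f v + g v) k = fun v => atom f k v + atom g k v := by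
  fin_cases k
  · rfl
  · funext u; exact d1_add_apply hf hg u
  · funext u; exact d2_add_apply hf hg u
  · funext u
    have e1 : d1 (fun v => f v + g v) = fun v => d1 f v + d1 g v := funext (d1_add_apply hf hg)
    have e2 : d2 (fun v => f v + g v) = fun v => d2 f v + d2 g v := funext (d2_add_apply hf hg)
    show lap (fun v => f v + g v) u = lap f u + lap g u
    rw [lap, lap, lap, e1, e2,
      d1_add_apply (f := d1 f) (g := d1 g) (contDiff_d1_iter' hf 1) (contDiff_d1_iter' hg 1),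
      d2_add_apply (contDiff_d2' hf) (contDiff_d2' hg)]
    ring

lemma d1_iter_add {f g : E2 → ℝ} (hf : ContDiff ℝ ∞ f) (hg : ContDiff ℝ ∞ g) (j : ℕ) :
    (d1^[j]) (fun v => f v + g v) = fun v => (d1^[j]) f v + (d1^[j]) g v := by
  induction j with
  | zero => rfl
  | succ j ih =>
    rw [Function.iterate_succ_apply', ih]
    funext u
    rw [d1_add_apply (contDiff_d1_iter' hf j) (contDiff_d1_iter' hg j),
      Function.iterate_succ_apply', Function.iterate_succ_apply']

lemma atom_congr {f g : E2 → ℝ} {W : Set E2} (hW : IsOpen W) (h : EqOn f g W) (k : Fin 4) :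
    EqOn (atom f k) (atom g k) W := by
  have h1 : EqOn (d1 f) (d1 g) W := fun u hu => d1_congr (eventuallyEq_of_mem (hW.mem_nhds hu) h)
  have h2 : EqOn (d2 f) (d2 g) W := fun u hu => d2_congr (eventuallyEq_of_mem (hW.mem_nhds hu) h)
  fin_cases k
  · exact h
  · exact h1
  · exact h2
  · intro u hu
    show lap f u = lap g u
    rw [lap, lap, d1_congr (eventuallyEq_of_mem (hW.mem_nhds hu) h1),
      d2_congr (eventuallyEq_of_mem (hW.mem_nhds hu) h2)]

lemma isOpen_sqn_lt (R : ℝ) : IsOpen {u : E2 | sqn u < R} :=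
  isOpen_lt contDiff_sqn.continuous continuous_const

lemma psi_eqOn (n : ℕ) (δ : ℝ) :
    EqOn (psi n δ) (fun u => psi0 u + bumpPart n δ u) {u | sqn u < 100} := by
  intro u hu
  have h : cutR u = 1 := Real.smoothTransition.one_of_one_le (by
    rw [le_div_iff₀ (by norm_num : (0:ℝ) < 20)]
    have : sqn u < 100 := hu
    linarith)
  show cutR u * psi0 u + bumpPart n δ u = psi0 u + bumpPart n δ u
  rw [h, one_mul]

lemma d1_iter_atom_psi (n : ℕ) (δ : ℝ) (k : Fin 4) (j : ℕ) {u : E2} (hu : sqn u < 100) :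
    (d1^[j]) (atom (psi n δ) k) u = (d1^[j]) (atom psi0 k) u
      + scaled (δ ^ n * Real.sqrt δ / δ ^ atomOrd k / δ ^ j) δ ((d1^[j]) (atom bumpB k)) u := by
  rw [d1_iter_congr (isOpen_sqn_lt 100) (atom_congr (isOpen_sqn_lt 100) (psi_eqOn n δ) k) j hu,
    atom_add (g := bumpPart n δ) contDiff_psi0 (contDiff_scaled _ _ contDiff_bumpB),
    d1_iter_add (g := atom (bumpPart n δ) k) (contDiff_atom contDiff_psi0 k)
      (contDiff_atom (contDiff_scaled _ _ contDiff_bumpB) k)]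
  simp only [bumpPart, atom_scaled _ δ contDiff_bumpB, d1_iter_scaled _ δ
    (contDiff_atom contDiff_bumpB k)]

lemma d1_iter_atom_bumpB_zero (k : Fin 4) (j : ℕ) {u : E2} (hu : 2 < sqn u) :
    (d1^[j]) (atom bumpB k) u = 0 := by
  have ho : IsOpen {u : E2 | 2 < sqn u} := isOpen_lt continuous_const contDiff_sqn.continuous
  have h0 : EqOn bumpB (fun _ => (0 : ℝ)) {u | 2 < sqn u} := fun v hv =>
    Real.smoothTransition.zero_of_nonpos (by have : 2 < sqn v := hv; linarith)
  rw [d1_iter_congr ho (atom_congr ho h0 k) j hu]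
  have z0 : atom (fun _ : E2 => (0 : ℝ)) k = fun _ => (0 : ℝ) := by
    have e1 : d1 (fun _ : E2 => (0 : ℝ)) = fun _ => (0 : ℝ) := by funext v; simp [d1]
    have e2 : d2 (fun _ : E2 => (0 : ℝ)) = fun _ => (0 : ℝ) := by funext v; simp [d2]
    fin_cases k
    · rfl
    · exact e1
    · exact e2
    · funext v; show lap (fun _ : E2 => (0 : ℝ)) v = 0; simp [lap, e1, e2]
  rw [z0]
  clear hu
  induction j generalizing u with
  | zero => rfl
  | succ j ih =>
    have e : (d1^[j]) (fun _ : E2 => (0 : ℝ)) = fun _ => (0 : ℝ) := funext fun v => ih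
    rw [Function.iterate_succ_apply', e]
    simp [d1]

/-- Bounds of the atoms near the centre, uniform in the width. -/
theorem atom_psi_bound (j : ℕ) :
    ∃ C : ℝ, 0 ≤ C ∧ ∀ (n : ℕ) (δ : ℝ) (k : Fin 4) (u : E2), 0 < δ → δ ≤ 1 → sqn u < 100 →
      |(d1^[j]) (atom psi0 k) u| ≤ C ∧
      |(d1^[j]) (atom (psi n δ) k) u - (d1^[j]) (atom psi0 k) u| ≤
        C * (if sqn u ≤ 2 * δ ^ 2 then δ ^ n * Real.sqrt δ / δ ^ (atomOrd k + j) else 0) := by
  have hK : IsCompact {u : E2 | sqn u ≤ 100} := by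
    refine Metric.isCompact_of_isClosed_isBounded
      (isClosed_le contDiff_sqn.continuous continuous_const)
      ((Metric.isBounded_closedBall (x := (0 : E2)) (r := 10)).subset fun u hu => ?_)
    have hu' : u.1 ^ 2 + u.2 ^ 2 ≤ 100 := hu
    rw [Metric.mem_closedBall, dist_zero_right, Prod.norm_def, max_le_iff]
    constructor <;> exact abs_le_of_sq_le_sq (by nlinarith) (by norm_num)
  have h1 : ∀ k : Fin 4, ∀ g : E2 → ℝ, ContDiff ℝ ∞ g →
      ∃ C : ℝ, 0 ≤ C ∧ ∀ u : E2, sqn u ≤ 100 → |(d1^[j]) (atom g k) u| ≤ C := by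
    intro k g hg
    obtain ⟨C, hC⟩ := hK.exists_bound_of_continuousOn
      (contDiff_d1_iter' (contDiff_atom hg k) j).continuous.continuousOn
    exact ⟨max C 0, le_max_right _ _, fun u hu => (hC u hu).trans (le_max_left _ _)⟩
  choose A hA0 hA using fun k => h1 k psi0 contDiff_psi0
  choose B hB0 hB using fun k => h1 k bumpB contDiff_bumpB
  refine ⟨∑ k, (A k + B k), Finset.sum_nonneg fun k _ => add_nonneg (hA0 k) (hB0 k),
    fun n δ k u hδ hδ1 hu => ?_⟩
  have hk : A k + B k ≤ ∑ k, (A k + B k) :=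
    Finset.single_le_sum (fun k _ => add_nonneg (hA0 k) (hB0 k)) (Finset.mem_univ k)
  refine ⟨((hA k u hu.le).trans (by linarith [hB0 k])), ?_⟩
  rw [d1_iter_atom_psi n δ k j hu, add_sub_cancel_left]
  have hscale : sqn (u.1 / δ, u.2 / δ) = sqn u / δ ^ 2 := by unfold sqn; field_simp
  have hc : 0 ≤ δ ^ n * Real.sqrt δ / δ ^ atomOrd k / δ ^ j := by positivity
  unfold scaled
  rw [abs_mul, abs_of_nonneg hc]
  split_ifs with hs
  · rw [pow_add, div_div, mul_comm (∑ k, (A k + B k))]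
    refine mul_le_mul_of_nonneg_left ?_ (by rwa [div_div] at hc)
    refine (hB k _ ?_).trans (by linarith [hA0 k])
    rw [hscale, div_le_iff₀ (by positivity)]
    nlinarith [sq_nonneg δ]
  · rw [d1_iter_atom_bumpB_zero k j (by
      rw [hscale, lt_div_iff₀ (by positivity)]; linarith [not_le.mp hs])]
    simp

end Vale.Agent.P229
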