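import Mathlib

/-!
# P229: integration by parts on the plane with compactly supported multipliers
-/

open MeasureTheory Set
namespace Vale.Agent.P229
/-- A compactly supported derivative integrates to zero. -/
lemma integral_fderiv_eq_zero {f : ℝ × ℝ → ℝ} (hf : ContDiff ℝ 1 f) (hs : HasCompactSupport f)
    (v : ℝ × ℝ) : ∫ p, fderiv ℝ f p v = 0 := by
  have hc : Continuous fun p => fderiv ℝ f p v := (hf.continuous_fderiv one_ne_zero).clm_apply continuous_const
  have hcs : HasCompactSupport fun p => fderiv ℝ f p v := hs.fderiv_apply ℝ v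
  have h := integral_mul_fderiv_eq_neg_fderiv_mul_of_integrable (𝕜 := ℝ) (μ := (volume : Measure (ℝ × ℝ)))
    (v := v) (f := fun _ => (1 : ℝ)) (g := f) (by simp) (by simpa using hc.integrable_of_hasCompactSupport hcs)
    (by simpa using hf.continuous.integrable_of_hasCompactSupport hs) (fun p _ => differentiableAt_const (1 : ℝ))
    (fun p _ => hf.differentiable one_ne_zero p)
  simpa using h

/-- Integration by parts in a direction. -/
lemma integral_mul_fderiv {f g : ℝ × ℝ → ℝ} (hf : ContDiff ℝ 1 f) (hg : ContDiff ℝ 1 g)
    (hs : HasCompactSupport f) (v : ℝ × ℝ) :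
    ∫ p, f p * fderiv ℝ g p v = - ∫ p, fderiv ℝ f p v * g p := by
  have hcf : Continuous fun p => fderiv ℝ f p v := (hf.continuous_fderiv one_ne_zero).clm_apply continuous_const
  have hcg : Continuous fun p => fderiv ℝ g p v := (hg.continuous_fderiv one_ne_zero).clm_apply continuous_const
  exact integral_mul_fderiv_eq_neg_fderiv_mul_of_integrable
    ((hcf.mul hg.continuous).integrable_of_hasCompactSupport (hs.fderiv_apply ℝ v).mul_right)
    ((hf.continuous.mul hcg).integrable_of_hasCompactSupport hs.mul_right)
    ((hf.continuous.mul hg.continuous).integrable_of_hasCompactSupport hs.mul_right)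
    (fun p _ => hf.differentiable one_ne_zero p) (fun p _ => hg.differentiable one_ne_zero p)

/-- A weight times a function times its derivative. -/
lemma integral_weight_sq {w a : ℝ × ℝ → ℝ} (hw : ContDiff ℝ 1 w) (ha : ContDiff ℝ 1 a)
    (hs : HasCompactSupport w) (v : ℝ × ℝ) :
    ∫ p, w p * a p * fderiv ℝ a p v = -(1 / 2) * ∫ p, fderiv ℝ w p v * a p ^ 2 := by
  have h := integral_mul_fderiv hw (ha.pow 2) hs v
  simp only [fderiv_fun_pow 2 (ha.differentiable one_ne_zero _)] at h
  simp at h
  rw [show (fun p => w p * a p * fderiv ℝ a p v) = fun p => (1/2) * (w p * (2 * a p * fderiv ℝ a p v)) by funext p; ring,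
    integral_const_mul, h]
  ring
end Vale.Agent.P229
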