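import Vale.Agent.P229.Defs
import Vale.Agent.P229.Ibp

/-!
# P229: line integrals of derivatives of the bump

For every slope at most one, some line through the support carries a non-zero integral of the
`n`-th horizontal derivative of the Laplacian of the bump, with a bound uniform in the slope.
-/

namespace Vale.Agent.P229

open MeasureTheory Set
open scoped ContDiff

/-- The line integral used at the level `n`. -/
noncomputable def bumpJ (n : ℕ) (ν ξ : ℝ) : ℝ :=
  ∫ τ, (d1^[n]) (lap bumpB) (ξ + ν * τ, τ)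

namespace Bump

lemma smooth_d1 {f : E2 → ℝ} (h : ContDiff ℝ ∞ f) : ContDiff ℝ ∞ (d1 f) :=
  (h.fderiv_right (by simp)).clm_apply contDiff_const

lemma smooth_d2 {f : E2 → ℝ} (h : ContDiff ℝ ∞ f) : ContDiff ℝ ∞ (d2 f) :=
  (h.fderiv_right (by simp)).clm_apply contDiff_const

lemma smooth_iter {f : E2 → ℝ} (h : ContDiff ℝ ∞ f) : ∀ n : ℕ, ContDiff ℝ ∞ ((d1^[n]) f)
  | 0 => h
  | n + 1 => by rw [Function.iterate_succ_apply']; exact smooth_d1 (smooth_iter h n)

/-- Vanishing outside the disc of squared radius two. -/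
def Off (f : E2 → ℝ) : Prop := ∀ z, 2 < sqn z → f z = 0

lemma off_deriv {f : E2 → ℝ} (h : Off f) (v : E2) : Off fun z => fderiv ℝ f z v := by
  intro z hz
  have hc : Continuous sqn := by unfold sqn; fun_prop
  have : f =ᶠ[nhds z] fun _ => 0 :=
    Filter.eventually_of_mem ((isOpen_lt continuous_const hc).mem_nhds hz) h
  simp [this.fderiv_eq]

lemma off_d1 {f : E2 → ℝ} (h : Off f) : Off (d1 f) := off_deriv h _

lemma off_iter {f : E2 → ℝ} (h : Off f) : ∀ n : ℕ, Off ((d1^[n]) f)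
  | 0 => h
  | n + 1 => by rw [Function.iterate_succ_apply']; exact off_d1 (off_iter h n)

lemma abs_le_two {z : E2} (h : sqn z ≤ 2) : |z.1| ≤ 3 / 2 ∧ |z.2| ≤ 3 / 2 := by
  constructor <;> rw [abs_le] <;> constructor <;> unfold sqn at h <;>
    nlinarith [sq_nonneg z.1, sq_nonneg z.2]

lemma off_compact {f : E2 → ℝ} (h : Off f) : HasCompactSupport f := by
  refine HasCompactSupport.intro ((isCompact_Icc (a := (-2:ℝ)) (b := 2)).prod
    (isCompact_Icc (a := (-2:ℝ)) (b := 2))) fun z hz => h z ?_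
  by_contra hc
  obtain ⟨h1, h2⟩ := abs_le_two (not_lt.1 hc)
  rw [abs_le] at h1 h2
  exact hz ⟨⟨by linarith, by linarith⟩, ⟨by linarith, by linarith⟩⟩

lemma bumpB_smooth : ContDiff ℝ ∞ bumpB := by
  unfold bumpB sqn
  exact Real.smoothTransition.contDiff.comp (by fun_prop)

lemma bumpB_off : Off bumpB := fun z hz =>
  Real.smoothTransition.zero_of_nonpos (by linarith)

lemma lapB_off : Off (lap bumpB) := fun z hz => by
  have h1 : Off (d1 (d1 bumpB)) := off_d1 (off_d1 bumpB_off)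
  have h2 : Off (d2 (d2 bumpB)) := off_deriv (off_deriv bumpB_off (0, 1)) (0, 1)
  simp [lap, h1 z hz, h2 z hz]

lemma lapB_smooth : ContDiff ℝ ∞ (lap bumpB) :=
  (smooth_d1 (smooth_d1 bumpB_smooth)).add (smooth_d2 (smooth_d2 bumpB_smooth))

/-- The linear form constant along lines of slope `ν`. -/
def ell (ν : ℝ) (z : E2) : ℝ := z.1 - ν * z.2

lemma fderiv_ell_pow (ν : ℝ) (k : ℕ) (z v : E2) :
    fderiv ℝ (fun w => ell ν w ^ k) z v = k * ell ν z ^ (k - 1) * (v.1 - ν * v.2) := by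
  have h : HasFDerivAt (ell ν)
      (ContinuousLinearMap.fst ℝ ℝ ℝ - ν • ContinuousLinearMap.snd ℝ ℝ ℝ) z := by
    unfold ell
    exact hasFDerivAt_fst.sub (hasFDerivAt_snd.const_smul ν)
  rw [(h.pow k).fderiv]
  simp [mul_comm]

lemma ell_pow_smooth (ν : ℝ) (k : ℕ) : ContDiff ℝ ∞ fun w => ell ν w ^ k := by
  unfold ell; fun_prop

lemma parts {g : E2 → ℝ} (hg : ContDiff ℝ ∞ g) (ho : Off g) (ν : ℝ) (k : ℕ) (v : E2) :
    ∫ z, ell ν z ^ (k + 1) * fderiv ℝ g z v
      = -((k + 1 : ℝ) * (v.1 - ν * v.2)) * ∫ z, ell ν z ^ k * g z := by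
  have h := integral_mul_fderiv (hg.of_le (by simp)) ((ell_pow_smooth ν (k + 1)).of_le (by simp))
    (off_compact ho) v
  have e1 : (fun z => g z * fderiv ℝ (fun w => ell ν w ^ (k + 1)) z v)
      = fun z => ((k + 1 : ℝ) * (v.1 - ν * v.2)) * (ell ν z ^ k * g z) := by
    funext z; rw [fderiv_ell_pow, Nat.add_sub_cancel]; push_cast; ring
  rw [e1, integral_const_mul] at h
  have e2 : (fun z => ell ν z ^ (k + 1) * fderiv ℝ g z v)
      = fun z => fderiv ℝ g z v * ell ν z ^ (k + 1) := by funext z; ring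
  rw [e2]; linarith

lemma iter_moment {g : E2 → ℝ} (hg : ContDiff ℝ ∞ g) (ho : Off g) (ν : ℝ) :
    ∀ n : ℕ, ∃ a : ℝ, 1 ≤ |a| ∧
      ∫ z, ell ν z ^ (n + 2) * (d1^[n]) g z = a * ∫ z, ell ν z ^ 2 * g z
  | 0 => ⟨1, by simp, by simp⟩
  | n + 1 => by
    obtain ⟨a, ha, he⟩ := iter_moment hg ho ν n
    refine ⟨-((n + 3 : ℕ) : ℝ) * a, ?_, ?_⟩
    · rw [abs_mul, abs_neg, Nat.abs_cast]
      have : (1 : ℝ) ≤ ((n + 3 : ℕ) : ℝ) := by push_cast; linarith [(n.cast_nonneg : (0:ℝ) ≤ n)]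
      nlinarith [abs_nonneg a]
    · rw [Function.iterate_succ_apply']
      have h := parts (smooth_iter hg n) (off_iter ho n) ν (n + 2) (1, 0)
      simp only [d1]
      rw [show n + 1 + 2 = n + 2 + 1 by ring, h]
      simp only [mul_zero, sub_zero, mul_one]
      rw [show (∫ z, ell ν z ^ (n + 2) * ((d1^[n]) g) z) = a * ∫ z, ell ν z ^ 2 * g z from he]
      push_cast; ring

lemma lap_moment (ν : ℝ) :
    ∫ z, ell ν z ^ 2 * lap bumpB z = 2 * (1 + ν ^ 2) * ∫ z, bumpB z := by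
  have key : ∀ v : E2, ∫ z, ell ν z ^ 2 * fderiv ℝ (fun w => fderiv ℝ bumpB w v) z v
      = 2 * (v.1 - ν * v.2) ^ 2 * ∫ z, bumpB z := by
    intro v
    have hs : ContDiff ℝ ∞ fun w => fderiv ℝ bumpB w v :=
      (bumpB_smooth.fderiv_right (by simp)).clm_apply contDiff_const
    have h1 := parts hs (off_deriv bumpB_off v) ν 1 v
    have h2 := parts bumpB_smooth bumpB_off ν 0 v
    simp only [pow_zero, one_mul, Nat.cast_zero, zero_add, pow_one] at h2
    simp only [pow_one, Nat.cast_one] at h1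
    rw [show (2 : ℕ) = 1 + 1 by rfl, h1, h2]
    ring
  have int1 : ∀ f : E2 → ℝ, ContDiff ℝ ∞ f → Off f → Integrable fun z => ell ν z ^ 2 * f z :=
    fun f hf ho => ((ell_pow_smooth ν 2).continuous.mul hf.continuous).integrable_of_hasCompactSupport
      ((off_compact ho).mul_left)
  have a1 := key (1, 0)
  have a2 := key (0, 1)
  simp only [mul_zero, sub_zero, mul_one, zero_sub] at a1 a2
  unfold lap
  simp only [mul_add]
  rw [integral_add (int1 _ (smooth_d1 (smooth_d1 bumpB_smooth)) (off_d1 (off_d1 bumpB_off)))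
    (int1 _ (smooth_d2 (smooth_d2 bumpB_smooth)) (off_deriv (off_deriv bumpB_off (0, 1)) (0, 1)))]
  unfold d1 d2
  rw [a1, a2]; ring

lemma bump_pos : 0 < ∫ z, bumpB z := by
  refine bumpB_smooth.continuous.integral_pos_of_hasCompactSupport_nonneg_nonzero
    (off_compact bumpB_off) (fun z => Real.smoothTransition.nonneg _) (x := 0) ?_
  have : bumpB 0 = 1 := Real.smoothTransition.one_of_one_le (by norm_num [sqn])
  rw [this]; norm_num

/-- The moments of the line integrals. -/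
lemma moment_eq {g : E2 → ℝ} (hg : Continuous g) (ho : Off g) (ν : ℝ) (hν : |ν| ≤ 1) (k : ℕ) :
    ∫ ξ, ξ ^ k * ∫ τ, g (ξ + ν * τ, τ) = ∫ z, ell ν z ^ k * g z := by
  have hint : Integrable (Function.uncurry fun ξ τ => ξ ^ k * g (ξ + ν * τ, τ))
      (volume.prod volume) := by
    refine Continuous.integrable_of_hasCompactSupport ?_ ?_
    · unfold Function.uncurry; fun_prop
    refine HasCompactSupport.intro ((isCompact_Icc (a := (-4:ℝ)) (b := 4)).prod
      (isCompact_Icc (a := (-4:ℝ)) (b := 4))) fun z hz => ?_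
    have : 2 < sqn (z.1 + ν * z.2, z.2) := by
      by_contra hc
      obtain ⟨h1, h2⟩ := abs_le_two (not_lt.1 hc)
      have h3 : |ν * z.2| ≤ 3 / 2 := by
        rw [abs_mul]; exact le_trans (mul_le_of_le_one_left (abs_nonneg _) hν) h2
      simp only at h1 h2
      rw [abs_le] at h1 h2 h3
      exact hz ⟨⟨by linarith, by linarith⟩, ⟨by linarith, by linarith⟩⟩
    simp [Function.uncurry, ho _ this]
  have hint2 : Integrable (fun z => ell ν z ^ k * g z) (volume.prod volume) :=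
    ((ell_pow_smooth ν k).continuous.mul hg).integrable_of_hasCompactSupport
      (off_compact ho).mul_left
  simp_rw [← integral_const_mul]
  rw [integral_integral_swap hint]
  have : ∀ τ, ∫ ξ, ξ ^ k * g (ξ + ν * τ, τ) = ∫ x, ell ν (x, τ) ^ k * g (x, τ) := by
    intro τ
    rw [← integral_add_right_eq_self (fun x => ell ν (x, τ) ^ k * g (x, τ)) (ν * τ)]
    simp [ell]
  simp_rw [this]
  rw [Measure.volume_eq_prod, integral_prod_symm _ hint2]

lemma bumpJ_zero (n : ℕ) {ν ξ : ℝ} (hν : |ν| ≤ 1) (hξ : 4 < |ξ|) : bumpJ n ν ξ = 0 := by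
  unfold bumpJ
  rw [integral_eq_zero_of_ae]
  refine Filter.Eventually.of_forall fun τ => ?_
  refine off_iter lapB_off n _ ?_
  by_contra hc
  obtain ⟨h1, h2⟩ := abs_le_two (not_lt.1 hc)
  simp only at h1 h2
  have h3 : |ν * τ| ≤ 3 / 2 := by
    rw [abs_mul]; exact le_trans (mul_le_of_le_one_left (abs_nonneg _) hν) h2
  have := abs_sub (ξ + ν * τ) (ν * τ)
  rw [add_sub_cancel_right] at this
  linarith

end Bump

open Bump in
/-- A uniform lower bound for some line integral. -/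
theorem bump_line (n : ℕ) :
    ∃ c : ℝ, 0 < c ∧ ∀ ν : ℝ, |ν| ≤ 1 → ∃ ξ : ℝ, |ξ| ≤ 4 ∧ c ≤ |bumpJ n ν ξ| := by
  set m := ∫ z, bumpB z with hm
  refine ⟨m / (9 * 4 ^ (n + 2)), div_pos bump_pos (by positivity), fun ν hν => ?_⟩
  by_contra hc
  push Not at hc
  set c := m / (9 * 4 ^ (n + 2)) with hcdef
  obtain ⟨a, ha, he⟩ := iter_moment lapB_smooth lapB_off ν n
  have hM : ∫ ξ, ξ ^ (n + 2) * bumpJ n ν ξ = a * (2 * (1 + ν ^ 2) * m) := by
    have := moment_eq (smooth_iter lapB_smooth n).continuous (off_iter lapB_off n) ν hν (n + 2)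
    unfold bumpJ
    rw [this, he, lap_moment]
  have hlow : 2 * m ≤ |∫ ξ, ξ ^ (n + 2) * bumpJ n ν ξ| := by
    rw [hM, abs_mul, abs_of_nonneg (a := 2 * (1 + ν ^ 2) * m) (by have := bump_pos; positivity)]
    have := bump_pos
    nlinarith [mul_le_mul_of_nonneg_right ha (by positivity : (0:ℝ) ≤ 2 * (1 + ν ^ 2) * m),
      mul_nonneg (sq_nonneg ν) this.le]
  have hset : ∫ ξ, ξ ^ (n + 2) * bumpJ n ν ξ = ∫ ξ in Icc (-4:ℝ) 4, ξ ^ (n + 2) * bumpJ n ν ξ := by
    refine (setIntegral_eq_integral_of_forall_compl_eq_zero fun ξ hξ => ?_).symm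
    rw [bumpJ_zero n hν, mul_zero]
    by_contra h4
    exact hξ (abs_le.1 (not_lt.1 h4))
  have hup : ‖∫ ξ in Icc (-4:ℝ) 4, ξ ^ (n + 2) * bumpJ n ν ξ‖ ≤
      4 ^ (n + 2) * c * volume.real (Icc (-4:ℝ) 4) := by
    refine norm_setIntegral_le_of_norm_le_const (measure_Icc_lt_top) fun ξ hξ => ?_
    rw [Real.norm_eq_abs, abs_mul, abs_pow]
    have h4 : |ξ| ≤ 4 := abs_le.2 hξ
    exact mul_le_mul (pow_le_pow_left₀ (abs_nonneg _) h4 _) (hc ξ h4).le (abs_nonneg _)
      (by positivity)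
  rw [Real.norm_eq_abs, ← hset, Real.volume_real_Icc_of_le (by norm_num)] at hup
  have : 4 ^ (n + 2) * c * (4 - -4) = 8 / 9 * m := by rw [hcdef]; field_simp; ring
  have := bump_pos
  nlinarith

end Vale.Agent.P229
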