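import Mathlib

/-!
# P229: calculus of the hodograph coefficients for the pure lens profile

All statements are about explicit functions of six real arguments `p y X q v w`.
-/

namespace Vale.Agent.P229.Coeff

open Real

/-- `X`-derivative of the lens profile. -/
noncomputable def PX (X y : ℝ) : ℝ := X / 2 - X * (X ^ 2 + y ^ 2) / 4

/-- `y`-derivative of the lens profile. -/
noncomputable def PY (X y : ℝ) : ℝ := y / 2 - y * (X ^ 2 + y ^ 2) / 4

/-- The lens profile. -/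
noncomputable def PS (X y : ℝ) : ℝ := (X ^ 2 + y ^ 2) / 4 - (X ^ 2 + y ^ 2) ^ 2 / 16

noncomputable def A0 (μ p y X q : ℝ) : ℝ := μ * (-(PX X y) * p + PY X y * q)

noncomputable def B0 (μ p y X q : ℝ) : ℝ := -μ * (PY X y * p + PX X y * q)

noncomputable def Xi0 (μ lam p y X q : ℝ) : ℝ :=
  exp (2 * μ * PS X y) - lam ^ 2 * (p ^ 2 + q ^ 2)

noncomputable def Q0 (t lam p y X q : ℝ) : ℝ :=
  -t * (1 - (X ^ 2 + y ^ 2)) * Xi0 (t * lam ^ 2) lam p y X q

noncomputable def D0 (t lam p y X q v : ℝ) : ℝ := 1 + A0 (t * lam ^ 2) p y X q * v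

noncomputable def C0 (t lam p y X q w : ℝ) : ℝ :=
  B0 (t * lam ^ 2) p y X q - A0 (t * lam ^ 2) p y X q * w

noncomputable def gam0 (t lam p y X q v w : ℝ) : ℝ :=
  (Q0 t lam p y X q + C0 t lam p y X q w ^ 2) / D0 t lam p y X q v ^ 2

noncomputable def bet0 (t lam p y X q v w : ℝ) : ℝ :=
  2 * C0 t lam p y X q w / D0 t lam p y X q v

noncomputable def rhs0 (t lam p y X q v w : ℝ) : ℝ :=
  A0 (t * lam ^ 2) p y X q +
    ((Q0 t lam p y X q + B0 (t * lam ^ 2) p y X q ^ 2) * v + 2 * B0 (t * lam ^ 2) p y X q * w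
      - A0 (t * lam ^ 2) p y X q * w ^ 2) / D0 t lam p y X q v

/-- Sizes of the arguments. -/
structure Sz (t lam S p y X q v w : ℝ) : Prop where
  t_pos : 0 < t
  t_le : t ≤ 1 / 10000
  lam_pos : 0 < lam
  lam_le : lam ≤ 1 / 100000
  tS : t ≤ S
  p4 : |p| ≤ 4
  y4 : |y| ≤ 4
  X5 : |X| ≤ 5
  q5 : |q| ≤ 5
  pS : |p| ≤ S
  XS : |X| ≤ S
  qS : |q| ≤ S
  v1 : |v - 1| ≤ 1 / 10
  w1 : |w| ≤ 1 / 10

lemma ab {a b A B : ℝ} (h1 : |a| ≤ A) (h2 : |b| ≤ B) : |a * b| ≤ A * B := by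
  rw [abs_mul]; exact mul_le_mul h1 h2 (abs_nonneg _) (le_trans (abs_nonneg _) h1)

lemma tri {a b A B : ℝ} (h1 : |a| ≤ A) (h2 : |b| ≤ B) : |a + b| ≤ A + B :=
  le_trans (abs_add_le a b) (add_le_add h1 h2)

lemma trs {a b A B : ℝ} (h1 : |a| ≤ A) (h2 : |b| ≤ B) : |a - b| ≤ A + B :=
  le_trans (abs_sub a b) (add_le_add h1 h2)

lemma mle {μ a A : ℝ} (hμ : 0 ≤ μ) (h : |a| ≤ A) : |μ * a| ≤ μ * A := by
  rw [abs_mul, abs_of_nonneg hμ]; exact mul_le_mul_of_nonneg_left h hμ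

lemma div_le {a A D c : ℝ} (h : |a| ≤ A) (hc : 0 < c) (hD : c ≤ |D|) : |a / D| ≤ A / c := by
  rw [abs_div]; exact div_le_div₀ (le_trans (abs_nonneg _) h) h hc hD

variable {t lam S p y X q v w : ℝ}

lemma Sz.S_nonneg (h : Sz t lam S p y X q v w) : 0 ≤ S := le_trans h.t_pos.le h.tS

lemma Sz.mu_nonneg (h : Sz t lam S p y X q v w) : 0 ≤ t * lam ^ 2 :=
  mul_nonneg h.t_pos.le (sq_nonneg _)

lemma Sz.lam_sq (h : Sz t lam S p y X q v w) : lam ^ 2 ≤ 1 / 10000000000 := by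
  have := pow_le_pow_left₀ h.lam_pos.le h.lam_le 2
  linarith

lemma Sz.mu_le (h : Sz t lam S p y X q v w) : t * lam ^ 2 ≤ 1 / 100000000000000 := by
  have := mul_le_mul h.t_le h.lam_sq (sq_nonneg _) (by norm_num)
  linarith

lemma Sz.sqs (h : Sz t lam S p y X q v w) : X ^ 2 ≤ 25 ∧ y ^ 2 ≤ 16 ∧ p ^ 2 ≤ 16 ∧ q ^ 2 ≤ 25 := by
  refine ⟨?_, ?_, ?_, ?_⟩ <;> rw [← sq_abs]
  · have := pow_le_pow_left₀ (abs_nonneg _) h.X5 2; linarith
  · have := pow_le_pow_left₀ (abs_nonneg _) h.y4 2; linarith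
  · have := pow_le_pow_left₀ (abs_nonneg _) h.p4 2; linarith
  · have := pow_le_pow_left₀ (abs_nonneg _) h.q5 2; linarith

lemma Sz.PX_le (h : Sz t lam S p y X q v w) : |PX X y| ≤ 55 ∧ |PX X y| ≤ 11 * S := by
  obtain ⟨h1, h2, -, -⟩ := h.sqs
  have e : PX X y = X * (1 / 2 - (X ^ 2 + y ^ 2) / 4) := by unfold PX; ring
  have hk : |1 / 2 - (X ^ 2 + y ^ 2) / 4| ≤ 11 := by
    rw [abs_le]; constructor <;> nlinarith [sq_nonneg X, sq_nonneg y]
  rw [e]; exact ⟨(ab h.X5 hk).trans (by norm_num), (ab h.XS hk).trans (by linarith)⟩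

lemma Sz.PY_le (h : Sz t lam S p y X q v w) : |PY X y| ≤ 43 := by
  obtain ⟨h1, h2, -, -⟩ := h.sqs
  have e : PY X y = y * (1 / 2 - (X ^ 2 + y ^ 2) / 4) := by unfold PY; ring
  have hk : |1 / 2 - (X ^ 2 + y ^ 2) / 4| ≤ 43 / 4 := by
    rw [abs_le]; constructor <;> nlinarith [sq_nonneg X, sq_nonneg y]
  rw [e]; exact (ab h.y4 hk).trans (by norm_num)

lemma Sz.PS_le (h : Sz t lam S p y X q v w) : |PS X y| ≤ 120 := by
  obtain ⟨h1, h2, -, -⟩ := h.sqs
  unfold PS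
  rw [abs_le]; constructor <;> nlinarith [sq_nonneg X, sq_nonneg y]

lemma Sz.one_sub_sqn (h : Sz t lam S p y X q v w) : |1 - (X ^ 2 + y ^ 2)| ≤ 41 := by
  obtain ⟨h1, h2, -, -⟩ := h.sqs
  rw [abs_le]; constructor <;> nlinarith [sq_nonneg X, sq_nonneg y]

lemma Sz.exp_le (h : Sz t lam S p y X q v w) :
    |exp (2 * (t * lam ^ 2) * PS X y) - 1| ≤ 1 / 1000 := by
  have hu : |2 * (t * lam ^ 2) * PS X y| ≤ 1 / 2000 :=
    (ab (A := 2 * (1 / 100000000000000))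
      (by rw [abs_of_nonneg (by linarith [h.mu_nonneg])]; linarith [h.mu_le]) h.PS_le).trans
      (by norm_num)
  exact (abs_exp_sub_one_le (hu.trans (by norm_num))).trans (by linarith)

lemma Sz.Xi_le (h : Sz t lam S p y X q v w) :
    |Xi0 (t * lam ^ 2) lam p y X q - 1| ≤ 1 / 500 := by
  obtain ⟨-, -, h3, h4⟩ := h.sqs
  have h5 : |lam ^ 2 * (p ^ 2 + q ^ 2)| ≤ 1 / 10000000000 * 41 :=
    ab (by rw [abs_of_nonneg (sq_nonneg _)]; exact h.lam_sq)
      (by rw [abs_of_nonneg (by positivity)]; linarith)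
  have e : Xi0 (t * lam ^ 2) lam p y X q - 1
      = (exp (2 * (t * lam ^ 2) * PS X y) - 1) - lam ^ 2 * (p ^ 2 + q ^ 2) := by unfold Xi0; ring
  rw [e]; exact (trs h.exp_le h5).trans (by norm_num)

lemma Sz.Xi_abs (h : Sz t lam S p y X q v w) : |Xi0 (t * lam ^ 2) lam p y X q| ≤ 501 / 500 := by
  have := abs_le.1 h.Xi_le
  rw [abs_le]; constructor <;> linarith

lemma Sz.A_le (h : Sz t lam S p y X q v w) :
    |A0 (t * lam ^ 2) p y X q| ≤ t * lam ^ 2 * 435 ∧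
    |A0 (t * lam ^ 2) p y X q| ≤ t * lam ^ 2 * (87 * S) := by
  constructor
  · exact (mle h.mu_nonneg (tri (ab ((abs_neg _).trans_le h.PX_le.1) h.p4)
      (ab h.PY_le h.q5))).trans (mul_le_mul_of_nonneg_left (by norm_num) h.mu_nonneg)
  · exact (mle h.mu_nonneg (tri (ab ((abs_neg _).trans_le h.PX_le.2) h.p4)
      (ab h.PY_le h.qS))).trans (mul_le_mul_of_nonneg_left (by linarith) h.mu_nonneg)

lemma Sz.B_le (h : Sz t lam S p y X q v w) :
    |B0 (t * lam ^ 2) p y X q| ≤ t * lam ^ 2 * 447 ∧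
    |B0 (t * lam ^ 2) p y X q| ≤ t * lam ^ 2 * (98 * S) := by
  have e : |B0 (t * lam ^ 2) p y X q| = |t * lam ^ 2 * (PY X y * p + PX X y * q)| := by
    unfold B0; rw [neg_mul, abs_neg]
  rw [e]
  constructor
  · exact (mle h.mu_nonneg (tri (ab h.PY_le h.p4) (ab h.PX_le.1 h.q5))).trans
      (mul_le_mul_of_nonneg_left (by norm_num) h.mu_nonneg)
  · exact (mle h.mu_nonneg (tri (ab h.PY_le h.pS) (ab h.PX_le.1 h.qS))).trans
      (mul_le_mul_of_nonneg_left (by linarith) h.mu_nonneg)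

lemma Sz.v_le (h : Sz t lam S p y X q v w) : |v| ≤ 11 / 10 := by
  have := abs_le.1 h.v1
  rw [abs_le]; constructor <;> linarith

lemma Sz.C_le (h : Sz t lam S p y X q v w) :
    |C0 t lam p y X q w| ≤ t * lam ^ 2 * 491 ∧ |C0 t lam p y X q w| ≤ t * lam ^ 2 * (107 * S) := by
  have := mul_nonneg h.mu_nonneg h.S_nonneg
  constructor
  · exact (trs h.B_le.1 (ab h.A_le.1 h.w1)).trans (by linarith [h.mu_nonneg])
  · exact (trs h.B_le.2 (ab h.A_le.2 h.w1)).trans (by linarith [h.mu_nonneg])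

lemma Sz.D_le (h : Sz t lam S p y X q v w) : |D0 t lam p y X q v - 1| ≤ 1 / 10000 := by
  have e : D0 t lam p y X q v - 1 = A0 (t * lam ^ 2) p y X q * v := by unfold D0; ring
  rw [e]
  exact (ab h.A_le.1 h.v_le).trans (by linarith [h.mu_le, h.mu_nonneg])

lemma Sz.D_pos (h : Sz t lam S p y X q v w) : 9999 / 10000 ≤ D0 t lam p y X q v := by
  have := abs_le.1 h.D_le; linarith

lemma Sz.D_abs (h : Sz t lam S p y X q v w) : 9999 / 10000 ≤ |D0 t lam p y X q v| :=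
  le_trans h.D_pos (le_abs_self _)

lemma Sz.D2_abs (h : Sz t lam S p y X q v w) : 99 / 100 ≤ |D0 t lam p y X q v ^ 2| := by
  have := pow_le_pow_left₀ (by norm_num) h.D_abs 2
  rw [abs_pow]; linarith

lemma Sz.D3_abs (h : Sz t lam S p y X q v w) : 99 / 100 ≤ |D0 t lam p y X q v ^ 3| := by
  have := pow_le_pow_left₀ (by norm_num) h.D_abs 3
  rw [abs_pow]; linarith

lemma Sz.Q_le (h : Sz t lam S p y X q v w) : |Q0 t lam p y X q| ≤ 42 * t := by
  refine (ab (A := 41 * t) ?_ h.Xi_abs).trans (by linarith [h.t_pos])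
  exact (ab (A := t) (by rw [abs_neg, abs_of_pos h.t_pos]) h.one_sub_sqn).trans (by linarith [h.t_pos])

lemma Sz.gam_le (h : Sz t lam S p y X q v w) : |gam0 t lam p y X q v w| ≤ 50 := by
  have hC : |C0 t lam p y X q w ^ 2| ≤ 1 := by
    rw [sq]; exact (ab h.C_le.1 h.C_le.1).trans (by nlinarith [h.mu_le, h.mu_nonneg])
  refine (div_le (tri h.Q_le hC) (by norm_num) h.D2_abs).trans ?_
  rw [div_le_iff₀ (by norm_num)]; linarith [h.t_le]

lemma Sz.bet_le (h : Sz t lam S p y X q v w) :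
    |bet0 t lam p y X q v w| ≤ 1100 * (t * lam ^ 2) := by
  refine (div_le (ab (a := 2) (A := 2) (by norm_num) h.C_le.1) (by norm_num) h.D_abs).trans ?_
  rw [div_le_iff₀ (by norm_num)]; linarith [h.mu_nonneg]

lemma Sz.rhs_le (h : Sz t lam S p y X q v w) : |rhs0 t lam p y X q v w| ≤ 100 * S := by
  have hS := h.S_nonneg
  have hμ := h.mu_nonneg
  have m0 : t * lam ^ 2 ≤ 1 / 10000 := h.mu_le.trans (by norm_num)
  have hm : t * lam ^ 2 * S ≤ 1 / 10000 * S := mul_le_mul_of_nonneg_right m0 hS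
  have hB2 : |B0 (t * lam ^ 2) p y X q ^ 2| ≤ S := by
    rw [sq]
    refine (ab h.B_le.1 h.B_le.2).trans ?_
    have := mul_le_mul h.mu_le hm (mul_nonneg hμ hS) (by norm_num)
    nlinarith
  have hN := trs (tri (ab (tri (h.Q_le) hB2) h.v_le)
    (ab (ab (a := 2) (A := 2) (by norm_num) h.B_le.2) h.w1))
    (ab h.A_le.2 (show |w ^ 2| ≤ 1 by rw [abs_pow]; exact pow_le_one₀ (abs_nonneg _) (h.w1.trans (by norm_num))))
  refine (tri h.A_le.2 (div_le hN (by norm_num) h.D_abs)).trans ?_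
  rw [← le_sub_iff_add_le', div_le_iff₀ (by norm_num)]
  linarith [h.tS]

/-! ### Derivatives along a curve -/

variable {P Y Xf qf vf wf : ℝ → ℝ} {s dp dy dX dq dv dw : ℝ}

/-- A curve of arguments through the given point, with small tangent. -/
structure Cur (P Y Xf qf vf wf : ℝ → ℝ) (s p y X q v w dp dy dX dq dv dw : ℝ) : Prop where
  hP : HasDerivAt P dp s
  hY : HasDerivAt Y dy s
  hX : HasDerivAt Xf dX s
  hq : HasDerivAt qf dq s
  hv : HasDerivAt vf dv s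
  hw : HasDerivAt wf dw s
  eP : P s = p
  eY : Y s = y
  eX : Xf s = X
  eq : qf s = q
  ev : vf s = v
  ew : wf s = w
  bP : |dp| ≤ 2
  bY : |dy| ≤ 2
  bX : |dX| ≤ 2
  bq : |dq| ≤ 2
  bv : |dv| ≤ 2
  bw : |dw| ≤ 2

lemma Cur.base (h : Sz t lam S p y X q v w)
    (c : Cur P Y Xf qf vf wf s p y X q v w dp dy dX dq dv dw) :
    ∃ A' B' E : ℝ,
      HasDerivAt (fun r => A0 (t * lam ^ 2) (P r) (Y r) (Xf r) (qf r)) A' s ∧
      HasDerivAt (fun r => B0 (t * lam ^ 2) (P r) (Y r) (Xf r) (qf r)) B' s ∧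
      HasDerivAt (fun r => Q0 t lam (P r) (Y r) (Xf r) (qf r))
        (2 * t * (X * dX + y * dy) * Xi0 (t * lam ^ 2) lam p y X q + E) s ∧
      |A'| ≤ t * lam ^ 2 * 758 ∧ |A'| ≤ t * lam ^ 2 * (148 * S + 43 * |dq|) ∧
      |B'| ≤ t * lam ^ 2 * 768 ∧ |B'| ≤ t * lam ^ 2 * (148 * S + 43 * |dp|) ∧
      |E| ≤ t * lam ^ 2 * (4000 * S + 7100 * |dy|) := by
  obtain ⟨sX, sy, -, -⟩ := h.sqs
  have hS := h.S_nonneg
  have hμ := h.mu_nonneg
  have hr : HasDerivAt (fun r => Xf r ^ 2 + Y r ^ 2) (2 * X * dX + 2 * y * dy) s := by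
    refine ((c.hX.pow 2).add (c.hY.pow 2)).congr_deriv ?_
    rw [c.eX, c.eY]; push_cast; ring
  have hPX : HasDerivAt (fun r => PX (Xf r) (Y r))
      ((1 / 2 - (3 * X ^ 2 + y ^ 2) / 4) * dX + -(X * y / 2) * dy) s := by
    refine ((c.hX.div_const 2).sub ((c.hX.mul hr).div_const 4)).congr_deriv ?_
    rw [c.eX, c.eY]; ring
  have hPY : HasDerivAt (fun r => PY (Xf r) (Y r))
      (-(X * y / 2) * dX + (1 / 2 - (X ^ 2 + 3 * y ^ 2) / 4) * dy) s := by
    refine ((c.hY.div_const 2).sub ((c.hY.mul hr).div_const 4)).congr_deriv ?_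
    rw [c.eX, c.eY]; ring
  have hPS : HasDerivAt (fun r => PS (Xf r) (Y r)) (PX X y * dX + PY X y * dy) s := by
    refine ((hr.div_const 4).sub ((hr.pow 2).div_const 16)).congr_deriv ?_
    simp only [c.eX, c.eY, PX, PY]; push_cast; ring
  have hA : HasDerivAt (fun r => A0 (t * lam ^ 2) (P r) (Y r) (Xf r) (qf r))
      (t * lam ^ 2 * (-((1 / 2 - (3 * X ^ 2 + y ^ 2) / 4) * dX + -(X * y / 2) * dy) * p
        + -(PX X y) * dp + ((-(X * y / 2) * dX + (1 / 2 - (X ^ 2 + 3 * y ^ 2) / 4) * dy) * q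
        + PY X y * dq))) s := by
    refine (((hPX.neg.mul c.hP).add (hPY.mul c.hq)).const_mul (t * lam ^ 2)).congr_deriv ?_
    simp only [c.eX, c.eY, c.eP, c.eq, Pi.neg_apply]; try ring
  have hB : HasDerivAt (fun r => B0 (t * lam ^ 2) (P r) (Y r) (Xf r) (qf r))
      (-(t * lam ^ 2) * ((-(X * y / 2) * dX + (1 / 2 - (X ^ 2 + 3 * y ^ 2) / 4) * dy) * p
        + PY X y * dp + (((1 / 2 - (3 * X ^ 2 + y ^ 2) / 4) * dX + -(X * y / 2) * dy) * q
        + PX X y * dq))) s := by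
    refine (((hPY.mul c.hP).add (hPX.mul c.hq)).const_mul (-(t * lam ^ 2))).congr_deriv ?_
    simp only [c.eX, c.eY, c.eP, c.eq, Pi.neg_apply]; try ring
  set E0 := exp (2 * (t * lam ^ 2) * PS X y) with hE0
  have hXi : HasDerivAt (fun r => Xi0 (t * lam ^ 2) lam (P r) (Y r) (Xf r) (qf r))
      (E0 * (2 * (t * lam ^ 2) * (PX X y * dX + PY X y * dy))
        - lam ^ 2 * (2 * (p * dp + q * dq))) s := by
    refine (((hPS.const_mul (2 * (t * lam ^ 2))).exp).sub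
      (((c.hP.pow 2).add (c.hq.pow 2)).const_mul (lam ^ 2))).congr_deriv ?_
    simp only [c.eX, c.eY, c.eP, c.eq, hE0]; push_cast; ring
  have hQ : HasDerivAt (fun r => Q0 t lam (P r) (Y r) (Xf r) (qf r))
      (2 * t * (X * dX + y * dy) * Xi0 (t * lam ^ 2) lam p y X q
        + -t * (1 - (X ^ 2 + y ^ 2)) * (E0 * (2 * (t * lam ^ 2) * (PX X y * dX + PY X y * dy))
        - lam ^ 2 * (2 * (p * dp + q * dq)))) s := by
    refine (((hr.const_sub 1).const_mul (-t)).mul hXi).congr_deriv ?_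
    simp only [c.eX, c.eY, c.eP, c.eq]; ring
  have kXY : |-(X * y / 2)| ≤ 10 := by
    rw [abs_neg, abs_div, abs_two, div_le_iff₀ (by norm_num)]
    exact (ab h.X5 h.y4).trans (by norm_num)
  have kXX : |1 / 2 - (3 * X ^ 2 + y ^ 2) / 4| ≤ 24 := by
    rw [abs_le]; constructor <;> nlinarith [sq_nonneg X, sq_nonneg y]
  have kYY : |1 / 2 - (X ^ 2 + 3 * y ^ 2) / 4| ≤ 19 := by
    rw [abs_le]; constructor <;> nlinarith [sq_nonneg X, sq_nonneg y]
  have kPX : |(1 / 2 - (3 * X ^ 2 + y ^ 2) / 4) * dX + -(X * y / 2) * dy| ≤ 68 :=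
    (tri (ab kXX c.bX) (ab kXY c.bY)).trans (by norm_num)
  have kPY : |-(X * y / 2) * dX + (1 / 2 - (X ^ 2 + 3 * y ^ 2) / 4) * dy| ≤ 58 :=
    (tri (ab kXY c.bX) (ab kYY c.bY)).trans (by norm_num)
  have kPX' := (abs_neg _).trans_le kPX
  have nPX1 := (abs_neg _).trans_le h.PX_le.1
  have nPX2 := (abs_neg _).trans_le h.PX_le.2
  refine ⟨_, _, _, hA, hB, hQ, ?_, ?_, ?_, ?_, ?_⟩
  · exact (mle hμ (tri (tri (ab kPX' h.p4) (ab nPX1 c.bP))
      (tri (ab kPY h.q5) (ab h.PY_le c.bq)))).trans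
      (mul_le_mul_of_nonneg_left (by norm_num) hμ)
  · exact (mle hμ (tri (tri (ab kPX' h.pS) (ab nPX2 c.bP))
      (tri (ab kPY h.qS) (ab h.PY_le (le_refl |dq|))))).trans
      (mul_le_mul_of_nonneg_left (by linarith) hμ)
  · rw [neg_mul, abs_neg]
    exact (mle hμ (tri (tri (ab kPY h.p4) (ab h.PY_le c.bP))
      (tri (ab kPX h.q5) (ab h.PX_le.1 c.bq)))).trans
      (mul_le_mul_of_nonneg_left (by norm_num) hμ)
  · rw [neg_mul, abs_neg]
    exact (mle hμ (tri (tri (ab kPY h.pS) (ab h.PY_le (le_refl |dp|)))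
      (tri (ab kPX h.qS) (ab h.PX_le.2 c.bq)))).trans
      (mul_le_mul_of_nonneg_left (by linarith) hμ)
  · have hE0' : |E0| ≤ 2 := by
      have := abs_le.1 h.exp_le
      rw [abs_le]; constructor <;> linarith
    have k1 := ab hE0' (ab (a := 2 * (t * lam ^ 2)) (A := 2 * (t * lam ^ 2))
      (abs_of_nonneg (by linarith)).le
      (tri (ab h.PX_le.2 c.bX) (ab h.PY_le (le_refl |dy|))))
    have k2 := mle (sq_nonneg lam) (ab (a := 2) (A := 2) (by norm_num)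
      (tri (ab h.pS c.bP) (ab h.qS c.bq)))
    refine (ab (ab (A := t) (by rw [abs_neg, abs_of_pos h.t_pos]) h.one_sub_sqn)
      (trs k1 k2)).trans ?_
    have h1 : t * (t * lam ^ 2 * (88 * S + 172 * |dy|))
        ≤ 1 * (t * lam ^ 2 * (88 * S + 172 * |dy|)) :=
      mul_le_mul_of_nonneg_right (h.t_le.trans (by norm_num))
        (mul_nonneg hμ (by positivity))
    have e1 : t * (lam ^ 2 * S) = t * lam ^ 2 * S := by ring
    nlinarith [mul_nonneg hμ hS, mul_nonneg hμ (abs_nonneg dy)]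

/-- Derivatives of `gam0` and `bet0`. -/
lemma Cur.gam_bet (h : Sz t lam S p y X q v w)
    (c : Cur P Y Xf qf vf wf s p y X q v w dp dy dX dq dv dw) :
    ∃ g' b' : ℝ,
      HasDerivAt (fun r => gam0 t lam (P r) (Y r) (Xf r) (qf r) (vf r) (wf r)) g' s ∧
      HasDerivAt (fun r => bet0 t lam (P r) (Y r) (Xf r) (qf r) (vf r) (wf r)) b' s ∧
      |g' - 2 * t * (X * dX + y * dy) * Xi0 (t * lam ^ 2) lam p y X q / D0 t lam p y X q v ^ 2|
        ≤ t * lam ^ 2 * (200000 * S + 8000 * |dy|) ∧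
      |b'| ≤ t * lam ^ 2 * 4000 ∧
      |b'| ≤ t * lam ^ 2 * (1000 * S + 100 * |dp| + 20 * |dq|) := by
  obtain ⟨A', B', E, hA, hB, hQ, a1, a2, b1, b2, e1⟩ := c.base h
  have hS := h.S_nonneg
  have hμ := h.mu_nonneg
  set Cv := C0 t lam p y X q w with hCv
  set Dv := D0 t lam p y X q v with hDv
  have hC : HasDerivAt (fun r => C0 t lam (P r) (Y r) (Xf r) (qf r) (wf r))
      (B' - (A' * w + A0 (t * lam ^ 2) p y X q * dw)) s := by
    refine (hB.sub (hA.mul c.hw)).congr_deriv ?_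
    simp only [c.eX, c.eY, c.eP, c.eq, c.ew]
  have hD : HasDerivAt (fun r => D0 t lam (P r) (Y r) (Xf r) (qf r) (vf r))
      (A' * v + A0 (t * lam ^ 2) p y X q * dv) s := by
    refine ((hA.mul c.hv).const_add 1).congr_deriv ?_
    simp only [c.eX, c.eY, c.eP, c.eq, c.ev]
  set C' := B' - (A' * w + A0 (t * lam ^ 2) p y X q * dw) with hC'
  set D' := A' * v + A0 (t * lam ^ 2) p y X q * dv with hD'
  have hne : D0 t lam (P s) (Y s) (Xf s) (qf s) (vf s) ≠ 0 := by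
    simp only [c.eX, c.eY, c.eP, c.eq, c.ev]; exact ne_of_gt (by linarith [h.D_pos])
  have hg := ((hQ.add (hC.pow 2)).div (hD.pow 2) (pow_ne_zero 2 hne))
  have hb := ((hC.const_mul 2).div hD hne)
  refine ⟨(2 * t * (X * dX + y * dy) * Xi0 (t * lam ^ 2) lam p y X q + E + 2 * Cv * C') / Dv ^ 2
      - 2 * (Q0 t lam p y X q + Cv ^ 2) * D' / Dv ^ 3,
    2 * C' / Dv - 2 * Cv * D' / Dv ^ 2, hg.congr_deriv ?_, hb.congr_deriv ?_, ?_, ?_, ?_⟩
  · simp only [c.eX, c.eY, c.eP, c.eq, c.ev, c.ew, Pi.add_apply, Pi.pow_apply, ← hCv, ← hDv]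
    have : Dv ≠ 0 := ne_of_gt (by linarith [h.D_pos])
    field_simp; ring
  · simp only [c.eX, c.eY, c.eP, c.eq, c.ev, c.ew, ← hCv, ← hDv]
    have : Dv ≠ 0 := ne_of_gt (by linarith [h.D_pos])
    field_simp; try ring
  all_goals have kD : |D'| ≤ t * lam ^ 2 * 1800 :=
    (tri (ab a1 h.v_le) (ab h.A_le.1 c.bv)).trans (by linarith)
  · have kC : |C'| ≤ t * lam ^ 2 * 1714 :=
      (trs b1 (tri (ab a1 h.w1) (ab h.A_le.1 c.bw))).trans (by linarith)
    have k1 := tri e1 (ab (ab (a := 2) (A := 2) (by norm_num) h.C_le.2) kC)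
    have k2 : |Q0 t lam p y X q + Cv ^ 2| ≤ 43 * S := by
      rw [sq]
      refine (tri h.Q_le (ab h.C_le.1 h.C_le.2)).trans ?_
      have := mul_le_mul_of_nonneg_right h.mu_le (mul_nonneg hμ hS)
      have := mul_le_mul_of_nonneg_right h.mu_le hS
      nlinarith [h.tS]
    rw [show (2 * t * (X * dX + y * dy) * Xi0 (t * lam ^ 2) lam p y X q + E + 2 * Cv * C') / Dv ^ 2
      - 2 * (Q0 t lam p y X q + Cv ^ 2) * D' / Dv ^ 3
      - 2 * t * (X * dX + y * dy) * Xi0 (t * lam ^ 2) lam p y X q / Dv ^ 2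
      = (E + 2 * Cv * C') / Dv ^ 2 - 2 * (Q0 t lam p y X q + Cv ^ 2) * D' / Dv ^ 3 by ring]
    refine (trs (div_le k1 (by norm_num) h.D2_abs)
      (div_le (ab (ab (a := 2) (A := 2) (by norm_num) k2) kD) (by norm_num) h.D3_abs)).trans ?_
    rw [← add_div, div_le_iff₀ (by norm_num)]
    have := mul_le_mul_of_nonneg_right h.mu_le (mul_nonneg hμ hS)
    have := mul_nonneg hμ hS
    have := mul_nonneg hμ (abs_nonneg dy)
    linarith
  · have kC : |C'| ≤ t * lam ^ 2 * 1714 :=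
      (trs b1 (tri (ab a1 h.w1) (ab h.A_le.1 c.bw))).trans (by linarith)
    refine (trs (div_le (ab (a := 2) (A := 2) (by norm_num) kC) (by norm_num) h.D_abs)
      (div_le (ab (ab (a := 2) (A := 2) (by norm_num) h.C_le.1) kD) (by norm_num) h.D2_abs)).trans ?_
    rw [← le_sub_iff_add_le, div_le_iff₀ (by norm_num), sub_mul, div_mul_eq_mul_div,
      le_sub_iff_add_le, ← le_sub_iff_add_le', div_le_iff₀ (by norm_num)]
    have := mul_le_mul_of_nonneg_right h.mu_le hμ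
    nlinarith
  · have kC : |C'| ≤ t * lam ^ 2 * (340 * S + 43 * |dp| + 5 * |dq|) :=
      (trs b2 (tri (ab a2 h.w1) (ab h.A_le.2 c.bw))).trans
        (by linarith [mul_nonneg hμ hS, mul_nonneg hμ (abs_nonneg dq)])
    refine (trs (div_le (ab (a := 2) (A := 2) (by norm_num) kC) (by norm_num) h.D_abs)
      (div_le (ab (ab (a := 2) (A := 2) (by norm_num) h.C_le.2) kD) (by norm_num) h.D2_abs)).trans ?_
    rw [← le_sub_iff_add_le, div_le_iff₀ (by norm_num), sub_mul, div_mul_eq_mul_div,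
      le_sub_iff_add_le, ← le_sub_iff_add_le', div_le_iff₀ (by norm_num)]
    have := mul_le_mul_of_nonneg_right h.mu_le (mul_nonneg hμ hS)
    have := mul_nonneg hμ hS
    have := mul_nonneg hμ (abs_nonneg dp)
    have := mul_nonneg hμ (abs_nonneg dq)
    linarith

/-- Derivative of `rhs0` when `p, y, v, w` are fixed. -/
lemma Cur.rhs_fixed (h : Sz t lam S p y X q v w)
    (c : Cur P Y Xf qf vf wf s p y X q v w 0 0 dX dq 0 0) :
    ∃ r' : ℝ,
      HasDerivAt (fun r => rhs0 t lam (P r) (Y r) (Xf r) (qf r) (vf r) (wf r)) r' s ∧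
      |r' - 2 * t * (X * dX) * Xi0 (t * lam ^ 2) lam p y X q * v / D0 t lam p y X q v|
        ≤ t * lam ^ 2 * (200000 * S + 100 * |dq|) := by
  obtain ⟨A', B', E, hA, hB, hQ, a1, a2, b1, b2, e1⟩ := c.base h
  have hS := h.S_nonneg
  have hμ := h.mu_nonneg
  simp only [abs_zero, mul_zero, add_zero] at b2 e1
  set Dv := D0 t lam p y X q v with hDv
  have hD : HasDerivAt (fun r => D0 t lam (P r) (Y r) (Xf r) (qf r) (vf r)) (A' * v) s := by
    refine ((hA.mul c.hv).const_add 1).congr_deriv ?_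
    simp [c.ev]
  have hne : D0 t lam (P s) (Y s) (Xf s) (qf s) (vf s) ≠ 0 := by
    simp only [c.eX, c.eY, c.eP, c.eq, c.ev]; exact ne_of_gt (by linarith [h.D_pos])
  have hN := ((((hQ.add (hB.pow 2)).mul c.hv).add ((hB.const_mul 2).mul c.hw)).sub
    (hA.mul (c.hw.pow 2)))
  set Av := A0 (t * lam ^ 2) p y X q with hAv
  set Bv := B0 (t * lam ^ 2) p y X q with hBv
  set M := 2 * t * (X * dX) * Xi0 (t * lam ^ 2) lam p y X q with hM
  set Nv := (Q0 t lam p y X q + Bv ^ 2) * v + 2 * Bv * w - Av * w ^ 2 with hNv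
  refine ⟨A' + (((M + E + 2 * Bv * B') * v + 2 * B' * w - A' * w ^ 2) / Dv
      - Nv * (A' * v) / Dv ^ 2), (hA.add (hN.div hD hne)).congr_deriv ?_, ?_⟩
  · simp only [c.eX, c.eY, c.eP, c.eq, c.ev, c.ew, Pi.add_apply, Pi.pow_apply, Pi.sub_apply,
      Pi.mul_apply, ← hAv, ← hBv, ← hDv, hNv, hM]
    have : Dv ≠ 0 := ne_of_gt (by linarith [h.D_pos])
    field_simp; ring
  · have e : A' + (((M + E + 2 * Bv * B') * v + 2 * B' * w - A' * w ^ 2) / Dv
        - Nv * (A' * v) / Dv ^ 2) - M * v / Dv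
        = A' + (((E + 2 * Bv * B') * v + 2 * B' * w - A' * w ^ 2) / Dv
        - Nv * (A' * v) / Dv ^ 2) := by ring
    rw [e]
    have hw2 : |w ^ 2| ≤ 1 / 100 := by
      have := pow_le_pow_left₀ (abs_nonneg _) h.w1 2
      rw [abs_pow]; linarith
    have hB2 : |Bv ^ 2| ≤ S := by
      rw [sq]
      refine (ab h.B_le.1 h.B_le.2).trans ?_
      have := mul_le_mul_of_nonneg_right h.mu_le (mul_nonneg hμ hS)
      have := mul_le_mul_of_nonneg_right h.mu_le hS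
      nlinarith
    have kN : |Nv| ≤ 60 * S := by
      refine (trs (tri (ab (tri h.Q_le hB2) h.v_le)
        (ab (ab (a := 2) (A := 2) (by norm_num) h.B_le.2) h.w1)) (ab h.A_le.2 hw2)).trans ?_
      have := mul_le_mul_of_nonneg_right h.mu_le hS
      linarith [h.tS]
    have kE := trs (tri (ab (tri e1 (ab (ab (a := 2) (A := 2) (by norm_num) h.B_le.2) b1)) h.v_le)
      (ab (ab (a := 2) (A := 2) (by norm_num) b2) h.w1)) (ab a2 hw2)
    refine (tri a2 (trs (div_le kE (by norm_num) h.D_abs)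
      (div_le (ab kN (ab a1 h.v_le)) (by norm_num) h.D2_abs))).trans ?_
    rw [← le_sub_iff_add_le', ← le_sub_iff_add_le, div_le_iff₀ (by norm_num), sub_mul,
      div_mul_eq_mul_div, le_sub_iff_add_le, ← le_sub_iff_add_le', div_le_iff₀ (by norm_num)]
    have := mul_le_mul_of_nonneg_right h.mu_le (mul_nonneg hμ hS)
    have := mul_nonneg hμ hS
    have := mul_nonneg hμ (abs_nonneg dq)
    linarith

end Vale.Agent.P229.Coeff
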