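import Vale.Agent.P229.Defs

/-!
# P229, left estimates: calculus lemmas

Commutation of coordinate derivatives, a sup bound on rectangles, and the right boundary curve.
-/

namespace Vale.Agent.P229

open Real Set MeasureTheory intervalIntegral
open scoped ContDiff

lemma d1_hasDerivAt {f : E2 → ℝ} (hf : Differentiable ℝ f) (x y : ℝ) :
    HasDerivAt (fun s => f (s, y)) (d1 f (x, y)) x :=
  (hf (x, y)).hasFDerivAt.comp_hasDerivAt x ((hasDerivAt_id x).prodMk (hasDerivAt_const x y))

lemma d2_hasDerivAt {f : E2 → ℝ} (hf : Differentiable ℝ f) (x y : ℝ) :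
    HasDerivAt (fun s => f (x, s)) (d2 f (x, y)) y :=
  (hf (x, y)).hasFDerivAt.comp_hasDerivAt y ((hasDerivAt_const y x).prodMk (hasDerivAt_id y))

lemma contDiff_d1 {f : E2 → ℝ} (hf : ContDiff ℝ ∞ f) : ContDiff ℝ ∞ (d1 f) :=
  (hf.fderiv_right (by simp)).clm_apply contDiff_const

lemma contDiff_d2 {f : E2 → ℝ} (hf : ContDiff ℝ ∞ f) : ContDiff ℝ ∞ (d2 f) :=
  (hf.fderiv_right (by simp)).clm_apply contDiff_const

lemma contDiff_iter {f : E2 → ℝ} (hf : ContDiff ℝ ∞ f) (k : ℕ) : ContDiff ℝ ∞ (d1^[k] f) := by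
  induction k with
  | zero => exact hf
  | succ k ih => rw [Function.iterate_succ_apply']; exact contDiff_d1 ih

lemma d2_d1_comm {f : E2 → ℝ} (hf : ContDiff ℝ ∞ f) (z : E2) :
    d2 (d1 f) z = d1 (d2 f) z := by
  have hd : DifferentiableAt ℝ (fderiv ℝ f) z :=
    ((hf.fderiv_right (m := ∞) (by simp)).differentiable (by simp)).differentiableAt
  have hs := (hf.contDiffAt (x := z)).isSymmSndFDerivAt
    (by simp; exact ENat.LEInfty.out)
  unfold d1 d2
  rw [fderiv_clm_apply hd (differentiableAt_const _), fderiv_clm_apply hd (differentiableAt_const _)]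
  simpa using hs.eq (0, 1) (1, 0)

lemma d2_iter_d1 {f : E2 → ℝ} (hf : ContDiff ℝ ∞ f) (k : ℕ) :
    d2 (d1^[k] f) = d1^[k] (d2 f) := by
  induction k with
  | zero => rfl
  | succ k ih =>
    funext z
    rw [Function.iterate_succ_apply', d2_d1_comm (contDiff_iter hf k), ih,
      Function.iterate_succ_apply']

lemma d1_neg {f : E2 → ℝ} : d1 (fun z => -f z) = fun z => -d1 f z := by
  funext z; simp [d1, fderiv_fun_neg]

lemma iter_d1_neg {f : E2 → ℝ} (k : ℕ) : d1^[k] (fun z => -f z) = fun z => -(d1^[k] f) z := by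
  induction k with
  | zero => rfl
  | succ k ih => rw [Function.iterate_succ_apply', ih, d1_neg, Function.iterate_succ_apply']

/-- The `y` derivative of a derivative of `X` when `X_y = -q_p`. -/
lemma d2_iter_compat {X q : E2 → ℝ} (hX : ContDiff ℝ ∞ X) (hc : ∀ z, d2 X z = -d1 q z) (k : ℕ) :
    d2 (d1^[k] X) = fun z => -(d1^[k + 1] q) z := by
  rw [d2_iter_d1 hX, show d2 X = fun z => -d1 q z from funext hc, iter_d1_neg]
  rfl

lemma sup_one {h h' : ℝ → ℝ} {a b x : ℝ} (hab : a ≤ b) (hx : x ∈ Icc a b)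
    (hd : ∀ t, HasDerivAt h (h' t) t) (hc : Continuous h') :
    (b - a) * |h x| ≤ (∫ t in a..b, |h t|) + (b - a) * ∫ t in a..b, |h' t| := by
  have hh : Continuous h := continuous_iff_continuousAt.2 fun t => (hd t).continuousAt
  have key : ∀ s ∈ Icc a b, |h x| - (∫ t in a..b, |h' t|) ≤ |h s| := fun s hs => by
    have e := integral_eq_sub_of_hasDerivAt (fun t _ => hd t) (hc.intervalIntegrable s x)
    have l1 : |∫ t in s..x, h' t| ≤ ∫ t in a..b, |h' t| := by
      refine (intervalIntegral.norm_integral_le_abs_integral_norm (f := h') (μ := volume)).trans ?_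
      simp only [Real.norm_eq_abs]
      rw [abs_integral_eq_abs_integral_uIoc, abs_of_nonneg
        (setIntegral_nonneg measurableSet_uIoc fun t _ => abs_nonneg _), integral_of_le hab]
      exact setIntegral_mono_set
        (hc.abs.continuousOn.integrableOn_Icc.mono_set Ioc_subset_Icc_self)
        (Filter.Eventually.of_forall fun t => abs_nonneg _)
        (Ioc_subset_Ioc (le_min hs.1 hx.1) (max_le hs.2 hx.2)).eventuallyLE
    rw [e] at l1
    linarith [abs_sub_abs_le_abs_sub (h x) (h s)]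
  have hm := integral_mono_on hab (intervalIntegrable_const (μ := volume))
    (hh.abs.intervalIntegrable a b) key
  rw [intervalIntegral.integral_const, smul_eq_mul] at hm
  nlinarith

/-- Sup bound on a rectangle by integrals of first and mixed derivatives. -/
lemma rect_sup {f : E2 → ℝ} (hf : ContDiff ℝ ∞ f) {a b c d p y : ℝ} (hab : a ≤ b) (hcd : c ≤ d)
    (hp : p ∈ Icc a b) (hy : y ∈ Icc c d) :
    (b - a) * (d - c) * |f (p, y)| ≤
      ∫ z in Icc a b ×ˢ Icc c d, (|f z| + (b - a) * |d1 f z| + (d - c) * |d2 f z|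
        + (b - a) * (d - c) * |d2 (d1 f) z|) := by
  have h1 := (contDiff_d1 hf).continuous
  have h2 := (contDiff_d2 hf).continuous
  have h21 := (contDiff_d2 (contDiff_d1 hf)).continuous
  have dd : ∀ {g : E2 → ℝ}, ContDiff ℝ ∞ g → Differentiable ℝ g := fun h => h.differentiable (by simp)
  have i1 : (b - a) * |f (p, y)| ≤
      (∫ x in a..b, |f (x, y)|) + (b - a) * ∫ x in a..b, |d1 f (x, y)| :=
    sup_one hab hp (fun t => d1_hasDerivAt (dd hf) t y) (by fun_prop)
  have cA : ∀ {g : E2 → ℝ}, Continuous g → Continuous fun x => ∫ t in c..d, |g (x, t)| := fun hg =>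
    continuous_parametric_intervalIntegral_of_continuous' (by fun_prop) c d
  have i2 : ∀ x, (d - c) * |f (x, y)| ≤
      (∫ t in c..d, |f (x, t)|) + (d - c) * ∫ t in c..d, |d2 f (x, t)| := fun x =>
    sup_one hcd hy (fun t => d2_hasDerivAt (dd hf) x t) (by fun_prop)
  have i3 : ∀ x, (d - c) * |d1 f (x, y)| ≤
      (∫ t in c..d, |d1 f (x, t)|) + (d - c) * ∫ t in c..d, |d2 (d1 f) (x, t)| := fun x =>
    sup_one hcd hy (fun t => d2_hasDerivAt (dd (contDiff_d1 hf)) x t) (by fun_prop)
  have m2 := integral_mono_on (μ := volume) hab (f := fun x => (d - c) * |f (x, y)|)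
    ((by fun_prop : Continuous fun x => (d - c) * |f (x, y)|).intervalIntegrable a b)
    (((cA hf.continuous).add ((cA h2).const_smul (d - c))).intervalIntegrable a b) fun x _ => i2 x
  have m3 := integral_mono_on (μ := volume) hab (f := fun x => (d - c) * |d1 f (x, y)|)
    ((by fun_prop : Continuous fun x => (d - c) * |d1 f (x, y)|).intervalIntegrable a b)
    (((cA h1).add ((cA h21).const_smul (d - c))).intervalIntegrable a b) fun x _ => i3 x
  have pr : ∀ {g : E2 → ℝ}, Continuous g →
      ∫ z in Icc a b ×ˢ Icc c d, |g z| = ∫ x in a..b, ∫ t in c..d, |g (x, t)| := fun {g} hg => by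
    rw [Measure.volume_eq_prod, setIntegral_prod _ (hg.abs.continuousOn.integrableOn_compact
      (isCompact_Icc.prod isCompact_Icc))]
    simp [integral_of_le hab, integral_of_le hcd, integral_Icc_eq_integral_Ioc]
  have io : ∀ {g : E2 → ℝ}, Continuous g → ∀ r : ℝ,
      IntegrableOn (fun z => r * |g z|) (Icc a b ×ˢ Icc c d) := fun hg r =>
    (continuous_const.mul hg.abs).continuousOn.integrableOn_compact
      (isCompact_Icc.prod isCompact_Icc)
  have j0 : IntegrableOn (fun z => |f z|) (Icc a b ×ˢ Icc c d) := by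
    simpa using io hf.continuous 1
  rw [MeasureTheory.integral_add ((j0.fun_add (io h1 _)).fun_add (io h2 _)) (io h21 _),
    MeasureTheory.integral_add (j0.fun_add (io h1 _)) (io h2 _),
    MeasureTheory.integral_add j0 (io h1 _),
    MeasureTheory.integral_const_mul, MeasureTheory.integral_const_mul,
    MeasureTheory.integral_const_mul, pr hf.continuous, pr h1, pr h2, pr h21]
  simp only [Pi.add_apply, Pi.smul_apply, smul_eq_mul] at m2 m3
  rw [intervalIntegral.integral_add ((cA hf.continuous).intervalIntegrable a b)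
    (((cA h2).intervalIntegrable a b).const_mul (d - c)), intervalIntegral.integral_const_mul,
    intervalIntegral.integral_const_mul] at m2
  rw [intervalIntegral.integral_add ((cA h1).intervalIntegrable a b)
    (((cA h21).intervalIntegrable a b).const_mul (d - c)), intervalIntegral.integral_const_mul,
    intervalIntegral.integral_const_mul] at m3
  have e := mul_le_mul_of_nonneg_left i1 (sub_nonneg.2 hcd)
  have e3 := mul_le_mul_of_nonneg_left m3 (sub_nonneg.2 hab)
  linarith

/-- The right boundary: a curve with slope `-β / 2`, staying within `r` of `p0`. -/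
lemma curve_exists {β : E2 → ℝ} {O : Set E2} {p0 r T L : ℝ}
    (hβ : ContDiffOn ℝ 1 β O) (hK : Icc (p0 - r) (p0 + r) ×ˢ Icc (-T) T ⊆ O)
    (hr : 0 ≤ r) (hT : 0 ≤ T) (hL : 0 ≤ L)
    (hb : ∀ z ∈ Icc (p0 - r) (p0 + r) ×ˢ Icc (-T) T, |β z| ≤ 2 * L) (hLT : L * T ≤ r) :
    ∃ P : ℝ → ℝ, ContDiff ℝ 1 P ∧
      (∀ y ∈ Icc (-T) T, P y ∈ Icc (p0 - r) (p0 + r)) ∧
      ∀ y ∈ Icc (-T) T, HasDerivAt P (-β (P y, y) / 2) y := by
  obtain ⟨K0, hK0⟩ := (hβ.mono hK).exists_lipschitzOnWith one_ne_zero
    ((convex_Icc _ _).prod (convex_Icc _ _)) (isCompact_Icc.prod isCompact_Icc)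
  have hball : Metric.closedBall p0 r = Icc (p0 - r) (p0 + r) := Real.closedBall_eq_Icc
  have hP : IsPicardLindelof (fun y x => -β (x, y) / 2) (tmin := -T) (tmax := T)
      ⟨0, by constructor <;> linarith⟩ p0 ⟨r, hr⟩ 0 ⟨L, hL⟩ K0 :=
    { lipschitzOnWith := fun y hy => LipschitzOnWith.of_dist_le_mul fun x hx x' hx' => by
        have hx1 : (x, y) ∈ Icc (p0 - r) (p0 + r) ×ˢ Icc (-T) T := ⟨hball ▸ hx, hy⟩
        have hx2 : (x', y) ∈ Icc (p0 - r) (p0 + r) ×ˢ Icc (-T) T := ⟨hball ▸ hx', hy⟩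
        have h := hK0.dist_le_mul _ hx1 _ hx2
        simp only [Prod.dist_eq, dist_self, Real.dist_eq] at h ⊢
        rw [max_eq_left (abs_nonneg _)] at h
        rw [show -β (x, y) / 2 - -β (x', y) / 2 = -((β (x, y) - β (x', y)) / 2) by ring,
          abs_neg, abs_div]
        have := abs_nonneg (β (x, y) - β (x', y))
        norm_num
        linarith
      continuousOn := fun x hx => ((hβ.continuousOn.comp (by fun_prop)
        fun y hy => hK ⟨hball ▸ hx, hy⟩).neg.div_const 2)
      norm_le := fun y hy x hx => by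
        have := hb (x, y) ⟨hball ▸ hx, hy⟩
        simp only [Real.norm_eq_abs, abs_div, abs_neg, abs_two]
        show |β (x, y)| / 2 ≤ L
        linarith
      mul_max_le := by
        show L * max (T - 0) (0 - -T) ≤ r - 0
        simpa using hLT }
  obtain ⟨α, hα⟩ := ODE.FunSpace.exists_isFixedPt_next hP (Metric.mem_closedBall_self le_rfl)
  set γ := α.compProj with hγ
  have hmem : ∀ τ, γ τ ∈ Icc (p0 - r) (p0 + r) := fun τ =>
    hball ▸ α.compProj_mem_closedBall hP.mul_max_le
  let cl : ℝ → ℝ := fun τ => max (-T) (min τ T)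
  have hcl : ∀ τ, cl τ ∈ Icc (-T) T := fun τ =>
    ⟨le_max_left _ _, max_le (by linarith) (min_le_right _ _)⟩
  have hg : Continuous fun τ => -β (γ τ, cl τ) / 2 :=
    ((hβ.continuousOn.comp_continuous (α.continuous_compProj.prodMk (by fun_prop))
      fun τ => hK ⟨hmem τ, hcl τ⟩).neg.div_const 2)
  set P : ℝ → ℝ := fun y => p0 + ∫ τ in (0:ℝ)..y, -β (γ τ, cl τ) / 2 with hPd
  have hd : ∀ y, HasDerivAt P (-β (γ y, cl y) / 2) y := fun y =>
    (hg.integral_hasStrictDerivAt 0 y).hasDerivAt.const_add p0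
  have heq : ∀ y ∈ Icc (-T) T, P y = γ y := fun y hy => by
    have h1 : γ y = α.toFun ⟨y, hy⟩ := ODE.FunSpace.compProj_of_mem hy
    have h2 : α.toFun ⟨y, hy⟩ = p0 + ∫ τ in (0:ℝ)..y, -β (γ τ, τ) / 2 := by
      conv_lhs => rw [← hα]
      rfl
    rw [h1, h2]
    refine congrArg (p0 + ·) (intervalIntegral.integral_congr fun τ hτ => ?_)
    have hτ' : τ ∈ Icc (-T) T :=
      uIcc_subset_Icc (by constructor <;> linarith) hy hτ
    simp [cl, min_eq_left hτ'.2, max_eq_right hτ'.1]
  refine ⟨P, contDiff_one_iff_deriv.2 ⟨fun y => (hd y).differentiableAt, ?_⟩, fun y hy => heq y hy ▸ hmem y,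
    fun y hy => ?_⟩
  · rw [show deriv P = fun y => -β (γ y, cl y) / 2 from funext fun y => (hd y).deriv]
    exact hg
  · have := hd y
    rwa [show cl y = y by simp [cl, min_eq_left hy.2, max_eq_right hy.1], ← heq y hy] at this

end Vale.Agent.P229
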