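import Vale.Agent.P229.LevelsDef
import Vale.Agent.P229.LeftAux
import Vale.Agent.P229.Psi
import Vale.Agent.P229.CoeffCalc

/-!
# P229: pointwise facts about the coefficients of the hodograph system
-/

namespace Vale.Agent.P229

open Set Filter
open scoped ContDiff Topology

namespace Coeff

/-- `A.1` derivatives of the lens profile. -/
lemma d1_psi0 : d1 psi0 = fun z => PX z.1 z.2 := by
  funext ⟨x, y⟩
  have h := d1_hasDerivAt (contDiff_psi0.differentiable (by simp)) x y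
  refine h.unique ?_
  have hr : HasDerivAt (fun s : ℝ => s ^ 2 + y ^ 2) (2 * x) x := by
    simpa using ((hasDerivAt_id x).pow 2).add_const (y ^ 2)
  refine ((hr.div_const 4).sub ((hr.pow 2).div_const 16)).congr_deriv ?_
  simp [PX]; ring

lemma d2_psi0 : d2 psi0 = fun z => PY z.1 z.2 := by
  funext ⟨x, y⟩
  have h := d2_hasDerivAt (contDiff_psi0.differentiable (by simp)) x y
  refine h.unique ?_
  have hr : HasDerivAt (fun s : ℝ => x ^ 2 + s ^ 2) (2 * y) y := by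
    simpa using ((hasDerivAt_id y).pow 2).const_add (x ^ 2)
  refine ((hr.div_const 4).sub ((hr.pow 2).div_const 16)).congr_deriv ?_
  simp [PY]; ring

lemma lap_psi0 (z : E2) : lap psi0 z = 1 - sqn z := by
  obtain ⟨x, y⟩ := z
  unfold lap
  rw [d1_psi0, d2_psi0]
  have h1 := d1_hasDerivAt (f := fun z : E2 => PX z.1 z.2)
    (by unfold PX; fun_prop) x y
  have h2 := d2_hasDerivAt (f := fun z : E2 => PY z.1 z.2)
    (by unfold PY; fun_prop) x y
  have e1 : HasDerivAt (fun s : ℝ => PX s y) (1 / 2 - (3 * x ^ 2 + y ^ 2) / 4) x := by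
    refine (((hasDerivAt_id x).div_const 2).sub (((hasDerivAt_id x).mul
      (((hasDerivAt_id x).pow 2).add_const (y ^ 2))).div_const 4)).congr_deriv ?_
    simp; ring
  have e2 : HasDerivAt (fun s : ℝ => PY x s) (1 / 2 - (x ^ 2 + 3 * y ^ 2) / 4) y := by
    refine (((hasDerivAt_id y).div_const 2).sub (((hasDerivAt_id y).mul
      (((hasDerivAt_id y).pow 2).const_add (x ^ 2))).div_const 4)).congr_deriv ?_
    simp; ring
  rw [h1.unique e1, h2.unique e2]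
  simp [sqn]; ring

lemma psi_values {n : ℕ} {δ : ℝ} (hδ : 0 < δ) {z : E2} (h1 : 2 * δ ^ 2 < sqn z) (h2 : sqn z < 100) :
    psi n δ z = PS z.1 z.2 ∧ d1 (psi n δ) z = PX z.1 z.2 ∧ d2 (psi n δ) z = PY z.1 z.2 ∧
      lap (psi n δ) z = 1 - sqn z := by
  have h := psi_eventuallyEq_psi0 n hδ h1 h2
  have hd : ∀ v : E2, (fun u => fderiv ℝ (psi n δ) u v) =ᶠ[𝓝 z] fun u => fderiv ℝ psi0 u v :=
    fun v => (Filter.EventuallyEq.fderiv (𝕜 := ℝ) h).mono
      fun u hu => congrArg (fun T : E2 →L[ℝ] ℝ => T v) hu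
  refine ⟨?_, ?_, ?_, ?_⟩
  · rw [h.eq_of_nhds]; simp [psi0, PS, sqn]
  · rw [← congrFun d1_psi0 z]; exact (hd (1, 0)).eq_of_nhds
  · rw [← congrFun d2_psi0 z]; exact (hd (0, 1)).eq_of_nhds
  · rw [← lap_psi0 z]
    unfold lap d1 d2
    rw [(hd (1, 0)).fderiv_eq, (hd (0, 1)).fderiv_eq]

lemma F_values {n : ℕ} {δ t lam p y X q v w : ℝ} (hδ : 0 < δ)
    (h1 : 2 * δ ^ 2 < sqn (X, y)) (h2 : sqn (X, y) < 100) :
    gamF (psi n δ) t lam p y X q v w = gam0 t lam p y X q v w ∧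
    betF (psi n δ) t lam p y X q v w = bet0 t lam p y X q v w ∧
    rhsF (psi n δ) t lam p y X q v w = rhs0 t lam p y X q v w := by
  obtain ⟨e0, e1, e2, e3⟩ := psi_values (n := n) hδ h1 h2
  refine ⟨?_, ?_, ?_⟩ <;>
    simp [gamF, betF, rhsF, cA, cB, cQ, e0, e1, e2, e3, gam0, bet0, rhs0, A0, B0, Q0, C0, D0, Xi0,
      sqn]

lemma second_le {f : E2 → ℝ} (hf : ContDiff ℝ ∞ f) (z a b : E2) (ha : ‖a‖ ≤ 1) (hb : ‖b‖ ≤ 1) :
    |fderiv ℝ (fun u => fderiv ℝ f u a) z b| ≤ ‖iteratedFDeriv ℝ 2 f z‖ := by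
  have hd : DifferentiableAt ℝ (fderiv ℝ f) z :=
    ((hf.fderiv_right (m := ∞) (by simp)).differentiable (by simp)).differentiableAt
  have h := (iteratedFDeriv ℝ 2 f z).le_opNorm ![b, a]
  rw [iteratedFDeriv_two_apply] at h
  simp [Fin.prod_univ_two] at h
  rw [fderiv_clm_apply hd (differentiableAt_const _)]
  simp only [fderiv_fun_const, Pi.zero_apply, ContinuousLinearMap.comp_zero,
    ContinuousLinearMap.flip_apply, zero_add]
  refine h.trans ?_
  exact mul_le_of_le_one_right (norm_nonneg _) (mul_le_one₀ hb (norm_nonneg _) ha)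

lemma norm_e1 : ‖((1, 0) : E2)‖ ≤ 1 := by simp [Prod.norm_def]

lemma norm_e2 : ‖((0, 1) : E2)‖ ≤ 1 := by simp [Prod.norm_def]

variable {n : ℕ} {δ t lam η K0 : ℝ} {X q : E2 → ℝ}

/-- Derivatives of order two of a hodograph solution. -/
lemma hodo_second (h : Hodo n δ t lam η K0 X q) (z : E2) :
    |d1 (d1 X) z| ≤ η ∧ |d1 (d1 q) z| ≤ η ∧ |d2 (d1 X) z| ≤ η ∧ |d2 (d1 q) z| ≤ η :=
  ⟨(second_le h.smoothX z _ _ norm_e1 norm_e1).trans (h.highX 2 le_rfl (by norm_num) z),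
   (second_le h.smoothQ z _ _ norm_e1 norm_e1).trans (h.highQ 2 le_rfl (by norm_num) z),
   (second_le h.smoothX z _ _ norm_e1 norm_e2).trans (h.highX 2 le_rfl (by norm_num) z),
   (second_le h.smoothQ z _ _ norm_e1 norm_e2).trans (h.highQ 2 le_rfl (by norm_num) z)⟩

/-- `X` is negative, at least linearly, on the left. -/
lemma hodo_X_le (h : Hodo n δ t lam η K0 X q) (hη : η ≤ 1 / 10) {z : E2} (hz : z ∈ box 4)
    (hp : z.1 ≤ 0) : X z ≤ 9 / 10 * z.1 + K0 * t := by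
  obtain ⟨p, y⟩ := z
  simp only at hp ⊢
  have hd := fun s => d1_hasDerivAt (h.smoothX.differentiable (by simp)) s y
  have hm : Monotone fun s => X (s, y) - 9 / 10 * s := by
    refine monotone_of_hasDerivAt_nonneg (f' := fun s => d1 X (s, y) - 9 / 10)
      (fun s => ((hd s).sub ((hasDerivAt_id s).const_mul (9 / 10))).congr_deriv (by simp)) ?_
    intro s
    have := abs_le.1 (h.Xp (s, y))
    simp only [Pi.zero_apply]
    linarith
  have h0 := h.axisX (0, y) ⟨by simp, hz.2⟩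
  have := hm hp
  simp at h0 this
  linarith [le_abs_self (X (0, y))]

lemma hodo_q_le (h : Hodo n δ t lam η K0 X q) (hη : η ≤ 1 / 10) (hK0 : 0 < K0) (ht : 0 < t)
    (hsmall : K0 * (K0 + 1) * t ≤ 1) {z : E2} (hz : z ∈ box 4) : |q z| ≤ 5 := by
  have hb : ∀ u : E2, ‖fderiv ℝ q u‖ ≤ 1 / 5 := by
    intro u
    refine ContinuousLinearMap.opNorm_le_bound _ (by norm_num) fun v => ?_
    have e : fderiv ℝ q u v = v.1 * d1 q u + v.2 * d2 q u := by
      unfold d1 d2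
      rw [← smul_eq_mul, ← smul_eq_mul, ← map_smul, ← map_smul, ← map_add]
      congr 1; ext <;> simp
    rw [e, Real.norm_eq_abs]
    refine (tri (ab (norm_fst_le v) ((h.Qp u).trans hη))
      (ab (norm_snd_le v) ((h.Qy u).trans hη))).trans ?_
    linarith
  have h1 := Convex.norm_image_sub_le_of_norm_fderiv_le
    (fun u _ => (h.smoothQ.differentiable (by simp)).differentiableAt) (fun u _ => hb u)
    convex_univ (mem_univ (0 : E2)) (mem_univ z)
  have hz0 : (0 : E2) ∈ box 4 := by simp [box]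
  have h2 := h.axisX 0 hz0
  have h3 := h.axisQ 0 hz0
  have h4 : ‖z‖ ≤ 4 := by
    rw [Prod.norm_def]; exact max_le hz.1.le hz.2.le
  simp at h2
  rw [sub_zero, Real.norm_eq_abs] at h1
  have h5 : |q 0| ≤ 1 := by
    have : |X 0| + t ≤ (K0 + 1) * t := by linarith
    nlinarith
  have := abs_sub_abs_le_abs_sub (q z) (q 0)
  linarith

lemma hodo_Sz (h : Hodo n δ t lam η K0 X q) (hη : η ≤ 1 / 10) (hK0 : 0 < K0) (ht : 0 < t)
    (ht1 : t ≤ 1 / 10000) (hsmall : K0 * (K0 + 1) * t ≤ 1) (hl : 0 < lam)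
    (hl1 : lam ≤ 1 / 100000) {S : ℝ} {z : E2} (hz : z ∈ box 4) (hp : |z.1| ≤ S) (hX : |X z| ≤ S)
    (hq : |q z| ≤ S) (htS : t ≤ S) :
    Sz t lam S z.1 z.2 (X z) (q z) (d1 X z) (d1 q z) := by
  refine ⟨ht, ht1, hl, hl1, htS, hz.1.le, hz.2.le, ?_, hodo_q_le h hη hK0 ht hsmall hz, hp, hX, hq,
    (h.Xp z).trans hη, (h.Qp z).trans hη⟩
  have := h.axisS z hz
  have := abs_sub_abs_le_abs_sub (X z) z.1
  have := hz.1
  linarith

/-- The curve along the first coordinate. -/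
lemma cur_p (h : Hodo n δ t lam η K0 X q) (hη : η ≤ 1 / 10) (p y : ℝ) :
    Cur (fun s => s) (fun _ => y) (fun s => X (s, y)) (fun s => q (s, y))
      (fun s => d1 X (s, y)) (fun s => d1 q (s, y)) p p y (X (p, y)) (q (p, y)) (d1 X (p, y))
      (d1 q (p, y)) 1 0 (d1 X (p, y)) (d1 q (p, y)) (d1 (d1 X) (p, y)) (d1 (d1 q) (p, y)) := by
  obtain ⟨s1, s2, -, -⟩ := hodo_second h (p, y)
  refine ⟨hasDerivAt_id p, hasDerivAt_const p y, d1_hasDerivAt (h.smoothX.differentiable (by simp)) p y,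
    d1_hasDerivAt (h.smoothQ.differentiable (by simp)) p y,
    d1_hasDerivAt ((contDiff_d1 h.smoothX).differentiable (by simp)) p y,
    d1_hasDerivAt ((contDiff_d1 h.smoothQ).differentiable (by simp)) p y,
    rfl, rfl, rfl, rfl, rfl, rfl, by norm_num, by norm_num, ?_, ?_, by linarith, by linarith⟩
  · have := abs_le.1 (h.Xp (p, y))
    rw [abs_le]; constructor <;> linarith
  · linarith [h.Qp (p, y)]

/-- The curve along the second coordinate. -/
lemma cur_y (h : Hodo n δ t lam η K0 X q) (hη : η ≤ 1 / 10) (p y : ℝ) :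
    Cur (fun _ => p) (fun s => s) (fun s => X (p, s)) (fun s => q (p, s))
      (fun s => d1 X (p, s)) (fun s => d1 q (p, s)) y p y (X (p, y)) (q (p, y)) (d1 X (p, y))
      (d1 q (p, y)) 0 1 (d2 X (p, y)) (d2 q (p, y)) (d2 (d1 X) (p, y)) (d2 (d1 q) (p, y)) := by
  obtain ⟨-, -, s3, s4⟩ := hodo_second h (p, y)
  refine ⟨hasDerivAt_const y p, hasDerivAt_id y, d2_hasDerivAt (h.smoothX.differentiable (by simp)) p y,
    d2_hasDerivAt (h.smoothQ.differentiable (by simp)) p y,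
    d2_hasDerivAt ((contDiff_d1 h.smoothX).differentiable (by simp)) p y,
    d2_hasDerivAt ((contDiff_d1 h.smoothQ).differentiable (by simp)) p y,
    rfl, rfl, rfl, rfl, rfl, rfl, by norm_num, by norm_num, ?_, ?_, by linarith, by linarith⟩
  · rw [h.compat, abs_neg]; linarith [h.Qp (p, y)]
  · linarith [h.Qy (p, y)]

lemma cX_value {p y x q' v w S : ℝ} (hδ : 0 < δ) (h : Sz t lam S p y x q' v w)
    (h1 : 2 * δ ^ 2 < sqn (x, y)) (h2 : sqn (x, y) < 100) :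
    |deriv (fun s => rhsF (psi n δ) t lam p y s q' v w) x
        - 2 * t * x * Xi0 (t * lam ^ 2) lam p y x q' * v / D0 t lam p y x q' v|
      ≤ t * lam ^ 2 * (200000 * S) ∧
    |deriv (fun s => rhsF (psi n δ) t lam p y x s v w) q'| ≤ t * lam ^ 2 * (200000 * S + 100) := by
  have hc1 : Cur (fun _ => p) (fun _ => y) (fun s => s) (fun _ => q') (fun _ => v) (fun _ => w)
      x p y x q' v w 0 0 1 0 0 0 :=
    ⟨hasDerivAt_const _ _, hasDerivAt_const _ _, hasDerivAt_id _, hasDerivAt_const _ _,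
      hasDerivAt_const _ _, hasDerivAt_const _ _, rfl, rfl, rfl, rfl, rfl, rfl,
      by norm_num, by norm_num, by norm_num, by norm_num, by norm_num, by norm_num⟩
  have hc2 : Cur (fun _ => p) (fun _ => y) (fun _ => x) (fun s => s) (fun _ => v) (fun _ => w)
      q' p y x q' v w 0 0 0 1 0 0 :=
    ⟨hasDerivAt_const _ _, hasDerivAt_const _ _, hasDerivAt_const _ _, hasDerivAt_id _,
      hasDerivAt_const _ _, hasDerivAt_const _ _, rfl, rfl, rfl, rfl, rfl, rfl,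
      by norm_num, by norm_num, by norm_num, by norm_num, by norm_num, by norm_num⟩
  obtain ⟨r1, hr1, b1⟩ := hc1.rhs_fixed h
  obtain ⟨r2, hr2, b2⟩ := hc2.rhs_fixed h
  have ev : (fun s => rhsF (psi n δ) t lam p y s q' v w) =ᶠ[𝓝 x]
      fun s => rhs0 t lam p y s q' v w := by
    have hc : Continuous fun s : ℝ => sqn (s, y) := by unfold sqn; fun_prop
    have ho : IsOpen {s : ℝ | 2 * δ ^ 2 < sqn (s, y) ∧ sqn (s, y) < 100} :=
      (isOpen_lt continuous_const hc).inter (isOpen_lt hc continuous_const)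
    filter_upwards [ho.mem_nhds ⟨h1, h2⟩] with s hs
    exact (F_values hδ hs.1 hs.2).2.2
  have ev2 : (fun s => rhsF (psi n δ) t lam p y x s v w) = fun s => rhs0 t lam p y x s v w :=
    funext fun s => (F_values hδ h1 h2).2.2
  rw [(hr1.congr_of_eventuallyEq ev).deriv, ev2, hr2.deriv]
  simp only [mul_one, abs_zero, mul_zero, add_zero, abs_one, zero_mul, zero_div, sub_zero] at b1 b2
  exact ⟨b1, b2⟩

/-- Smoothness of the coefficients along a solution, bump included. -/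
lemma smooth_along {C : ℝ} (hC : ∀ u, ‖iteratedFDeriv ℝ 1 (psi n δ) u‖ ≤ C)
    (h : Hodo n δ t lam η K0 X q) (hη : η ≤ 1 / 10) (hK0 : 0 < K0) (ht : 0 < t)
    (hsmall : K0 * (K0 + 1) * t ≤ 1) (hμ : t * lam ^ 2 * (20 * C) ≤ 1 / 10) :
    ContDiffOn ℝ ∞ (gam (psi n δ) t lam X q) (box 4) ∧
    ContDiffOn ℝ ∞ (bet (psi n δ) t lam X q) (box 4) ∧
    ∀ z ∈ box 4, |cA (psi n δ) (t * lam ^ 2) z.1 z.2 (X z) (q z)| ≤ t * lam ^ 2 * (10 * C) ∧
      |cB (psi n δ) (t * lam ^ 2) z.1 z.2 (X z) (q z)| ≤ t * lam ^ 2 * (10 * C) ∧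
      9 / 10 ≤ 1 + cA (psi n δ) (t * lam ^ 2) z.1 z.2 (X z) (q z) * d1 X z := by
  have hμ0 : 0 ≤ t * lam ^ 2 := mul_nonneg ht.le (sq_nonneg _)
  have hC0 : 0 ≤ C := le_trans (norm_nonneg _) (hC 0)
  have hd : ∀ u v : E2, ‖v‖ ≤ 1 → |fderiv ℝ (psi n δ) u v| ≤ C := fun u v hv => by
    refine ((fderiv ℝ (psi n δ) u).le_opNorm v).trans ?_
    rw [← norm_iteratedFDeriv_one]
    exact (mul_le_of_le_one_right (norm_nonneg _) hv).trans (hC u)
  have key : ∀ z ∈ box 4, |cA (psi n δ) (t * lam ^ 2) z.1 z.2 (X z) (q z)| ≤ t * lam ^ 2 * (10 * C) ∧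
      |cB (psi n δ) (t * lam ^ 2) z.1 z.2 (X z) (q z)| ≤ t * lam ^ 2 * (10 * C) ∧
      9 / 10 ≤ 1 + cA (psi n δ) (t * lam ^ 2) z.1 z.2 (X z) (q z) * d1 X z := by
    intro z hz
    have hq := hodo_q_le h hη hK0 ht hsmall hz
    have k1 := hd (X z, z.2) _ norm_e1
    have k2 := hd (X z, z.2) _ norm_e2
    have hA : |cA (psi n δ) (t * lam ^ 2) z.1 z.2 (X z) (q z)| ≤ t * lam ^ 2 * (10 * C) :=
      (mle hμ0 (tri (ab ((abs_neg _).trans_le k1) hz.1.le) (ab k2 hq))).trans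
        (mul_le_mul_of_nonneg_left (by linarith) hμ0)
    refine ⟨hA, ?_, ?_⟩
    · unfold cB; rw [neg_mul, abs_neg]
      exact (mle hμ0 (tri (ab k2 hz.1.le) (ab k1 hq))).trans
        (mul_le_mul_of_nonneg_left (by linarith) hμ0)
    · have hv : |d1 X z| ≤ 2 := by
        have := abs_le.1 (h.Xp z)
        rw [abs_le]; constructor <;> linarith
      have := abs_le.1 ((ab hA hv).trans (le_of_eq (by ring) : _ ≤ t * lam ^ 2 * (20 * C)))
      linarith
  have sp := contDiff_psi n δ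
  have s1 := contDiff_d1 sp
  have s2 := contDiff_d2 sp
  have s11 := contDiff_d1 s1
  have s22 := contDiff_d2 s2
  have hX := h.smoothX
  have hq := h.smoothQ
  have hXp := contDiff_d1 hX
  have hqp := contDiff_d1 hq
  have hA : ContDiff ℝ ∞ fun z : E2 => cA (psi n δ) (t * lam ^ 2) z.1 z.2 (X z) (q z) := by
    unfold cA; fun_prop
  have hB : ContDiff ℝ ∞ fun z : E2 => cB (psi n δ) (t * lam ^ 2) z.1 z.2 (X z) (q z) := by
    unfold cB; fun_prop
  have hQ : ContDiff ℝ ∞ fun z : E2 => cQ (psi n δ) t lam z.1 z.2 (X z) (q z) := by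
    unfold cQ lap; fun_prop
  refine ⟨?_, ?_, key⟩
  · exact ContDiffOn.div (hQ.add ((hB.sub (hA.mul hqp)).pow 2)).contDiffOn
      (((contDiff_const (c := (1 : ℝ))).add (hA.mul hXp)).pow 2).contDiffOn
      (fun z hz => pow_ne_zero 2 (ne_of_gt (by linarith [(key z hz).2.2])))
  · exact ContDiffOn.div ((contDiff_const (c := (2 : ℝ))).mul (hB.sub (hA.mul hqp))).contDiffOn
      ((contDiff_const (c := (1 : ℝ))).add (hA.mul hXp)).contDiffOn
      (fun z hz => ne_of_gt (by linarith [(key z hz).2.2]))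

lemma isOpen_box (L : ℝ) : IsOpen (box L) :=
  (isOpen_lt (continuous_abs.comp continuous_fst) continuous_const).inter
    (isOpen_lt (continuous_abs.comp continuous_snd) continuous_const)

lemma d1_at {f : E2 → ℝ} {z : E2} (hf : DifferentiableAt ℝ f z) :
    HasDerivAt (fun s => f (s, z.2)) (d1 f z) z.1 :=
  hf.hasFDerivAt.comp_hasDerivAt z.1
    ((hasDerivAt_id z.1).prodMk (hasDerivAt_const z.1 z.2))

lemma d2_at {f : E2 → ℝ} {z : E2} (hf : DifferentiableAt ℝ f z) :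
    HasDerivAt (fun s => f (z.1, s)) (d2 f z) z.2 :=
  hf.hasFDerivAt.comp_hasDerivAt z.2
    ((hasDerivAt_const z.2 z.1).prodMk (hasDerivAt_id z.2))

/-- Bounds of all the derivatives used on the left, at a point away from the bump. -/
lemma left_jets {S p y : ℝ} (h : Hodo n δ t lam η K0 X q) (hη : η ≤ 1 / 10) (hδ : 0 < δ)
    (sg : ContDiffOn ℝ ∞ (gam (psi n δ) t lam X q) (box 4))
    (sb : ContDiffOn ℝ ∞ (bet (psi n δ) t lam X q) (box 4)) (hz : ((p, y) : E2) ∈ box 4)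
    (hsz : Sz t lam S p y (X (p, y)) (q (p, y)) (d1 X (p, y)) (d1 q (p, y)))
    (hsq1 : 2 * δ ^ 2 < sqn (X (p, y), y)) (hsq2 : sqn (X (p, y), y) < 100) :
    ∃ M1 M2 M3 : ℝ,
      M1 = 2 * t * (X (p, y) * d1 X (p, y)) * Xi0 (t * lam ^ 2) lam p y (X (p, y)) (q (p, y)) /
        D0 t lam p y (X (p, y)) (q (p, y)) (d1 X (p, y)) ^ 2 ∧
      M2 = 2 * t * X (p, y) * Xi0 (t * lam ^ 2) lam p y (X (p, y)) (q (p, y)) * d1 X (p, y) /
        D0 t lam p y (X (p, y)) (q (p, y)) (d1 X (p, y)) ∧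
      |M1| ≤ 25 ∧ |M2| ≤ 25 ∧ |M3| ≤ 25 ∧
      |d1 (gam (psi n δ) t lam X q) (p, y) - M1| ≤ t * lam ^ 2 * (200000 * S) ∧
      |d2 (gam (psi n δ) t lam X q) (p, y) - M3| ≤ t * lam ^ 2 * (200000 * S + 8000) ∧
      |d1 (bet (psi n δ) t lam X q) (p, y)| ≤ t * lam ^ 2 * 4000 ∧
      |d2 (bet (psi n δ) t lam X q) (p, y)| ≤ t * lam ^ 2 * 4000 ∧
      |d2 (bet (psi n δ) t lam X q) (p, y)| ≤ t * lam ^ 2 * (3000 * S) ∧
      |cX (psi n δ) t lam X q (p, y) - M2| ≤ t * lam ^ 2 * (200000 * S) ∧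
      |cq (psi n δ) t lam X q (p, y)| ≤ t * lam ^ 2 * (200000 * S + 100) ∧
      |gam (psi n δ) t lam X q (p, y)| ≤ 50 ∧
      |bet (psi n δ) t lam X q (p, y)| ≤ 1100 * (t * lam ^ 2) := by
  have hnb : {z : E2 | 2 * δ ^ 2 < sqn (X z, z.2) ∧ sqn (X z, z.2) < 100} ∈ 𝓝 (p, y) := by
    have : Continuous fun z : E2 => sqn (X z, z.2) :=
      contDiff_sqn.continuous.comp (h.smoothX.continuous.prodMk continuous_snd)
    exact ((isOpen_lt continuous_const this).inter (isOpen_lt this continuous_const)).mem_nhds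
      ⟨hsq1, hsq2⟩
  have cp : Continuous fun s : ℝ => ((s, y) : E2) := by fun_prop
  have cy : Continuous fun s : ℝ => ((p, s) : E2) := by fun_prop
  have hd : ∀ f : E2 → ℝ, ContDiffOn ℝ ∞ f (box 4) → DifferentiableAt ℝ f (p, y) := fun f hf =>
    (hf.contDiffAt ((isOpen_box 4).mem_nhds hz)).differentiableAt (by simp)
  obtain ⟨g1, b1, hg1, hb1, bg1, bb1, -⟩ := (cur_p h hη p y).gam_bet hsz
  obtain ⟨g2, b2, hg2, hb2, bg2, bb2a, bb2⟩ := (cur_y h hη p y).gam_bet hsz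
  have eg1 : d1 (gam (psi n δ) t lam X q) (p, y) = g1 := by
    refine (d1_at (hd _ sg)).unique (hg1.congr_of_eventuallyEq ?_)
    filter_upwards [cp.continuousAt.preimage_mem_nhds hnb] with s hs
    exact (F_values hδ hs.1 hs.2).1
  have eb1 : d1 (bet (psi n δ) t lam X q) (p, y) = b1 := by
    refine (d1_at (hd _ sb)).unique (hb1.congr_of_eventuallyEq ?_)
    filter_upwards [cp.continuousAt.preimage_mem_nhds hnb] with s hs
    exact (F_values hδ hs.1 hs.2).2.1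
  have eg2 : d2 (gam (psi n δ) t lam X q) (p, y) = g2 := by
    refine (d2_at (hd _ sg)).unique (hg2.congr_of_eventuallyEq ?_)
    filter_upwards [cy.continuousAt.preimage_mem_nhds hnb] with s hs
    exact (F_values hδ hs.1 hs.2).1
  have eb2 : d2 (bet (psi n δ) t lam X q) (p, y) = b2 := by
    refine (d2_at (hd _ sb)).unique (hb2.congr_of_eventuallyEq ?_)
    filter_upwards [cy.continuousAt.preimage_mem_nhds hnb] with s hs
    exact (F_values hδ hs.1 hs.2).2.1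
  obtain ⟨hF1, hF2, hF3⟩ := F_values (n := n) (p := p) (v := d1 X (p, y)) (w := d1 q (p, y))
    (q := q (p, y)) (t := t) (lam := lam) hδ hsq1 hsq2
  have eqy : |d2 q (p, y)| ≤ 100 * S := by
    rw [h.eqn (p, y) hz, along, hF3]
    exact hsz.rhs_le
  obtain ⟨hcX, hcq⟩ := cX_value (n := n) hδ hsz hsq1 hsq2
  simp only [mul_zero, add_zero, abs_zero, zero_add, mul_one, abs_one] at bg1 bg2 bb2
  refine ⟨_, _, 2 * t * (X (p, y) * d2 X (p, y) + y) *
    Xi0 (t * lam ^ 2) lam p y (X (p, y)) (q (p, y)) /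
      D0 t lam p y (X (p, y)) (q (p, y)) (d1 X (p, y)) ^ 2, rfl, rfl, ?_, ?_, ?_, eg1 ▸ bg1,
    eg2 ▸ bg2, eb1 ▸ bb1, eb2 ▸ bb2a, ?_, hcX, hcq, ?_, ?_⟩
  · refine (div_le (ab (ab (A := 1) ?_ (ab hsz.X5 hsz.v_le)) hsz.Xi_abs) (by norm_num)
      hsz.D2_abs).trans (by norm_num)
    rw [abs_of_pos (by linarith [hsz.t_pos])]; linarith [hsz.t_le]
  · refine (div_le (ab (ab (ab (A := 1) ?_ hsz.X5) hsz.Xi_abs) hsz.v_le) (by norm_num)
      hsz.D_abs).trans (by norm_num)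
    rw [abs_of_pos (by linarith [hsz.t_pos])]; linarith [hsz.t_le]
  · have hX2 : |d2 X (p, y)| ≤ 1 := by rw [h.compat, abs_neg]; linarith [h.Qp (p, y)]
    refine (div_le (ab (ab (A := 1) ?_ (tri (ab hsz.X5 hX2) hsz.y4)) hsz.Xi_abs) (by norm_num)
      hsz.D2_abs).trans (by norm_num)
    rw [abs_of_pos (by linarith [hsz.t_pos])]; linarith [hsz.t_le]
  · rw [eb2]
    refine bb2.trans (mul_le_mul_of_nonneg_left ?_ hsz.mu_nonneg)
    linarith
  · show |gamF _ _ _ p y _ _ _ _| ≤ _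
    rw [hF1]; exact hsz.gam_le
  · show |betF _ _ _ p y _ _ _ _| ≤ _
    rw [hF2]; exact hsz.bet_le

lemma main_le {S p y x q' v w : ℝ} (h : Sz t lam S p y x q' v w) (hx : x ≤ 0) :
    2 * t * (x * v) * Xi0 (t * lam ^ 2) lam p y x q' / D0 t lam p y x q' v ^ 2 ≤ t * x ∧
    2 * t * x * Xi0 (t * lam ^ 2) lam p y x q' * v / D0 t lam p y x q' v ≤ t * x := by
  have hD := abs_le.1 h.D_le
  have hXi := abs_le.1 h.Xi_le
  have hv := abs_le.1 h.v1
  set Ξ := Xi0 (t * lam ^ 2) lam p y x q'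
  set D := D0 t lam p y x q' v
  have hD0 : 0 < D := by linarith
  have h0 : (9 / 10) * (99 / 100) ≤ v * Ξ :=
    mul_le_mul (by linarith) (by linarith) (by norm_num) (by linarith)
  have htx : 2 * t * x ≤ 0 := mul_nonpos_of_nonneg_of_nonpos (by linarith [h.t_pos]) hx
  constructor
  · rw [div_le_iff₀ (pow_pos hD0 2)]
    have hD2 := pow_le_pow_left₀ hD0.le (show D ≤ 11 / 10 by linarith) 2
    have := mul_le_mul_of_nonpos_left (show 1 / 2 * D ^ 2 ≤ v * Ξ by linarith) htx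
    linarith
  · rw [div_le_iff₀ hD0]
    have := mul_le_mul_of_nonpos_left (show 1 / 2 * D ≤ v * Ξ by linarith) htx
    linarith

variable {m n' μ S x M1 M2 g c b d : ℝ}

lemma Dm_le {n : ℝ} (ht : 0 ≤ t) (hμS : 0 ≤ μ * S) (hm1 : 1 ≤ m) (hm2 : m ≤ n + 4)
    (htx : t ≤ -x) (hsmall : (n + 6) * 4000000 * (μ * S) ≤ t * (-x))
    (k1 : M1 ≤ t * x) (k2 : M2 ≤ t * x)
    (a1 : |g - M1| ≤ μ * (200000 * S)) (a2 : |c - M2| ≤ μ * (200000 * S))
    (a3 : |b| ≤ μ * (3000 * S)) : m * g + c - g / 2 + b / 2 ≤ -t ^ 2 := by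
  have c1 := (abs_le.1 a1).2
  have c2 := (abs_le.1 a2).2
  have c3 := (abs_le.1 a3).2
  have c4 := mul_le_mul_of_nonneg_left (show g ≤ t * x + μ * (200000 * S) by linarith)
    (show (0 : ℝ) ≤ m - 1 / 2 by linarith)
  have c5 := mul_le_mul_of_nonneg_right hm2 hμS
  have htt : t * t ≤ t * (-x) := mul_le_mul_of_nonneg_left htx ht
  have c6 : (m - 1 / 2) * (t * x) ≤ 1 / 2 * (t * x) :=
    mul_le_mul_of_nonpos_right (by linarith) (mul_nonpos_of_nonneg_of_nonpos ht (by linarith))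
  nlinarith only [c2, c3, c4, c5, htt, c6, hsmall, k2, hμS]

lemma dm_le {n : ℝ} (hμ : 0 ≤ μ) (hK : 0 < K0) (hS : 0 ≤ S) (hSb : S ≤ (2 * K0 + 4) * 5)
    (hm : 0 ≤ m) (hm2 : m ≤ n + 4) (a1 : |b| ≤ μ * 4000) (a2 : |c| ≤ μ * (200000 * S + 100)) :
    |m * b + c| ≤ (n + 10) * 2000000 * (2 * K0 + 4) * 5 * μ := by
  refine (tri (ab (abs_of_nonneg hm).le a1) a2).trans ?_
  have k1 := mul_le_mul_of_nonneg_right hm2 hμ
  have k2 := mul_le_mul_of_nonneg_left hSb hμ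
  have hn : 0 ≤ n + 4 := by linarith
  have k3 := mul_nonneg (mul_nonneg hn hμ) hK.le
  have k4 := mul_nonneg hn hμ
  have k5 := mul_nonneg hμ hK.le
  linarith

lemma cm_le {n : ℝ} (hμ : 0 ≤ μ) (hμ1 : μ ≤ 1 / 1000000) (hK : 0 < K0) (hS : 0 ≤ S)
    (hSb : S ≤ (2 * K0 + 4) * 5) (hm : 0 ≤ m) (hm2 : m ≤ n + 4)
    (k1 : |M1| ≤ 25) (k2 : |M2| ≤ 25) (a1 : |g - M1| ≤ μ * (200000 * S))
    (a2 : |c - M2| ≤ μ * (200000 * S)) :
    |m * g + c| ≤ (n + 10) * 2000000 * (2 * K0 + 4) * 5 := by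
  have := mul_le_mul_of_nonneg_right hμ1 hS
  have hg : |g| ≤ 25 + (2 * K0 + 4) * 5 := by linarith [abs_sub_abs_le_abs_sub g M1]
  have hc : |c| ≤ 25 + (2 * K0 + 4) * 5 := by linarith [abs_sub_abs_le_abs_sub c M2]
  refine (tri (ab (abs_of_nonneg hm).le hg) hc).trans ?_
  have k3 := mul_le_mul_of_nonneg_right hm2 (show (0:ℝ) ≤ 25 + (2 * K0 + 4) * 5 by positivity)
  have k4 := mul_nonneg (show (0:ℝ) ≤ n + 4 by linarith) hK.le
  linarith

lemma le_C0 {n A : ℝ} (hμ : 0 ≤ μ) (hK : 0 < K0) (hn : 0 ≤ n) (h : |b| ≤ A * μ) (hA : A ≤ 4000) :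
    |b| ≤ (n + 10) * 2000000 * (2 * K0 + 4) * 5 * μ := by
  refine h.trans (mul_le_mul_of_nonneg_right ?_ hμ)
  have := mul_nonneg hn hK.le
  linarith

lemma bd_C0 {n : ℝ} (hμ : 0 ≤ μ) (hμ1 : μ ≤ 1 / 1000000) (hK : 0 < K0) (hS : 0 ≤ S)
    (hSb : S ≤ (2 * K0 + 4) * 5) (hn : 0 ≤ n) (k1 : |M1| ≤ 25)
    (a1 : |g - M1| ≤ μ * (200000 * S + 8000)) :
    |g| ≤ (n + 10) * 2000000 * (2 * K0 + 4) * 5 := by
  have := mul_le_mul_of_nonneg_right hμ1 hS
  have := mul_nonneg hn hK.le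
  linarith [abs_sub_abs_le_abs_sub g M1]

lemma lap_ge {s l Cr : ℝ} (hδ : 0 ≤ δ) (h6 : δ * (1 + 400 * Cr) ≤ 1) (hr : s ≤ 31 / 100)
    (hs : 0 ≤ s) (hl : -(Cr + Cr) ≤ l) (hC : 1 ≤ Cr) :
    67 / 100 ≤ (1 - δ) * (1 - s) + δ * l := by
  have := mul_nonneg hδ hs
  have := mul_le_mul_of_nonneg_left hl hδ
  have := mul_le_mul_of_nonneg_left hC hδ
  linarith

lemma hyp_final {L E D : ℝ} (ht : 0 ≤ t) (k1 : (67 / 100 : ℝ) * (98 / 100) ≤ L * E)
    (k2 : D ^ 2 ≤ (11 / 10 : ℝ) ^ 2) : -t * L * E ≤ -(t / 2) * D ^ 2 := by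
  have := mul_le_mul_of_nonneg_left k2 (show 0 ≤ t / 2 by linarith)
  have := mul_le_mul_of_nonneg_left k1 ht
  have : 0 ≤ t := ht
  linarith

lemma ge_eq {ψ : E2 → ℝ} {z : E2}
    (hD : 1 + cA ψ (t * lam ^ 2) z.1 z.2 (X z) (q z) * d1 X z ≠ 0) :
    gam ψ t lam X q z - bet ψ t lam X q z ^ 2 / 4
      = cQ ψ t lam z.1 z.2 (X z) (q z) /
        (1 + cA ψ (t * lam ^ 2) z.1 z.2 (X z) (q z) * d1 X z) ^ 2 := by
  simp only [gam, bet, along, gamF, betF]
  field_simp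
  ring

end Coeff

open Coeff

/-- Smoothness and the sign facts on the left, away from the bump. -/
theorem left_coeff (n : ℕ) (hn : 1 ≤ n) (K0 : ℝ) (hK0 : 0 < K0) :
    ∃ K1 η1 C0 : ℝ, 2 * K0 + 1 ≤ K1 ∧ 0 < η1 ∧ 0 < C0 ∧
      ∀ δ t lam η : ℝ, ∀ X q : E2 → ℝ, 0 < δ → δ ≤ 1 → 0 < t → t ≤ η1 → 0 < lam → lam ≤ η1 →
        η ≤ η1 → Hodo n δ t lam η K0 X q →
        ContDiffOn ℝ ∞ (gam (psi n δ) t lam X q) (box 4) ∧
        ContDiffOn ℝ ∞ (bet (psi n δ) t lam X q) (box 4) ∧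
        ∀ z ∈ box 4, z.1 ≤ -(K1 * t) → 2 * δ ^ 2 < X z ^ 2 →
          (∀ m : ℕ, 1 ≤ m → m ≤ n + 4 →
            cm (psi n δ) t lam X q m z - d1 (gam (psi n δ) t lam X q) z / 2
                + d2 (bet (psi n δ) t lam X q) z / 2 ≤ -t ^ 2 ∧
            |dm (psi n δ) t lam X q m z| ≤ C0 * (t * lam ^ 2) ∧
            |cm (psi n δ) t lam X q m z| ≤ C0) ∧
          |bet (psi n δ) t lam X q z| ≤ C0 * (t * lam ^ 2) ∧
          |d1 (bet (psi n δ) t lam X q) z| ≤ C0 * (t * lam ^ 2) ∧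
          |d2 (bet (psi n δ) t lam X q) z| ≤ C0 * (t * lam ^ 2) ∧
          |gam (psi n δ) t lam X q z| ≤ C0 ∧
          |d1 (gam (psi n δ) t lam X q) z| ≤ C0 ∧
          |d2 (gam (psi n δ) t lam X q) z| ≤ C0 := by
  obtain ⟨C, hC⟩ := psiBound n 1 hn
  set Cp := max C 1 with hCp
  set L : ℝ := (n + 6) * 4000000 * (2 * K0 + 4) * 5 with hL
  set η1 : ℝ := min (1 / 100000) (min (1 / (1 + L)) (min (1 / (1 + K0 * (K0 + 1)))
    (1 / (1 + 200 * Cp)))) with hη1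
  have hLp : 0 < L := by positivity
  have hη0 : 0 < η1 := by positivity
  refine ⟨2 * K0 + 3, η1, ((n : ℝ) + 10) * 2000000 * (2 * K0 + 4) * 5, by linarith, hη0,
    by positivity, ?_⟩
  intro δ t lam η X q hδ hδ1 ht htη hl hlη hη hH
  have e1 : η1 ≤ 1 / 100000 := min_le_left _ _
  have e2 : η1 * (1 + L) ≤ 1 := (le_div_iff₀ (by positivity)).1
    (le_trans (min_le_right _ _) (min_le_left _ _))
  have e3 : η1 * (1 + K0 * (K0 + 1)) ≤ 1 := (le_div_iff₀ (by positivity)).1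
    (le_trans (min_le_right _ _) (le_trans (min_le_right _ _) (min_le_left _ _)))
  have e4 : η1 * (1 + 200 * Cp) ≤ 1 := (le_div_iff₀ (by positivity)).1
    (le_trans (min_le_right _ _) (le_trans (min_le_right _ _) (min_le_right _ _)))
  have hη' : η ≤ 1 / 10 := by linarith
  have hsmall : K0 * (K0 + 1) * t ≤ 1 := by nlinarith [mul_pos hK0 (by linarith : 0 < K0 + 1)]
  have hμ0 : 0 ≤ t * lam ^ 2 := mul_nonneg ht.le (sq_nonneg _)
  have hl2 : lam ^ 2 ≤ η1 := by nlinarith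
  have hμ : t * lam ^ 2 * (20 * Cp) ≤ 1 / 10 := by
    have : t * lam ^ 2 ≤ 1 * η1 := mul_le_mul (by linarith) hl2 (sq_nonneg _) (by norm_num)
    have := mul_le_mul_of_nonneg_right this (show (0:ℝ) ≤ 20 * Cp by positivity)
    nlinarith
  obtain ⟨sg, sb, -⟩ := smooth_along (fun u => (hC δ hδ hδ1 u).trans (le_max_left C 1)) hH hη' hK0
    ht hsmall hμ
  refine ⟨sg, sb, ?_⟩
  rintro ⟨p, y⟩ hz hp hx2'
  simp only at hp
  set x := X (p, y) with hx
  set q0 := q (p, y) with hq0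
  set v := d1 X (p, y) with hv
  set w := d1 q (p, y) with hw
  set μ := t * lam ^ 2 with hμdef
  have hx1 := hodo_X_le hH hη' hz (by nlinarith : p ≤ 0)
  simp only at hx1
  rw [← hx] at hx1
  have hx2 : x ≤ -(K0 * t * (4 / 5) + 2 * t) := by nlinarith
  have hKt : 0 < K0 * t := mul_pos hK0 ht
  have hxneg : x < 0 := by linarith
  have hax : |x| = -x := abs_of_neg hxneg
  set S := (2 * K0 + 4) * |x| with hS
  have hpS : |p| ≤ S := by
    have := hH.axisP (p, y) hz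
    simp only [← hx] at this
    rw [hS]; nlinarith
  have hqS : |q0| ≤ S := by
    have := hH.axisQ (p, y) hz
    simp only [← hx, ← hq0] at this
    rw [hS]; nlinarith
  have hxS : |x| ≤ S := by rw [hS]; nlinarith [abs_nonneg x]
  have htx : t ≤ |x| := by linarith
  have hsz := hodo_Sz hH hη' hK0 ht (by linarith) hsmall hl (by linarith) hz hpS hxS hqS
    (htx.trans hxS)
  simp only [← hx, ← hq0, ← hv, ← hw] at hsz
  have hsq1 : 2 * δ ^ 2 < sqn (x, y) := by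
    show 2 * δ ^ 2 < x ^ 2 + y ^ 2
    linarith only [hx2', sq_nonneg y]
  have hsq2 : sqn (x, y) < 100 := by
    obtain ⟨a, b, -, -⟩ := hsz.sqs
    simp [sqn]; linarith
  obtain ⟨M1, M2, M3, eM1, eM2, k1a, k2a, k3a, g1, g2, b1, b2a, b2, c1, c2, v1, v2⟩ :=
    left_jets hH hη' hδ sg sb hz hsz hsq1 hsq2
  have hS0 : 0 ≤ S := hsz.S_nonneg
  have hμS : 0 ≤ μ * S := mul_nonneg hμ0 hS0
  have hSb : S ≤ (2 * K0 + 4) * 5 := mul_le_mul_of_nonneg_left hsz.X5 (by linarith)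
  have hμsmall : (n + 6 : ℝ) * 4000000 * (μ * S) ≤ t * |x| := by
    have h1 : μ * S = t * |x| * (lam ^ 2 * (2 * K0 + 4)) := by rw [hμdef, hS]; ring
    have h2 : lam ^ 2 * (1 + L) ≤ 1 := le_trans (mul_le_mul_of_nonneg_right hl2 (by positivity)) e2
    have h3 : (n + 6 : ℝ) * 4000000 * (lam ^ 2 * (2 * K0 + 4)) ≤ 1 := by
      have e : lam ^ 2 * (1 + L) = lam ^ 2 + 5 * ((n + 6 : ℝ) * 4000000 * (lam ^ 2 * (2 * K0 + 4))) := by
        rw [hL]; ring
      rw [e] at h2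
      linarith [sq_nonneg lam]
    rw [h1]
    calc (n + 6 : ℝ) * 4000000 * (t * |x| * (lam ^ 2 * (2 * K0 + 4)))
        = t * |x| * ((n + 6 : ℝ) * 4000000 * (lam ^ 2 * (2 * K0 + 4))) := by ring
      _ ≤ t * |x| * 1 := mul_le_mul_of_nonneg_left h3 (mul_nonneg ht.le (abs_nonneg x))
      _ = t * |x| := mul_one _
  obtain ⟨m1, m2⟩ := main_le hsz hxneg.le
  rw [← eM1] at m1
  rw [← eM2] at m2
  have hμ1 : μ ≤ 1 / 1000000 := hsz.mu_le.trans (by norm_num)
  refine ⟨fun m hm1 hm2 => ⟨?_, ?_, ?_⟩, ?_, ?_, ?_, ?_, ?_, ?_⟩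
  · refine Dm_le (m := (m : ℝ)) (n := (n : ℝ)) ht.le hμS (by exact_mod_cast hm1) (by exact_mod_cast hm2)
      (by rw [← hax]; exact htx) (by rw [← hax]; exact hμsmall) m1 m2 g1 c1 b2
  · exact dm_le hμ0 hK0 hS0 hSb (Nat.cast_nonneg m) (show (m : ℝ) ≤ n + 4 by exact_mod_cast hm2) b1 c2
  · exact cm_le hμ0 hμ1 hK0 hS0 hSb (Nat.cast_nonneg m) (show (m : ℝ) ≤ n + 4 by exact_mod_cast hm2)
      k1a k2a g1 c1
  · exact le_C0 hμ0 hK0 (Nat.cast_nonneg n) v2 (by norm_num)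
  · exact le_C0 hμ0 hK0 (Nat.cast_nonneg n) (b1.trans_eq (mul_comm _ _)) (by norm_num)
  · exact le_C0 hμ0 hK0 (Nat.cast_nonneg n) (b2a.trans_eq (mul_comm _ _)) (by norm_num)
  · refine v1.trans ?_
    have := mul_nonneg (n.cast_nonneg : (0:ℝ) ≤ n) (show (0:ℝ) ≤ (2 * K0 + 4) by positivity)
    linarith
  · exact bd_C0 hμ0 hμ1 hK0 hS0 hSb (Nat.cast_nonneg n) k1a
      (g1.trans (mul_le_mul_of_nonneg_left (by linarith) hμ0))
  · exact bd_C0 hμ0 hμ1 hK0 hS0 hSb (Nat.cast_nonneg n) k3a g2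

/-- The elliptic zone: the discriminant is at least `t / 2`. -/
theorem elliptic_coeff (n : ℕ) (hn : 1 ≤ n) (K0 : ℝ) (hK0 : 0 < K0) :
    ∃ η1 : ℝ, 0 < η1 ∧ ∀ δ t lam η : ℝ, ∀ X q : E2 → ℝ, 0 < δ → δ ≤ 1 → 0 < t → t ≤ η1 →
      0 < lam → lam ≤ η1 → η ≤ η1 → Hodo n δ t lam η K0 X q →
      ∀ z ∈ box 4, 8 / 5 ≤ |z.1| ∨ 8 / 5 ≤ |z.2| →
        t / 2 ≤ gam (psi n δ) t lam X q z - bet (psi n δ) t lam X q z ^ 2 / 4 := by
  refine ⟨min (1 / 100000) (1 / (1 + K0 * (K0 + 1))), by positivity, ?_⟩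
  intro δ t lam η X q hδ hδ1 ht htη hl hlη hη hH z hz hzz
  set η1 := min (1 / 100000 : ℝ) (1 / (1 + K0 * (K0 + 1))) with hη1
  have e1 : η1 ≤ 1 / 100000 := min_le_left _ _
  have e3 : η1 * (1 + K0 * (K0 + 1)) ≤ 1 :=
    (le_div_iff₀ (by positivity)).1 (min_le_right _ _)
  have hη' : η ≤ 1 / 10 := by linarith
  have hsmall : K0 * (K0 + 1) * t ≤ 1 := by nlinarith [mul_pos hK0 (by linarith : 0 < K0 + 1)]
  have hq5 := hodo_q_le hH hη' hK0 ht hsmall hz
  have hxs := hH.axisS z hz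
  have hx5 : |X z| ≤ 5 := by linarith [abs_sub_abs_le_abs_sub (X z) z.1, hz.1]
  have hsz := hodo_Sz hH hη' hK0 ht (by linarith) hsmall hl (by linarith) (S := 5) hz
    (by linarith [hz.1]) hx5 hq5 (by linarith)
  have hr : 9 / 4 ≤ X z ^ 2 + z.2 ^ 2 := by
    rcases hzz with h | h
    · have h2 : 3 / 2 ≤ |X z| := by linarith [abs_sub_abs_le_abs_sub z.1 (X z), abs_sub_comm z.1 (X z)]
      nlinarith [sq_abs (X z), sq_nonneg z.2]
    · nlinarith [sq_abs z.2, sq_nonneg (X z)]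
  obtain ⟨a, b, -, -⟩ := hsz.sqs
  have h1 : 2 * δ ^ 2 < sqn (X z, z.2) := by simp [sqn]; nlinarith
  have h2 : sqn (X z, z.2) < 100 := by simp [sqn]; linarith
  obtain ⟨e0, ea, eb, el⟩ := psi_values (n := n) hδ h1 h2
  have hA : cA (psi n δ) (t * lam ^ 2) z.1 z.2 (X z) (q z) = A0 (t * lam ^ 2) z.1 z.2 (X z) (q z) := by
    simp [cA, A0, ea, eb]
  have hQ : cQ (psi n δ) t lam z.1 z.2 (X z) (q z) = Q0 t lam z.1 z.2 (X z) (q z) := by
    simp [cQ, Q0, Xi0, e0, el, sqn]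
  have hD := hsz.D_pos
  have hD' := abs_le.1 hsz.D_le
  have hXi := abs_le.1 hsz.Xi_le
  unfold D0 at hD hD'
  rw [ge_eq (by rw [hA]; exact ne_of_gt (by linarith)), hA, hQ, le_div_iff₀ (by positivity)]
  unfold Q0
  have k1 : (5 / 4 : ℝ) * (99 / 100) ≤ (X z ^ 2 + z.2 ^ 2 - 1) * Xi0 (t * lam ^ 2) lam z.1 z.2 (X z) (q z) :=
    mul_le_mul (by linarith) (by linarith) (by norm_num) (by linarith)
  have k2 := pow_le_pow_left₀ (by linarith : (0:ℝ) ≤ _) (show 1 + A0 (t * lam ^ 2) z.1 z.2 (X z) (q z) * d1 X z ≤ 11 / 10 by linarith) 2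
  nlinarith

/-- The hyperbolic slab: the discriminant is at most `-t / 2`. -/
theorem middle_coeff (n : ℕ) (hn : 3 ≤ n) (K0 : ℝ) (hK0 : 0 < K0) :
    ∃ η1 δ1 C0 : ℝ, 0 < η1 ∧ 0 < δ1 ∧ δ1 ≤ 1 ∧ 0 < C0 ∧
      ∀ δ t lam η : ℝ, ∀ X q : E2 → ℝ, 0 < δ → δ ≤ δ1 → 0 < t → t ≤ η1 → 0 < lam → lam ≤ η1 →
        η ≤ η1 → Hodo n δ t lam η K0 X q →
        ContDiffOn ℝ ∞ (gam (psi n δ) t lam X q) (box 4) ∧
        ContDiffOn ℝ ∞ (bet (psi n δ) t lam X q) (box 4) ∧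
        (∀ z ∈ box 4, |bet (psi n δ) t lam X q z| ≤ C0 * (t * lam ^ 2)) ∧
        ∀ z ∈ box 4, |z.1| ≤ 1 / 8 → |z.2| ≤ 1 / 2 →
          gam (psi n δ) t lam X q z - bet (psi n δ) t lam X q z ^ 2 / 4 ≤ -(t / 2) := by
  obtain ⟨m, rfl⟩ : ∃ m, n = m + 1 := ⟨n - 1, by omega⟩
  obtain ⟨C, hC⟩ := psiBound (m + 1) 1 (by omega)
  obtain ⟨Cz, hCz⟩ := psiBound (m + 1) 0 (by omega)
  obtain ⟨C2, hC2⟩ := psiBound m 2 (by omega)
  set Cp := max C 1 with hCp
  set Cq := max Cz 1 with hCq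
  set Cr := max C2 1 with hCr
  set η1 : ℝ := min (1 / 100000) (min (1 / (1 + K0 * (K0 + 1))) (min (1 / (1 + 200 * Cp))
    (1 / (1 + 400 * Cq)))) with hη1
  refine ⟨η1, min 1 (1 / (1 + 400 * Cr)), 50 * Cp, by positivity, by positivity, min_le_left _ _,
    by positivity, ?_⟩
  intro δ t lam η X q hδ hδ' ht htη hl hlη hη hH
  have hδ1 : δ ≤ 1 := hδ'.trans (min_le_left _ _)
  have e1 : η1 ≤ 1 / 100000 := min_le_left _ _
  have e3 : η1 * (1 + K0 * (K0 + 1)) ≤ 1 := (le_div_iff₀ (by positivity)).1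
    (le_trans (min_le_right _ _) (min_le_left _ _))
  have e4 : η1 * (1 + 200 * Cp) ≤ 1 := (le_div_iff₀ (by positivity)).1
    (le_trans (min_le_right _ _) (le_trans (min_le_right _ _) (min_le_left _ _)))
  have e5 : η1 * (1 + 400 * Cq) ≤ 1 := (le_div_iff₀ (by positivity)).1
    (le_trans (min_le_right _ _) (le_trans (min_le_right _ _) (min_le_right _ _)))
  have e6 : δ * (1 + 400 * Cr) ≤ 1 :=
    (le_div_iff₀ (by positivity)).1 (hδ'.trans (min_le_right _ _))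
  have hη' : η ≤ 1 / 10 := by linarith
  have hsmall : K0 * (K0 + 1) * t ≤ 1 := by nlinarith [mul_pos hK0 (by linarith : 0 < K0 + 1)]
  have hμ0 : 0 ≤ t * lam ^ 2 := mul_nonneg ht.le (sq_nonneg _)
  have hl2 : lam ^ 2 ≤ η1 := by nlinarith
  have hμη : t * lam ^ 2 ≤ 1 * η1 := mul_le_mul (by linarith) hl2 (sq_nonneg _) (by norm_num)
  have hμ : t * lam ^ 2 * (20 * Cp) ≤ 1 / 10 := by
    have := mul_le_mul_of_nonneg_right hμη (show (0:ℝ) ≤ 20 * Cp by positivity)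
    nlinarith
  obtain ⟨sg, sb, key⟩ := smooth_along (fun u => (hC δ hδ hδ1 u).trans (le_max_left C 1)) hH hη'
    hK0 ht hsmall hμ
  refine ⟨sg, sb, ?_, ?_⟩
  · intro z hz
    obtain ⟨hA, hB, hD⟩ := key z hz
    show |betF _ _ _ _ _ _ _ _ _| ≤ _
    unfold betF
    have hw : |d1 q z| ≤ 1 := by linarith [hH.Qp z]
    refine (div_le (ab (a := 2) (A := 2) (by norm_num) (trs hB (ab hA hw))) (c := 9 / 10)
      (by norm_num) (hD.trans (le_abs_self _))).trans ?_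
    rw [div_le_iff₀ (by norm_num)]
    nlinarith [mul_nonneg hμ0 (show (0:ℝ) ≤ Cp by positivity)]
  · intro z hz hz1 hz2
    obtain ⟨hA, -, hD⟩ := key z hz
    have hq5 := hodo_q_le hH hη' hK0 ht hsmall hz
    have hxs := hH.axisS z hz
    have hx : |X z| ≤ 9 / 40 := by linarith [abs_sub_abs_le_abs_sub (X z) z.1]
    set u : E2 := (X z, z.2) with hu
    have hr : sqn u ≤ 31 / 100 := by
      simp [sqn, hu]; nlinarith [sq_abs (X z), sq_abs z.2, abs_nonneg (X z), abs_nonneg z.2]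
    -- the Laplacian of the profile is close to that of the lens
    have hlap : 67 / 100 ≤ lap (psi (m + 1) δ) u := by
      set base : E2 → ℝ := fun w => cutR w * psi0 w with hbase
      have hb : ContDiff ℝ ∞ base := contDiff_cutR.mul contDiff_psi0
      have hm' := contDiff_psi m δ
      have e : psi (m + 1) δ = fun w => (1 - δ) * base w + δ * psi m δ w := by
        funext w; simp [psi, hbase, pow_succ]; ring
      have lin : ∀ f g : E2 → ℝ, ContDiff ℝ ∞ f → ContDiff ℝ ∞ g → ∀ v : E2,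
          (fun w => fderiv ℝ (fun x => (1 - δ) * f x + δ * g x) w v) =
            fun w => (1 - δ) * fderiv ℝ f w v + δ * fderiv ℝ g w v := by
        intro f g hf hg v
        funext w
        rw [fderiv_fun_add ((hf.differentiable (by simp) w).const_mul _)
          ((hg.differentiable (by simp) w).const_mul _),
          fderiv_const_mul (hf.differentiable (by simp) w),
          fderiv_const_mul (hg.differentiable (by simp) w)]
        simp
      have hl : lap (psi (m + 1) δ) u = (1 - δ) * lap base u + δ * lap (psi m δ) u := by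
        unfold lap
        rw [e]
        have a1 : d1 (fun w => (1 - δ) * base w + δ * psi m δ w)
            = fun w => (1 - δ) * d1 base w + δ * d1 (psi m δ) w := lin _ _ hb hm' _
        have a2 : d2 (fun w => (1 - δ) * base w + δ * psi m δ w)
            = fun w => (1 - δ) * d2 base w + δ * d2 (psi m δ) w := lin _ _ hb hm' _
        rw [a1, a2]
        have a3 := congrFun (lin _ _ (contDiff_d1 hb) (contDiff_d1 hm') (1, 0)) u
        have a4 := congrFun (lin _ _ (contDiff_d2 hb) (contDiff_d2 hm') (0, 1)) u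
        show fderiv ℝ _ u (1, 0) + fderiv ℝ _ u (0, 1) = _
        rw [a3, a4]; simp only [d1, d2]; ring
      have hbl : lap base u = 1 - sqn u := by
        have ev : base =ᶠ[𝓝 u] psi0 := by
          filter_upwards [(isOpen_lt contDiff_sqn.continuous continuous_const).mem_nhds
            (show sqn u < 100 by linarith)] with w hw
          simp [hbase, cutR_eq_one (le_of_lt hw)]
        rw [← lap_psi0 u]
        have hd : ∀ v : E2, (fun w => fderiv ℝ base w v) =ᶠ[𝓝 u] fun w => fderiv ℝ psi0 w v :=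
          fun v => (Filter.EventuallyEq.fderiv (𝕜 := ℝ) ev).mono
            fun w hw => congrArg (fun T : E2 →L[ℝ] ℝ => T v) hw
        unfold lap d1 d2
        rw [(hd (1, 0)).fderiv_eq, (hd (0, 1)).fderiv_eq]
      have hpl : |lap (psi m δ) u| ≤ Cr + Cr :=
        tri ((second_le hm' u _ _ norm_e1 norm_e1).trans ((hC2 δ hδ hδ1 u).trans (le_max_left _ _)))
          ((second_le hm' u _ _ norm_e2 norm_e2).trans ((hC2 δ hδ hδ1 u).trans (le_max_left _ _)))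
      have hpl' := abs_le.1 hpl
      have hs0 : 0 ≤ sqn u := by unfold sqn; positivity
      rw [hl, hbl]
      exact lap_ge hδ.le e6 hr hs0 hpl'.1 (le_max_right C2 1)
    have hXi : 98 / 100 ≤ Real.exp (2 * (t * lam ^ 2) * psi (m + 1) δ u)
        - lam ^ 2 * (z.1 ^ 2 + q z ^ 2) := by
      have hp0 : |psi (m + 1) δ u| ≤ Cq := by
        have := (hCz δ hδ hδ1 u).trans (le_max_left Cz 1)
        rwa [norm_iteratedFDeriv_zero, Real.norm_eq_abs] at this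
      have hexp := Real.add_one_le_exp (2 * (t * lam ^ 2) * psi (m + 1) δ u)
      have := abs_le.1 ((ab (a := 2 * (t * lam ^ 2)) (A := 2 * η1)
        (by rw [abs_of_nonneg (by linarith)]; linarith) hp0).trans
        (show 2 * η1 * Cq ≤ 1 / 100 by nlinarith))
      have hp2 := pow_le_pow_left₀ (abs_nonneg z.1) hz1 2
      have hq2 := pow_le_pow_left₀ (abs_nonneg (q z)) hq5 2
      rw [sq_abs] at hp2 hq2
      have : lam ^ 2 * (z.1 ^ 2 + q z ^ 2) ≤ 1 / 100000 * 26 :=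
        mul_le_mul (hl2.trans e1) (by linarith) (by positivity) (by norm_num)
      linarith
    rw [ge_eq (ne_of_gt (by linarith)), div_le_iff₀ (by positivity)]
    have hv : |d1 X z| ≤ 2 := by
      have := abs_le.1 (hH.Xp z)
      rw [abs_le]; constructor <;> linarith
    have k2 := pow_le_pow_left₀ (by linarith : (0:ℝ) ≤ _)
      (show 1 + cA (psi (m + 1) δ) (t * lam ^ 2) z.1 z.2 (X z) (q z) * d1 X z ≤ 11 / 10 by
        have := abs_le.1 (ab hA hv); linarith) 2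
    have k1 : (67 / 100 : ℝ) * (98 / 100) ≤ lap (psi (m + 1) δ) u *
        (Real.exp (2 * (t * lam ^ 2) * psi (m + 1) δ u) - lam ^ 2 * (z.1 ^ 2 + q z ^ 2)) :=
      mul_le_mul hlap hXi (by norm_num) (by linarith)
    unfold cQ
    rw [← hu]
    exact hyp_final ht.le k1 k2

end Vale.Agent.P229
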