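import Vale.Agent.P229.LevelsDef

/-!
# P229, left estimates: what is used about coefficients and lower order rests
-/

namespace Vale.Agent.P229

open Real Set
open scoped ContDiff

/-- The coefficient facts at a point left of the slab. -/
structure CoeffAt (ψ : E2 → ℝ) (t lam : ℝ) (X q : E2 → ℝ) (m : ℕ) (C0 : ℝ) (z : E2) : Prop where
  bgam : |gam ψ t lam X q z| ≤ C0
  bbet : |bet ψ t lam X q z| ≤ C0
  bbet' : |bet ψ t lam X q z| ≤ t / 8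
  bc : |cm ψ t lam X q m z| ≤ C0
  bd : |dm ψ t lam X q m z| ≤ C0
  bgamp : |d1 (gam ψ t lam X q) z| ≤ C0
  bbetp : |d1 (bet ψ t lam X q) z| ≤ C0
  bbetp2 : d1 (bet ψ t lam X q) z ^ 2 ≤ t ^ 2 / 4000
  neg : cm ψ t lam X q m z - d1 (gam ψ t lam X q) z / 2 + d2 (bet ψ t lam X q) z / 2 ≤ -t ^ 2
  dsq : dm ψ t lam X q m z ^ 2 ≤ t ^ 2 / 4000
  dbet : |dm ψ t lam X q m z * bet ψ t lam X q z| ≤ t ^ 2 / 8
  ell : 8 / 5 ≤ |z.1| ∨ 8 / 5 ≤ |z.2| →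
    t / 2 ≤ gam ψ t lam X q z - bet ψ t lam X q z ^ 2 / 4

/-- Coefficient facts left of the slab, uniform in the bump. -/
def CoeffStmt : Prop :=
  ∀ n : ℕ, 8 ≤ n → ∀ K0 : ℝ, 0 < K0 → ∃ K1 η1 C0 : ℝ, 0 < η1 ∧
    ∀ δ t lam η : ℝ, ∀ X q : E2 → ℝ, 0 < δ → δ ≤ η1 → 0 < t → t ≤ η → 0 < lam → lam ≤ η →
      η ≤ η1 → Hodo n δ t lam η K0 X q →
        ∀ z ∈ box 4, z.1 ≤ -(K1 * t) → 2 * δ ^ 2 < X z ^ 2 →
          ∀ m : ℕ, 1 ≤ m → m ≤ n + 4 → CoeffAt (psi n δ) t lam X q m C0 z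

/-- The coefficients are smooth on the box. -/
def CoeffSmoothStmt : Prop :=
  ∀ n : ℕ, 8 ≤ n → ∀ K0 : ℝ, 0 < K0 → ∃ η1 : ℝ, 0 < η1 ∧
    ∀ δ t lam η : ℝ, ∀ X q : E2 → ℝ, 0 < δ → δ ≤ η1 → 0 < t → t ≤ η → 0 < lam → lam ≤ η →
      η ≤ η1 → Hodo n δ t lam η K0 X q →
        ContDiffOn ℝ 2 (gam (psi n δ) t lam X q) (box 4) ∧
        ContDiffOn ℝ 2 (bet (psi n δ) t lam X q) (box 4) ∧
        ContinuousOn (cX (psi n δ) t lam X q) (box 4) ∧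
        ContinuousOn (cq (psi n δ) t lam X q) (box 4)

/-- The bound of the lower order rest left of the slab (`left_Glev`). -/
def LeftGlevStmt : Prop :=
  ∀ K0 : ℝ, 0 < K0 → ∃ η1 : ℝ, 0 < η1 ∧ ∀ m, 6 ≤ m → ∀ B : ℝ, ∃ C : ℝ,
    ∀ n : ℕ, 8 ≤ n → ∀ δ t lam η : ℝ, ∀ X q : E2 → ℝ, 0 < δ → δ ≤ η1 → 0 < t → t ≤ η1 →
      0 < lam → lam ≤ η1 → η ≤ η1 → Hodo n δ t lam η K0 X q →
        ∀ z ∈ box 4, 2 * δ ^ 2 < X z ^ 2 →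
          (∀ l ≤ max 5 (m - 3), |(d1^[l]) X z| ≤ B ∧ |(d1^[l]) q z| ≤ B) →
            |Glev (psi n δ) t lam X q m z| ≤ C * (1 + lowSum X q m z)

end Vale.Agent.P229
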