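import Vale.Agent.P229.LevelsDef
import Vale.Agent.P229.Atoms

/-!
# P229, middle module: what is used about coefficients and lower order rests in the slab
-/

namespace Vale.Agent.P229

open Real Set
open scoped ContDiff

/-- The coefficient facts at a point of the slab. -/
structure CoeffMidAt (ψ : E2 → ℝ) (t lam : ℝ) (X q : E2 → ℝ) (C : ℝ) (z : E2) : Prop where
  gsmooth : ContDiffAt ℝ 1 (gam ψ t lam X q) z
  bsmooth : ContDiffAt ℝ 1 (bet ψ t lam X q) z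
  hyp : t / 2 ≤ bet ψ t lam X q z ^ 2 / 4 - gam ψ t lam X q z
  bdg : |gam ψ t lam X q z| ≤ C * t ∧ |d1 (gam ψ t lam X q) z| ≤ C * t ∧
    |d2 (gam ψ t lam X q) z| ≤ C * t
  bdbe : |bet ψ t lam X q z| ≤ C * t ∧ |d1 (bet ψ t lam X q) z| ≤ C * t ∧
    |d2 (bet ψ t lam X q) z| ≤ C * t
  bdX : |cX ψ t lam X q z| ≤ C * t
  bdq : |cq ψ t lam X q z| ≤ C * t

/-- Coefficient facts in the slab, uniform in the bump. -/
def CoeffMidStmt : Prop :=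
  ∀ n : ℕ, 8 ≤ n → ∀ K0 : ℝ, 0 < K0 → ∃ η1 C : ℝ, 0 < η1 ∧ 1 ≤ C ∧
    ∀ δ t lam η : ℝ, ∀ X q : E2 → ℝ, 0 < δ → δ ≤ η1 → 0 < t → t ≤ η → 0 < lam → lam ≤ η →
      η ≤ η1 → Hodo n δ t lam η K0 X q →
        ∀ z : E2, |z.1| ≤ 1 / 8 → |z.2| ≤ 1 / 2 → CoeffMidAt (psi n δ) t lam X q C z

/-- The coefficient of the bump in the level equation of order `m`. -/
noncomputable def mainCoef (ψ : E2 → ℝ) (t lam : ℝ) (X q : E2 → ℝ) (m : ℕ) (z : E2) : ℝ :=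
  -t * (Real.exp (2 * (t * lam ^ 2) * ψ (X z, z.2)) - lam ^ 2 * (z.1 ^ 2 + q z ^ 2)) * d1 X z
    / (1 + cA ψ (t * lam ^ 2) z.1 z.2 (X z) (q z) * d1 X z) * d1 X z ^ m

/-- The lower order rest in the slab up to the bump term (`middle_Glev`). -/
def MidGlevStmt : Prop :=
  ∀ K0 : ℝ, 0 < K0 → ∃ η1 : ℝ, 0 < η1 ∧ ∀ n : ℕ, 8 ≤ n → ∀ m, 5 ≤ m → m ≤ n → ∀ B : ℝ, ∃ C : ℝ,
    ∀ δ t lam η : ℝ, ∀ X q : E2 → ℝ, 0 < δ → δ ≤ η1 → 0 < t → t ≤ η1 →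
      0 < lam → lam ≤ η1 → η ≤ η1 → Hodo n δ t lam η K0 X q →
        ∀ z ∈ box 4, (∀ l < m, |(d1^[l]) X z| ≤ B ∧ |(d1^[l]) q z| ≤ B) →
          |Glev (psi n δ) t lam X q m z
              - mainCoef (psi n δ) t lam X q m z * (d1^[m]) (lap (bumpPart n δ)) (X z, z.2)|
            ≤ C * (1 + bumpW n δ X (m - 1) z)

end Vale.Agent.P229
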