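import Vale.Agent.P229.Coeff
import Vale.Agent.P229.Atoms
import Vale.Agent.P229.Bump
import Vale.Agent.P229.LeftHyp
import Vale.Agent.P229.MiddleHyp

/-!
# P229: the coefficient facts in the forms used by the left and middle modules

In the slab the coefficients are coordinate derivatives of `phi10`, which vanishes for `t = 0`.
-/

namespace Vale.Agent.P229

open Set Filter
open scoped ContDiff Topology

namespace Coeff

/-- The smooth functions of ten numbers that vanish where the eighth one does. -/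
def Flat (H : E10 → ℝ) : Prop :=
  ContDiffOn ℝ ∞ H dom10 ∧ ∀ j ∈ dom10, j 8 = 0 → H j = 0

lemma flat_phi10 : Flat phi10 := by
  refine ⟨contDiffOn_phi10, fun j _ h => ?_⟩
  simp [phi10, fA, fB, fQ, h]

lemma Flat.dirDeriv {H : E10 → ℝ} (hH : Flat H) {v : E10} (hv : v 8 = 0) :
    Flat fun j => fderiv ℝ H j v := by
  refine ⟨(hH.1.fderiv_of_isOpen isOpen_dom10 le_rfl).clm_apply contDiffOn_const, fun j hj h8 => ?_⟩
  have hd := ((hH.1.contDiffAt (isOpen_dom10.mem_nhds hj)).differentiableAt (by simp)).hasFDerivAt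
  have hl : HasDerivAt (fun s : ℝ => j + s • v) v 0 := by
    simpa using ((hasDerivAt_id (0 : ℝ)).smul_const v).const_add j
  have h1 := hd.comp_hasDerivAt_of_eq (0 : ℝ) hl (by simp)
  have hev : (H ∘ fun s : ℝ => j + s • v) =ᶠ[𝓝 (0 : ℝ)] fun _ => (0 : ℝ) := by
    have hc : Continuous fun s : ℝ => j + s • v := by fun_prop
    filter_upwards [(isOpen_dom10.preimage hc).mem_nhds (show j + (0 : ℝ) • v ∈ dom10 by simpa)]
      with s hs
    exact hH.2 _ hs (by simp [h8, hv])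
  exact h1.unique ((hasDerivAt_const (0 : ℝ) (0 : ℝ)).congr_of_eventuallyEq hev)

/-- A compact box of arguments. -/
def cube (R a : ℝ) : Set E10 :=
  Icc (fun i => if i = 8 then -a else -R) (fun i => if i = 8 then a else R)

lemma cube_dom {R a : ℝ} (hR : 1 ≤ R) (ha : a * (2 * R ^ 5) < 1) : cube R a ⊆ dom10 := by
  intro j hj
  have hb : ∀ i : Fin 10, i ≠ 8 → |j i| ≤ R := fun i hi => by
    have h1 := hj.1 i
    have h2 := hj.2 i
    simp only [hi, if_false] at h1 h2
    exact abs_le.2 ⟨h1, h2⟩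
  have h8 : |j 8| ≤ a := by
    have h1 := hj.1 8
    have h2 := hj.2 8
    simp only [if_true] at h1 h2
    exact abs_le.2 ⟨h1, h2⟩
  have h9 : |j 9 ^ 2| ≤ R * R := by rw [sq]; exact ab (hb 9 (by decide)) (hb 9 (by decide))
  have h := ab (ab (ab h8 h9) (tri (ab ((abs_neg _).trans_le (hb 5 (by decide))) (hb 0 (by decide)))
    (ab (hb 6 (by decide)) (hb 1 (by decide))))) (hb 2 (by decide))
  have e : a * (R * R) * (R * R + R * R) * R = a * (2 * R ^ 5) := by ring
  rw [e] at h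
  show 0 < 1 + fA j * j 2
  unfold fA
  linarith [(abs_le.1 h).1]

lemma cube_bound {R a : ℝ} (hR : 1 ≤ R) (ha0 : 0 ≤ a) (ha : a * (2 * R ^ 5) < 1) {H : E10 → ℝ}
    (hH : Flat H) : ∃ C : ℝ, 0 ≤ C ∧ ∀ j ∈ cube R a, |H j| ≤ C * |j 8| := by
  have hsub := cube_dom hR ha
  have hK : IsCompact (cube R a) := isCompact_Icc
  obtain ⟨C, hC⟩ := hK.exists_bound_of_continuousOn
    ((hH.1.continuousOn_fderiv_of_isOpen isOpen_dom10 (by simp)).mono hsub)
  refine ⟨max C 0, le_max_right _ _, fun j hj => ?_⟩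
  set j0 : E10 := Function.update j 8 0 with hj0
  have hmem : j0 ∈ cube R a := by
    refine ⟨fun i => ?_, fun i => ?_⟩ <;> by_cases hi : i = 8
    · subst hi; simp [hj0, ha0]
    · simpa [hj0, hi] using hj.1 i
    · subst hi; simp [hj0, ha0]
    · simpa [hj0, hi] using hj.2 i
  have h := Convex.norm_image_sub_le_of_norm_fderiv_le
    (fun u hu => (hH.1.contDiffAt (isOpen_dom10.mem_nhds (hsub hu))).differentiableAt (by simp))
    (fun u hu => (hC u hu).trans (le_max_left C 0)) (convex_Icc _ _) hmem hj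
  rw [hH.2 j0 (hsub hmem) (by simp [hj0]), sub_zero, Real.norm_eq_abs] at h
  refine h.trans (mul_le_mul_of_nonneg_left ?_ (le_max_right _ _))
  refine (pi_norm_le_iff_of_nonneg (abs_nonneg _)).2 fun i => ?_
  by_cases hi : i = 8
  · subst hi; simp [hj0]
  · simp [hj0, hi]

/-- The atoms and their derivatives, bounded uniformly in the width. -/
lemma atom_bounds (n : ℕ) (hn : 3 ≤ n) :
    ∃ C : ℝ, 1 ≤ C ∧ ∀ δ : ℝ, 0 < δ → δ ≤ 1 → ∀ (k : Fin 4) (u : E2), sqn u < 100 →
      |atom (psi n δ) k u| ≤ C ∧ ∀ v : E2, |fderiv ℝ (atom (psi n δ) k) u v| ≤ C * ‖v‖ := by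
  have hK : IsCompact {u : E2 | sqn u ≤ 100} := by
    refine Metric.isCompact_of_isClosed_isBounded
      (isClosed_le contDiff_sqn.continuous continuous_const)
      ((Metric.isBounded_closedBall (x := (0 : E2)) (r := 10)).subset fun u hu => ?_)
    have hu' : u.1 ^ 2 + u.2 ^ 2 ≤ 100 := hu
    rw [Metric.mem_closedBall, dist_zero_right, Prod.norm_def, max_le_iff]
    constructor <;> exact abs_le_of_sq_le_sq (by nlinarith) (by norm_num)
  have hP : ∀ k : Fin 4, ∃ A : ℝ, 0 ≤ A ∧ ∀ u : E2, sqn u ≤ 100 →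
      |atom psi0 k u| ≤ A ∧ ‖fderiv ℝ (atom psi0 k) u‖ ≤ A := by
    intro k
    have hs := contDiff_atom contDiff_psi0 k
    obtain ⟨A, hA⟩ := hK.exists_bound_of_continuousOn hs.continuous.continuousOn
    obtain ⟨A', hA'⟩ := hK.exists_bound_of_continuousOn
      (hs.continuous_fderiv (by simp)).continuousOn
    exact ⟨max 0 (max A A'), le_max_left _ _, fun u hu =>
      ⟨(hA u hu).trans (le_max_of_le_right (le_max_left _ _)),
        (hA' u hu).trans (le_max_of_le_right (le_max_right _ _))⟩⟩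
  have hB : ∀ k : Fin 4, ∃ A : ℝ, 0 ≤ A ∧ ∀ u : E2,
      |atom bumpB k u| ≤ A ∧ ‖fderiv ℝ (atom bumpB k) u‖ ≤ A := by
    intro k
    have hs := contDiff_atom contDiff_bumpB k
    have hc : HasCompactSupport (atom bumpB k) :=
      Bump.off_compact fun u hu => by simpa using d1_iter_atom_bumpB_zero k 0 hu
    obtain ⟨A, hA⟩ := hs.continuous.bounded_above_of_compact_support hc
    obtain ⟨A', hA'⟩ := (hs.continuous_fderiv (by simp)).bounded_above_of_compact_support
      (hc.fderiv ℝ)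
    exact ⟨max 0 (max A A'), le_max_left _ _, fun u =>
      ⟨(hA u).trans (le_max_of_le_right (le_max_left _ _)),
        (hA' u).trans (le_max_of_le_right (le_max_right _ _))⟩⟩
  choose A hA0 hA using hP
  choose B hB0 hB using hB
  refine ⟨1 + ∑ k, (A k + B k), le_add_of_nonneg_right
    (Finset.sum_nonneg fun k _ => add_nonneg (hA0 k) (hB0 k)), ?_⟩
  intro δ hδ hδ1 k u hu
  have hk : A k + B k ≤ 1 + ∑ k, (A k + B k) :=
    le_add_of_nonneg_of_le zero_le_one
      (Finset.single_le_sum (fun k _ => add_nonneg (hA0 k) (hB0 k)) (Finset.mem_univ k))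
  set c := δ ^ n * Real.sqrt δ / δ ^ atomOrd k with hc
  have hord : atomOrd k + 1 ≤ n := by fin_cases k <;> simp [atomOrd] <;> omega
  have hc0 : 0 ≤ c := by positivity
  have hc1 : c / δ ≤ 1 := by
    rw [hc, div_div, ← pow_succ, div_le_one (by positivity)]
    exact (mul_le_of_le_one_right (by positivity)
      (by rw [← Real.sqrt_one]; exact Real.sqrt_le_sqrt hδ1)).trans (pow_le_pow_of_le_one hδ.le hδ1 hord)
  have hc2 : c ≤ 1 := le_trans (by rw [le_div_iff₀ hδ]; nlinarith) hc1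
  have heq : EqOn (atom (psi n δ) k)
      (fun v => atom psi0 k v + scaled c δ (atom bumpB k) v) {v | sqn v < 100} := fun v hv => by
    simpa [hc] using d1_iter_atom_psi n δ k 0 hv
  refine ⟨?_, fun v => ?_⟩
  · rw [heq hu]
    refine (tri (hA k u hu.le).1 (ab (A := (1 : ℝ)) (by rw [abs_of_nonneg hc0]; exact hc2)
      (hB k _).1)).trans (by linarith)
  · rw [(Filter.eventuallyEq_of_mem ((isOpen_sqn_lt 100).mem_nhds hu) heq).fderiv_eq]
    have s1 := contDiff_atom contDiff_psi0 k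
    have s2 := contDiff_atom contDiff_bumpB k
    rw [fderiv_fun_add (s1.differentiable (by simp) u)
      ((contDiff_scaled c δ s2).differentiable (by simp) u)]
    simp only [add_apply, fderiv_scaled c δ s2]
    rw [map_smul, smul_eq_mul, ← mul_assoc, ← div_eq_mul_inv]
    refine (tri (ContinuousLinearMap.le_of_opNorm_le _ (hA k u hu.le).2 v)
      (ab (A := (1 : ℝ)) (by rw [abs_of_nonneg (by positivity)]; exact hc1)
      (ContinuousLinearMap.le_of_opNorm_le _ (hB k _).2 v))).trans ?_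
    have := mul_le_mul_of_nonneg_right hk (norm_nonneg v)
    linarith

/-- Values and derivative of the jet in the slab. -/
lemma jet_bounds {n : ℕ} {δ t lam η K0 C : ℝ} {X q : E2 → ℝ} (hC1 : 1 ≤ C)
    (hC : ∀ (k : Fin 4) (u : E2), sqn u < 100 →
      |atom (psi n δ) k u| ≤ C ∧ ∀ v : E2, |fderiv ℝ (atom (psi n δ) k) u v| ≤ C * ‖v‖)
    (h : Hodo n δ t lam η K0 X q) (hη : η ≤ 1 / 10) (ht : 0 < t) (hl : 0 < lam) (hl1 : lam ≤ 1)
    {z : E2} (hz : z ∈ box 4) (hq : |q z| ≤ 5) {a : ℝ} (hta : t ≤ a) :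
    jet (psi n δ) t lam X q z ∈ cube (5 * C) a ∧ ∀ v : E2, ‖v‖ ≤ 1 →
      (∀ i, |fderiv ℝ (jet (psi n δ) t lam X q) z v i| ≤ 5 * C) ∧
      fderiv ℝ (jet (psi n δ) t lam X q) z v 8 = 0 := by
  have hx5 : |X z| ≤ 5 := by
    linarith [abs_sub_abs_le_abs_sub (X z) z.1, h.axisS z hz, hz.1]
  have hu : sqn (X z, z.2) < 100 := by
    have := pow_le_pow_left₀ (abs_nonneg _) hx5 2
    have := pow_le_pow_left₀ (abs_nonneg _) hz.2.le 2
    simp [sqn]
    rw [sq_abs] at *
    linarith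
  have hJ := contDiff_jet (t := t) (lam := lam) (contDiff_psi n δ) h.smoothX h.smoothQ
  have hv2 := abs_le.1 (h.Xp z)
  constructor
  · have hmem : ∀ i : Fin 10, |jet (psi n δ) t lam X q z i| ≤ if i = 8 then a else 5 * C := by
      intro i
      fin_cases i <;> simp [jet]
      · linarith [hz.1]
      · linarith
      · rw [abs_le]; constructor <;> linarith
      · linarith [h.Qp z]
      · exact (hC 0 _ hu).1.trans (by linarith)
      · exact (hC 1 _ hu).1.trans (by linarith)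
      · exact (hC 2 _ hu).1.trans (by linarith)
      · exact (hC 3 _ hu).1.trans (by linarith)
      · rw [abs_of_pos ht]; exact hta
      · rw [abs_of_pos hl]; linarith
    constructor <;> intro i <;> have := abs_le.1 (hmem i) <;> by_cases hi : i = 8 <;>
      simp [hi] at this ⊢ <;> linarith
  · intro v hv
    have hd : DifferentiableAt ℝ (jet (psi n δ) t lam X q) z := hJ.differentiable (by simp) z
    have hcomp : ∀ i, fderiv ℝ (jet (psi n δ) t lam X q) z v i
        = fderiv ℝ (fun w => jet (psi n δ) t lam X q w i) z v := fun i => by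
      rw [fderiv_apply hd i]; rfl
    set P : E2 → E2 := fun w => (X w, w.2) with hP
    have hPd : DifferentiableAt ℝ P z :=
      (h.smoothX.differentiable (by simp) z).prodMk differentiableAt_snd
    have hPb : ‖fderiv ℝ P z v‖ ≤ 2 := by
      rw [(h.smoothX.differentiable (by simp) z).fderiv_prodMk differentiableAt_snd]
      rw [fderiv_snd]
      simp only [ContinuousLinearMap.prod_apply, ContinuousLinearMap.coe_snd', Prod.norm_def,
        Real.norm_eq_abs]
      refine max_le ?_ (le_trans (norm_snd_le v) (by linarith))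
      have e : fderiv ℝ X z v = v.1 * d1 X z + v.2 * d2 X z := by
        unfold d1 d2
        rw [← smul_eq_mul, ← smul_eq_mul, ← map_smul, ← map_smul, ← map_add]
        congr 1; ext <;> simp
      rw [e, h.compat]
      refine (tri (ab ((norm_fst_le v).trans hv) (show |d1 X z| ≤ 11 / 10 by
          rw [abs_le]; constructor <;> linarith))
        (ab ((norm_snd_le v).trans hv) (show |(-d1 q z)| ≤ 1 / 10 by
          rw [abs_neg]; linarith [h.Qp z]))).trans (by norm_num)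
    have hat : ∀ k : Fin 4, |fderiv ℝ (fun w => atom (psi n δ) k (P w)) z v| ≤ 5 * C := by
      intro k
      rw [fderiv_fun_comp z ((contDiff_atom (contDiff_psi n δ) k).differentiable (by simp) _) hPd]
      refine ((hC k _ hu).2 _).trans ?_
      calc C * ‖fderiv ℝ P z v‖ ≤ C * 2 := mul_le_mul_of_nonneg_left hPb (by linarith)
        _ ≤ 5 * C := by linarith
    have sX := second_le h.smoothX z (1, 0) v norm_e1 hv
    have sq' := second_le h.smoothQ z (1, 0) v norm_e1 hv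
    have hq2 : |fderiv ℝ q z v| ≤ 5 * C := by
      have e : fderiv ℝ q z v = v.1 * d1 q z + v.2 * d2 q z := by
        unfold d1 d2
        rw [← smul_eq_mul, ← smul_eq_mul, ← map_smul, ← map_smul, ← map_add]
        congr 1; ext <;> simp
      rw [e]
      refine (tri (ab ((norm_fst_le v).trans hv) ((h.Qp z).trans hη))
        (ab ((norm_snd_le v).trans hv) ((h.Qy z).trans hη))).trans (by linarith)
    refine ⟨fun i => ?_, ?_⟩
    · rw [hcomp]
      fin_cases i <;> simp [jet]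
      · rw [fderiv_fst]
        exact le_trans ((norm_fst_le v).trans hv) (show (1 : ℝ) ≤ 5 * C by linarith)
      · exact hq2
      · exact sX.trans ((h.highX 2 le_rfl (by norm_num) z).trans (by linarith))
      · exact sq'.trans ((h.highQ 2 le_rfl (by norm_num) z).trans (by linarith))
      · exact hat 0
      · exact hat 1
      · exact hat 2
      · exact hat 3
      · linarith
      · linarith
    · rw [hcomp]; simp [jet]

lemma sum_bound {R s : ℝ} (hs : 0 ≤ s) {f g : Fin 10 → ℝ} {C : Fin 10 → ℝ}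
    (h8 : f 8 = 0) (hC8 : 0 ≤ C 8)
    (hf : ∀ i, |f i| ≤ R) (hg : ∀ i : Fin 10, i ≠ 8 → |g i| ≤ C i * s) :
    |∑ i, f i * g i| ≤ (∑ i, R * C i) * s := by
  have hR : 0 ≤ R := le_trans (abs_nonneg _) (hf 0)
  refine (Finset.abs_sum_le_sum_abs _ _).trans ?_
  rw [Finset.sum_mul]
  refine Finset.sum_le_sum fun i _ => ?_
  by_cases hi : i = 8
  · subst hi
    simp only [h8, zero_mul, abs_zero]
    positivity
  · rw [mul_assoc]; exact ab (hf i) (hg i hi)

end Coeff

open Coeff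

/-- The slab facts, bump included. -/
theorem coeff_mid : CoeffMidStmt := by
  intro n hn K0 hK0
  obtain ⟨η0, δ1, C0, hη0, hδ1, hδ11, hC0, hmid⟩ := middle_coeff n (by omega) K0 hK0
  obtain ⟨C, hC1, hC⟩ := atom_bounds n (by omega)
  obtain ⟨Cd, hCd⟩ := psiBound n 1 (by omega)
  set R := 5 * C with hR
  set a := 1 / (4 * R ^ 5) with ha
  have hR1 : 1 ≤ R := by linarith
  have ha0 : 0 < a := by positivity
  have haR : a * (2 * R ^ 5) < 1 := by
    rw [ha, div_mul_eq_mul_div, div_lt_one (by positivity)]; linarith [pow_pos (by linarith : 0 < R) 5]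
  have hfl : ∀ i : Fin 10, i ≠ 8 → Flat fun j => fderiv ℝ phi10 j (Pi.single i 1) := fun i hi =>
    flat_phi10.dirDeriv (by simp [Ne.symm hi])
  have h1' : ∀ i : Fin 10, ∃ c : ℝ, 0 ≤ c ∧ (i ≠ 8 →
      ∀ j ∈ cube R a, |fderiv ℝ phi10 j (Pi.single i 1)| ≤ c * |j 8|) := by
    intro i
    by_cases hi : i = 8
    · exact ⟨0, le_rfl, fun h => absurd hi h⟩
    · obtain ⟨c, hc0, hc⟩ := cube_bound hR1 ha0.le haR (hfl i hi)
      exact ⟨c, hc0, fun _ => hc⟩
  have h2' : ∀ i k : Fin 10, ∃ c : ℝ, 0 ≤ c ∧ (i ≠ 8 → k ≠ 8 → ∀ j ∈ cube R a,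
      |fderiv ℝ (fun u => fderiv ℝ phi10 u (Pi.single i 1)) j (Pi.single k 1)| ≤ c * |j 8|) := by
    intro i k
    by_cases hi : i = 8
    · exact ⟨0, le_rfl, fun h => absurd hi h⟩
    by_cases hk : k = 8
    · exact ⟨0, le_rfl, fun _ h => absurd hk h⟩
    obtain ⟨c, hc0, hc⟩ := cube_bound hR1 ha0.le haR ((hfl i hi).dirDeriv (v := Pi.single k 1)
      (by simp [Ne.symm hk]))
    exact ⟨c, hc0, fun _ _ => hc⟩
  choose c1 hc10 hc1 using h1'
  choose c2 hc20 hc2 using h2'
  set CC := 1 + (∑ i, c1 i) + (∑ i, R * c1 i) + (∑ k, R * c2 2 k) + (∑ k, R * c2 3 k) with hCC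
  set η1 := min (min η0 δ1) (min a (min (1 / (1 + K0 * (K0 + 1))) (min (1 / (1 + 200 * max Cd 1))
    (1 / 100000)))) with hη1
  have hs1 : 0 ≤ ∑ i, c1 i := Finset.sum_nonneg fun i _ => hc10 i
  have hs2 : 0 ≤ ∑ i, R * c1 i := Finset.sum_nonneg fun i _ => mul_nonneg (by linarith) (hc10 i)
  have hs3 : ∀ i, 0 ≤ ∑ k, R * c2 i k := fun i =>
    Finset.sum_nonneg fun k _ => mul_nonneg (by linarith) (hc20 i k)
  refine ⟨η1, CC, by positivity, by linarith [hs3 2, hs3 3], ?_⟩
  intro δ t lam η X q hδ hδη ht htη hl hlη hη hH z hz1 hz2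
  have r1 : η1 ≤ η0 := (min_le_left _ _).trans (min_le_left _ _)
  have r2 : η1 ≤ δ1 := (min_le_left _ _).trans (min_le_right _ _)
  have r3 : η1 ≤ a := (min_le_right _ _).trans (min_le_left _ _)
  have r4 : η1 * (1 + K0 * (K0 + 1)) ≤ 1 := (le_div_iff₀ (by positivity)).1
    ((min_le_right _ _).trans ((min_le_right _ _).trans (min_le_left _ _)))
  have r5 : η1 ≤ 1 / 100000 := (min_le_right _ _).trans
    ((min_le_right _ _).trans ((min_le_right _ _).trans (min_le_right _ _)))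
  have htη1 := htη.trans hη
  have hlη1 := hlη.trans hη
  obtain ⟨sg, sb, -, hhyp⟩ := hmid δ t lam η X q hδ (hδη.trans r2) ht (htη1.trans r1) hl
    (hlη1.trans r1) (hη.trans r1) hH
  have hz : z ∈ box 4 := ⟨by linarith, by linarith⟩
  have hsmall : K0 * (K0 + 1) * t ≤ 1 := by nlinarith [mul_pos hK0 (by linarith : 0 < K0 + 1)]
  have hη' : η ≤ 1 / 10 := by linarith
  have hδ' : δ ≤ 1 := by linarith
  set J := jet (psi n δ) t lam X q with hJdef
  have hjm : ∀ w ∈ box 4, J w ∈ cube R a ∧ ∀ v : E2, ‖v‖ ≤ 1 →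
      (∀ i, |fderiv ℝ J w v i| ≤ R) ∧ fderiv ℝ J w v 8 = 0 := fun w hw =>
    jet_bounds hC1 (hC δ hδ hδ') hH hη' ht hl (by linarith) hw
      (hodo_q_le hH hη' hK0 ht hsmall hw) (htη1.trans r3)
  have hdom : ∀ w ∈ box 4, J w ∈ dom10 := fun w hw => cube_dom hR1 haR (hjm w hw).1
  have hJ8 : |J z 8| = t := by simp [hJdef, jet, abs_of_pos ht]
  have hb1 : ∀ i : Fin 10, i ≠ 8 → |fderiv ℝ phi10 (J z) (Pi.single i 1)| ≤ c1 i * t := fun i hi => by
    have := hc1 i hi _ (hjm z hz).1; rwa [hJ8] at this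
  have hle1 : ∀ i, c1 i ≤ CC := fun i => by
    have := Finset.single_le_sum (fun i _ => hc10 i) (Finset.mem_univ i)
    linarith [hs3 2, hs3 3]
  have hder : ∀ (i : Fin 10), i ≠ 8 → ∀ (F : E2 → ℝ),
      (∀ w ∈ box 4, F w = fderiv ℝ phi10 (J w) (Pi.single i 1)) → ∀ v : E2, ‖v‖ ≤ 1 →
      |fderiv ℝ F z v| ≤ (∑ k, R * c2 i k) * t := by
    intro i hi F hF v hv
    rw [(Filter.eventuallyEq_of_mem ((isOpen_boxL 4).mem_nhds hz) hF).fderiv_eq]
    have hd1 := ((hfl i hi).1.contDiffAt (isOpen_dom10.mem_nhds (hdom z hz))).differentiableAt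
      (by simp)
    have hd2 : DifferentiableAt ℝ J z :=
      (contDiff_jet (contDiff_psi n δ) hH.smoothX hH.smoothQ).differentiable (by simp) z
    rw [fderiv_fun_comp z hd1 hd2, ContinuousLinearMap.comp_apply, clm_e10]
    obtain ⟨hb, h8⟩ := (hjm z hz).2 v hv
    refine sum_bound ht.le h8 (hc20 i 8) hb fun k hk => ?_
    have := hc2 i k hi hk _ (hjm z hz).1
    rwa [hJ8] at this
  have eg : ∀ w ∈ box 4, gam (psi n δ) t lam X q w = fderiv ℝ phi10 (J w) (Pi.single 2 1) :=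
    fun w hw => gam_eq (hdom w hw)
  have eb : ∀ w ∈ box 4, bet (psi n δ) t lam X q w = fderiv ℝ phi10 (J w) (Pi.single 3 1) :=
    fun w hw => bet_eq (hdom w hw)
  have hCg : (∑ k, R * c2 2 k) ≤ CC := by linarith [hs3 3]
  have hCb : (∑ k, R * c2 3 k) ≤ CC := by linarith [hs3 2]
  refine ⟨(sg.contDiffAt ((isOpen_boxL 4).mem_nhds hz)).of_le (by exact_mod_cast le_top),
    (sb.contDiffAt ((isOpen_boxL 4).mem_nhds hz)).of_le (by exact_mod_cast le_top),
    by linarith [hhyp z hz hz1 hz2], ⟨?_, ?_, ?_⟩, ⟨?_, ?_, ?_⟩, ?_, ?_⟩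
  · rw [eg z hz]; exact (hb1 2 (by decide)).trans (mul_le_mul_of_nonneg_right (hle1 2) ht.le)
  · exact (hder 2 (by decide) _ eg _ norm_e1).trans (mul_le_mul_of_nonneg_right hCg ht.le)
  · exact (hder 2 (by decide) _ eg _ norm_e2).trans (mul_le_mul_of_nonneg_right hCg ht.le)
  · rw [eb z hz]; exact (hb1 3 (by decide)).trans (mul_le_mul_of_nonneg_right (hle1 3) ht.le)
  · exact (hder 3 (by decide) _ eb _ norm_e1).trans (mul_le_mul_of_nonneg_right hCb ht.le)
  · exact (hder 3 (by decide) _ eb _ norm_e2).trans (mul_le_mul_of_nonneg_right hCb ht.le)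
  · rw [cX_eq (contDiff_psi n δ) (hdom z hz)]
    have hu : sqn (X z, z.2) < 100 := by
      have hx : |X z| ≤ 1 := by linarith [abs_sub_abs_le_abs_sub (X z) z.1, hH.axisS z hz]
      have := pow_le_pow_left₀ (abs_nonneg _) hx 2
      have := pow_le_pow_left₀ (abs_nonneg _) hz2 2
      simp [sqn]
      rw [sq_abs] at *
      linarith
    have ha' : ∀ k : Fin 4, |d1 (atom (psi n δ) k) (X z, z.2)| ≤ R := fun k =>
      ((hC δ hδ hδ' k _ hu).2 _).trans (by
        calc C * ‖((1, 0) : E2)‖ ≤ C * 1 := mul_le_mul_of_nonneg_left norm_e1 (by linarith)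
          _ ≤ R := by linarith)
    refine (tri (tri (tri (ab (hb1 4 (by decide)) (ha' 0)) (ab (hb1 5 (by decide)) (ha' 1)))
      (ab (hb1 6 (by decide)) (ha' 2))) (ab (hb1 7 (by decide)) (ha' 3))).trans ?_
    have hsub : R * c1 4 + R * c1 5 + R * c1 6 + R * c1 7 ≤ ∑ i, R * c1 i := by
      have hk : ∀ i, 0 ≤ R * c1 i := fun i => mul_nonneg (by linarith) (hc10 i)
      simp only [Fin.sum_univ_succ, Fin.sum_univ_zero]
      have e4 : (Fin.succ (Fin.succ (Fin.succ (Fin.succ (0 : Fin 6))))) = (4 : Fin 10) := rfl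
      have e5 : (Fin.succ (Fin.succ (Fin.succ (Fin.succ (Fin.succ (0 : Fin 5)))))) = (5 : Fin 10) := rfl
      have e6 : (Fin.succ (Fin.succ (Fin.succ (Fin.succ (Fin.succ (Fin.succ (0 : Fin 4))))))) = (6 : Fin 10) := rfl
      have e7 : (Fin.succ (Fin.succ (Fin.succ (Fin.succ (Fin.succ (Fin.succ (Fin.succ (0 : Fin 3)))))))) = (7 : Fin 10) := rfl
      simp only [e4, e5, e6, e7]
      linarith [hk 0, hk 1, hk 2, hk 3, hk 8, hk 9, hk (Fin.succ 0), hk (Fin.succ (Fin.succ 0)),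
        hk (Fin.succ (Fin.succ (Fin.succ 0))),
        hk (Fin.succ (Fin.succ (Fin.succ (Fin.succ (Fin.succ (Fin.succ (Fin.succ (Fin.succ 0)))))))),
        hk (Fin.succ (Fin.succ (Fin.succ (Fin.succ (Fin.succ (Fin.succ (Fin.succ (Fin.succ (Fin.succ 0)))))))))]
    have := mul_le_mul_of_nonneg_right (hsub.trans (show (∑ i, R * c1 i) ≤ CC by
      linarith [hs3 2, hs3 3])) ht.le
    linarith
  · rw [cq_eq (hdom z hz)]
    exact (hb1 1 (by decide)).trans (mul_le_mul_of_nonneg_right (hle1 1) ht.le)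

/-- The left facts in the requested form. -/
theorem coeff_left : CoeffStmt := by
  intro n hn K0 hK0
  obtain ⟨K1, ηa, C0, -, hηa, hC0, hleft⟩ := left_coeff n (by omega) K0 hK0
  obtain ⟨ηb, hηb, hell⟩ := elliptic_coeff n (by omega) K0 hK0
  refine ⟨K1, min (min ηa ηb) (min 1 (1 / (1 + 4000 * C0 ^ 2 + 8 * C0))), C0, by positivity, ?_⟩
  intro δ t lam η X q hδ hδη ht htη hl hlη hη hH z hz hp hX m hm1 hm2
  set η1 := min (min ηa ηb) (min 1 (1 / (1 + 4000 * C0 ^ 2 + 8 * C0))) with hη1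
  have r1 : η1 ≤ ηa := (min_le_left _ _).trans (min_le_left _ _)
  have r2 : η1 ≤ ηb := (min_le_left _ _).trans (min_le_right _ _)
  have r3 : η1 ≤ 1 := (min_le_right _ _).trans (min_le_left _ _)
  have r4 : η1 * (1 + 4000 * C0 ^ 2 + 8 * C0) ≤ 1 :=
    (le_div_iff₀ (by positivity)).1 ((min_le_right _ _).trans (min_le_right _ _))
  have htη1 := htη.trans hη
  have hlη1 := hlη.trans hη
  obtain ⟨-, -, hp'⟩ := hleft δ t lam η X q hδ (by linarith) ht (htη1.trans r1) hl (hlη1.trans r1)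
    (hη.trans r1) hH
  obtain ⟨hm, kb, kbp, -, kg, kgp, -⟩ := hp' z hz hp hX
  obtain ⟨h1, h2, h3⟩ := hm m hm1 hm2
  have hl2 : lam ^ 2 * (1 + 4000 * C0 ^ 2 + 8 * C0) ≤ 1 :=
    le_trans (mul_le_mul_of_nonneg_right (by nlinarith) (by positivity)) r4
  have l0 : 0 ≤ lam ^ 2 := sq_nonneg _
  have l1 : lam ^ 2 ≤ 1 := le_trans (by nlinarith) hl2
  have lC : lam ^ 2 * C0 ≤ 1 / 8 := by linarith [mul_nonneg l0 (sq_nonneg C0)]
  have lC2 : lam ^ 2 * C0 ^ 2 ≤ 1 / 4000 := by linarith [mul_nonneg l0 hC0.le]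
  have hμC : C0 * (t * lam ^ 2) ≤ t / 8 := by
    have := mul_le_mul_of_nonneg_left lC ht.le; linarith
  have hsq' : (C0 * (t * lam ^ 2)) ^ 2 ≤ t ^ 2 / 4000 := by
    have h1 := mul_le_mul_of_nonneg_left lC2 (mul_nonneg (sq_nonneg t) l0)
    have h2 := mul_le_mul_of_nonneg_left l1 (sq_nonneg t)
    linarith
  have sq_le : ∀ x : ℝ, |x| ≤ C0 * (t * lam ^ 2) → x ^ 2 ≤ t ^ 2 / 4000 := fun x hx => by
    have := pow_le_pow_left₀ (abs_nonneg x) hx 2
    rw [sq_abs] at this; linarith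
  have hbig : C0 * (t * lam ^ 2) ≤ C0 :=
    mul_le_of_le_one_right hC0.le (mul_le_one₀ (by linarith) l0 l1)
  refine ⟨kg, kb.trans hbig, kb.trans hμC, h3, h2.trans hbig, kgp, kbp.trans hbig, sq_le _ kbp,
    h1, sq_le _ h2, ?_, fun he => hell δ t lam η X q hδ (by linarith) ht (htη1.trans r2) hl
      (hlη1.trans r2) (hη.trans r2) hH z hz he⟩
  refine (ab h2 kb).trans ?_
  rw [← sq]; linarith [sq_nonneg t]

end Vale.Agent.P229
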