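import Vale.Agent.P229.Interfaces
import Vale.Agent.P229.Psi

/-!
P229: the core contradiction and the resulting statement on patches.
-/

namespace Vale.Agent.P229.CoreAux

open Real Set
open scoped ContDiff

/-- Point reflection of a function on the plane. -/
def refl (g : E2 → ℝ) (z : E2) : ℝ := -g (-z)

theorem d_comp_neg (g : E2 → ℝ) (r : ℝ) (v z : E2) :
    fderiv ℝ (fun w => r * g (-w)) z v = -r * fderiv ℝ g (-z) v := by
  have e : (fun w => r * g (-w))
      = r • (g ∘ (ContinuousLinearEquiv.neg ℝ : E2 ≃L[ℝ] E2)) := rfl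
  rw [e, fderiv_const_smul_field, Pi.smul_apply, ContinuousLinearEquiv.comp_right_fderiv]
  simp

theorem d1_iterate_refl (g : E2 → ℝ) :
    ∀ (m : ℕ) (z : E2), (d1^[m]) (refl g) z = (-1) ^ (m + 1) * (d1^[m]) g (-z) := by
  intro m
  induction m with
  | zero => intro z; simp [refl]
  | succ m ih =>
    intro z
    rw [Function.iterate_succ_apply', Function.iterate_succ_apply', funext ih, d1, d_comp_neg, d1,
      pow_succ]
    ring

theorem abs_d1_iterate_refl (g : E2 → ℝ) (m : ℕ) (z : E2) :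
    |(d1^[m]) (refl g) z| = |(d1^[m]) g (-z)| := by
  rw [d1_iterate_refl, abs_mul, abs_pow, abs_neg, abs_one, one_pow, one_mul]

theorem contDiff_refl {g : E2 → ℝ} (hg : ContDiff ℝ ∞ g) : ContDiff ℝ ∞ (refl g) :=
  (hg.comp contDiff_neg).neg

theorem norm_iterated_refl {g : E2 → ℝ} (hg : ContDiff ℝ ∞ g) (k : ℕ) (z : E2) :
    ‖iteratedFDeriv ℝ k (refl g) z‖ = ‖iteratedFDeriv ℝ k g (-z)‖ := by
  have hg' : ContDiff ℝ k g := hg.of_le (by exact_mod_cast le_top)
  have e : refl g = -(fun w : E2 => g ((-1 : ℝ) • w)) := by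
    funext w; simp [refl]
  rw [e, iteratedFDeriv_neg_apply, norm_neg,
    congrFun (iteratedFDeriv_comp_const_smul (f := g) (-1 : ℝ) hg') z, norm_smul]
  simp

theorem neg_mem_box {L : ℝ} {z : E2} (hz : z ∈ box L) : -z ∈ box L := by
  simpa [box] using hz

theorem psi_d_neg (n : ℕ) (δ : ℝ) (z v : E2) :
    fderiv ℝ (psi n δ) (-z) v = -fderiv ℝ (psi n δ) z v := by
  have h : psi n δ = fun w => (1 : ℝ) * psi n δ (-w) := by
    funext w; simp [psi_neg]
  have h2 := d_comp_neg (psi n δ) 1 v (-z)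
  rw [← h, neg_neg] at h2
  linarith

theorem psi_lap_neg (n : ℕ) (δ : ℝ) (z : E2) : lap (psi n δ) (-z) = lap (psi n δ) z := by
  have h : ∀ v : E2, ∀ w, fderiv ℝ (fun u => fderiv ℝ (psi n δ) u v) (-w) v
      = fderiv ℝ (fun u => fderiv ℝ (psi n δ) u v) w v := fun v w => by
    have e : (fun u => fderiv ℝ (psi n δ) u v) = fun u => (-1 : ℝ) * fderiv ℝ (psi n δ) (-u) v := by
      funext u; rw [psi_d_neg]; ring
    have h2 := d_comp_neg (fun u => fderiv ℝ (psi n δ) u v) (-1) v (-w)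
    rw [← e, neg_neg, one_mul, neg_neg] at h2
    linarith
  exact congrArg₂ (· + ·) (h (1, 0) z) (h (0, 1) z)

theorem rhsF_neg (n : ℕ) (δ t lam p y X q v w : ℝ) :
    rhsF (psi n δ) t lam (-p) (-y) (-X) (-q) v w = rhsF (psi n δ) t lam p y X q v w := by
  have e : ((-X, -y) : E2) = -(X, y) := rfl
  have h1 : d1 (psi n δ) (-X, -y) = -d1 (psi n δ) (X, y) := by rw [e]; exact psi_d_neg n δ (X, y) _
  have h2 : d2 (psi n δ) (-X, -y) = -d2 (psi n δ) (X, y) := by rw [e]; exact psi_d_neg n δ (X, y) _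
  have h3 : lap (psi n δ) (-X, -y) = lap (psi n δ) (X, y) := by rw [e]; exact psi_lap_neg n δ (X, y)
  have h4 : psi n δ (-X, -y) = psi n δ (X, y) := by rw [e]; exact psi_neg n δ (X, y)
  simp only [rhsF, cA, cB, cQ, h1, h2, h3, h4, neg_mul_neg, neg_sq]

theorem hodo_mono {n : ℕ} {δ t lam η η' K0 : ℝ} {X q : E2 → ℝ} (h : η ≤ η')
    (hH : Hodo n δ t lam η K0 X q) : Hodo n δ t lam η' K0 X q :=
  { hH with
    Xp := fun z => (hH.Xp z).trans h
    Qp := fun z => (hH.Qp z).trans h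
    Qy := fun z => (hH.Qy z).trans h
    highX := fun k h1 h2 z => (hH.highX k h1 h2 z).trans h
    highQ := fun k h1 h2 z => (hH.highQ k h1 h2 z).trans h }

theorem nsol_mono {n : ℕ} {δ t lam η η' : ℝ} {Z : E2 → ℝ} (h : η ≤ η')
    (hZ : NSol n δ t lam η Z) : NSol n δ t lam η' Z :=
  { hZ with
    near11 := fun z => (hZ.near11 z).trans h
    near12 := fun z => (hZ.near12 z).trans h
    near22 := fun z => (hZ.near22 z).trans h
    high := fun k h1 h2 z => (hZ.high k h1 h2 z).trans h }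

theorem hodo_refl {n : ℕ} {δ t lam η K0 : ℝ} {X q : E2 → ℝ} (h : Hodo n δ t lam η K0 X q) :
    Hodo n δ t lam η K0 (refl X) (refl q) := by
  have hd : ∀ (g : E2 → ℝ) (z v : E2), fderiv ℝ (refl g) z v = fderiv ℝ g (-z) v := fun g z v => by
    have e : refl g = fun w => (-1 : ℝ) * g (-w) := by funext w; simp [refl]
    rw [e, d_comp_neg]; ring
  exact
  { smoothX := contDiff_refl h.smoothX
    smoothQ := contDiff_refl h.smoothQ
    compat := fun z => by simp only [d1, d2, hd]; exact h.compat (-z)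
    eqn := fun z hz => by
      have := h.eqn (-z) (neg_mem_box hz)
      have e := rhsF_neg n δ t lam (-z).1 (-z).2 (X (-z)) (q (-z)) (d1 X (-z)) (d1 q (-z))
      simp only [along, d1, d2, hd, refl] at this e ⊢
      rw [this, ← e]
      simp
    Xp := fun z => by simp only [d1, hd]; exact h.Xp (-z)
    Qp := fun z => by simp only [d1, hd]; exact h.Qp (-z)
    Qy := fun z => by simp only [d2, hd]; exact h.Qy (-z)
    highX := fun k h1 h2 z => by rw [norm_iterated_refl h.smoothX]; exact h.highX k h1 h2 (-z)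
    highQ := fun k h1 h2 z => by rw [norm_iterated_refl h.smoothQ]; exact h.highQ k h1 h2 (-z)
    axisX := fun z hz => by simpa [refl] using h.axisX (-z) (neg_mem_box hz)
    axisP := fun z hz => by simpa [refl] using h.axisP (-z) (neg_mem_box hz)
    axisQ := fun z hz => by simpa [refl] using h.axisQ (-z) (neg_mem_box hz)
    axisS := fun z hz => by
      have := h.axisS (-z) (neg_mem_box hz)
      rw [abs_sub_comm] at this
      simpa [refl, sub_eq_add_neg, add_comm] using this }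

end Vale.Agent.P229.CoreAux

namespace Vale.Agent.P229

open CoreAux

/-- Bounded traces on both sides of the slab contradict the jump of the bump. -/
theorem coreStmt_of (hH : HodoStmt) (hL : LeftStmt) (hM : MiddleStmt) : CoreStmt := by
  intro n hn
  obtain ⟨K0, hK0, hH⟩ := hH n hn
  obtain ⟨K, η1, hK, hη1, hL⟩ := hL n hn K0 hK0
  obtain ⟨η2, hη2, hM⟩ := hM n hn K0 K hK0 hK
  obtain ⟨η3, hη3, hH⟩ := hH (min η1 η2) (lt_min hη1 hη2)
  refine ⟨min η3 (min η1 η2), lt_min hη3 (lt_min hη1 hη2), fun t0 ht0 => ?_⟩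
  obtain ⟨C, δ0, hδ0, hL⟩ := hL t0 ht0
  obtain ⟨δ, hδ, hδ', hM⟩ := hM t0 C (min δ0 1) ht0 (lt_min hδ0 one_pos)
  refine ⟨δ, hδ, hδ'.trans (min_le_right _ _), fun t lam Z htl ht hl0 hl hZ => ?_⟩
  have hmin : min η3 (min η1 η2) ≤ η3 := min_le_left _ _
  have hm1 : min η3 (min η1 η2) ≤ η1 := (min_le_right _ _).trans (min_le_left _ _)
  have hm2 : min η3 (min η1 η2) ≤ η2 := (min_le_right _ _).trans (min_le_right _ _)
  obtain ⟨X, q, hXq⟩ := hH δ t lam Z hδ (hδ'.trans (min_le_right _ _)) (ht0.trans_le htl)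
    (ht.trans hmin) hl0 (hl.trans hmin) (nsol_mono hmin hZ)
  have h1 : Hodo n δ t lam η1 K0 X q := hodo_mono (min_le_left _ _) hXq
  have h2 : Hodo n δ t lam η2 K0 X q := hodo_mono (min_le_right _ _) hXq
  refine hM t lam X q htl (ht.trans hm2) hl0 (hl.trans hm2) h2 fun m hm y hy => ?_
  have hA := hL δ t lam X q hδ (hδ'.trans (min_le_left _ _)) htl (ht.trans hm1) hl0 (hl.trans hm1)
    h1 m hm y hy
  have hB := hL δ t lam (refl X) (refl q) hδ (hδ'.trans (min_le_left _ _)) htl (ht.trans hm1) hl0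
    (hl.trans hm1) (hodo_refl h1) m hm (-y) (by rwa [abs_neg])
  rw [abs_d1_iterate_refl, abs_d1_iterate_refl] at hB
  have e : -((-(K * t), -y) : E2) = (K * t, y) := by simp
  rw [e] at hB
  exact ⟨hA.1, hA.2, hB.1, hB.2⟩

/-- No patch solution for a suitable width of the bump. -/
theorem noPatch_of (hG : GeomStmt) (hC : CoreStmt) : NoPatchStmt := by
  intro n hn M hM
  obtain ⟨η, hη, hC⟩ := hC n hn
  obtain ⟨ρ0, hρ0, hG⟩ := hG n hn M η hM hη
  refine ⟨ρ0, hρ0, fun ρ hρ hρ' => ?_⟩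
  obtain ⟨s0, hs0, hG⟩ := hG ρ hρ hρ'
  refine ⟨s0, hs0, fun s hs hs' => ?_⟩
  obtain ⟨t0, ht0, hG⟩ := hG s hs hs'
  obtain ⟨δ, hδ, hδ1, hC⟩ := hC t0 ht0
  refine ⟨δ, hδ, hδ1, fun c f hf => ?_⟩
  obtain ⟨t, lam, Z, h1, h2, h3, h4, h5⟩ := hG δ hδ hδ1 c f hf
  exact hC t lam Z h1 h2 h3 h4 h5

end Vale.Agent.P229
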