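import Mathlib

/-!
Shared definitions for P229 (a smooth metric with no local smooth isometric
immersion in three-space).
-/

namespace Vale.Agent.P229

open Real Set
open scoped ContDiff RealInnerProductSpace

abbrev E2 : Type := ℝ × ℝ
abbrev E3 : Type := EuclideanSpace ℝ (Fin 3)

variable {G : Type*} [NormedAddCommGroup G] [NormedSpace ℝ G]

/-- First coordinate derivative. -/
noncomputable def d1 (f : E2 → G) (z : E2) : G := fderiv ℝ f z (1, 0)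

/-- Second coordinate derivative. -/
noncomputable def d2 (f : E2 → G) (z : E2) : G := fderiv ℝ f z (0, 1)

/-- Coordinate Laplacian. -/
noncomputable def lap (f : E2 → ℝ) (z : E2) : ℝ := d1 (d1 f) z + d2 (d2 f) z

/-- Squared Euclidean length. -/
def sqn (z : E2) : ℝ := z.1 ^ 2 + z.2 ^ 2

/-- Open square. -/
def box (L : ℝ) : Set E2 := {z | |z.1| < L ∧ |z.2| < L}

/-- The lens profile: minus its Laplacian is `sqn z - 1`. -/
noncomputable def psi0 (z : E2) : ℝ := sqn z / 4 - sqn z ^ 2 / 16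

/-- Radial cutoff, one for `sqn z ≤ 100`, zero for `120 ≤ sqn z`. -/
noncomputable def cutR (z : E2) : ℝ := Real.smoothTransition ((120 - sqn z) / 20)

/-- Radial bump, one for `sqn z ≤ 1`, zero for `2 ≤ sqn z`. -/
noncomputable def bumpB (z : E2) : ℝ := Real.smoothTransition (2 - sqn z)

/-- Lens profile plus a micro bump of width `δ`. -/
noncomputable def psi (n : ℕ) (δ : ℝ) (z : E2) : ℝ :=
  cutR z * psi0 z + δ ^ n * Real.sqrt δ * bumpB (z.1 / δ, z.2 / δ)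

/-- Covariant Hessian entries of `Z` for the conformal exponent `s * ψ`. -/
noncomputable def H11 (ψ : E2 → ℝ) (s : ℝ) (Z : E2 → ℝ) (z : E2) : ℝ :=
  d1 (d1 Z) z - s * (d1 ψ z * d1 Z z - d2 ψ z * d2 Z z)

noncomputable def H12 (ψ : E2 → ℝ) (s : ℝ) (Z : E2 → ℝ) (z : E2) : ℝ :=
  d2 (d1 Z) z - s * (d2 ψ z * d1 Z z + d1 ψ z * d2 Z z)

noncomputable def H22 (ψ : E2 → ℝ) (s : ℝ) (Z : E2 → ℝ) (z : E2) : ℝ :=
  d2 (d2 Z) z + s * (d1 ψ z * d1 Z z - d2 ψ z * d2 Z z)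

/-- A normalised solution of the Darboux equation of the scaled patch. -/
structure NSol (n : ℕ) (δ t lam η : ℝ) (Z : E2 → ℝ) : Prop where
  smooth : ContDiff ℝ ∞ Z
  grad1 : d1 Z 0 = 0
  grad2 : d2 Z 0 = 0
  mixed0 : d2 (d1 Z) 0 = 0
  near11 : ∀ z, |d1 (d1 Z) z - 1| ≤ η
  near12 : ∀ z, |d2 (d1 Z) z| ≤ η
  near22 : ∀ z, |d2 (d2 Z) z| ≤ η
  high : ∀ k : ℕ, 3 ≤ k → k ≤ 6 → ∀ z, ‖iteratedFDeriv ℝ k Z z‖ ≤ η
  eqn : ∀ z ∈ box 5,
    H11 (psi n δ) (t * lam ^ 2) Z z * H22 (psi n δ) (t * lam ^ 2) Z z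
        - H12 (psi n δ) (t * lam ^ 2) Z z ^ 2
      = -t * lap (psi n δ) z *
          (Real.exp (2 * (t * lam ^ 2) * psi n δ z) - lam ^ 2 * (d1 Z z ^ 2 + d2 Z z ^ 2))

/-! Hodograph coefficients; arguments `p y X q v w` with `v = X_p`, `w = q_p`. -/

noncomputable def cA (ψ : E2 → ℝ) (μ p y X q : ℝ) : ℝ :=
  μ * (-(d1 ψ (X, y)) * p + d2 ψ (X, y) * q)

noncomputable def cB (ψ : E2 → ℝ) (μ p y X q : ℝ) : ℝ :=
  -μ * (d2 ψ (X, y) * p + d1 ψ (X, y) * q)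

noncomputable def cQ (ψ : E2 → ℝ) (t lam p y X q : ℝ) : ℝ :=
  -t * lap ψ (X, y) *
    (Real.exp (2 * (t * lam ^ 2) * ψ (X, y)) - lam ^ 2 * (p ^ 2 + q ^ 2))

/-- Right-hand side of `q_y = rhsF`. -/
noncomputable def rhsF (ψ : E2 → ℝ) (t lam p y X q v w : ℝ) : ℝ :=
  let A := cA ψ (t * lam ^ 2) p y X q
  let B := cB ψ (t * lam ^ 2) p y X q
  let Q := cQ ψ t lam p y X q
  A + ((Q + B ^ 2) * v + 2 * B * w - A * w ^ 2) / (1 + A * v)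

/-- Derivative of `rhsF` in `v`. -/
noncomputable def gamF (ψ : E2 → ℝ) (t lam p y X q v w : ℝ) : ℝ :=
  let A := cA ψ (t * lam ^ 2) p y X q
  let B := cB ψ (t * lam ^ 2) p y X q
  let Q := cQ ψ t lam p y X q
  (Q + (B - A * w) ^ 2) / (1 + A * v) ^ 2

/-- Derivative of `rhsF` in `w`; `gamF - betF ^ 2 / 4 = Q / (1 + A v) ^ 2`. -/
noncomputable def betF (ψ : E2 → ℝ) (t lam p y X q v w : ℝ) : ℝ :=
  let A := cA ψ (t * lam ^ 2) p y X q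
  let B := cB ψ (t * lam ^ 2) p y X q
  2 * (B - A * w) / (1 + A * v)

/-- Evaluate a coefficient along a pair of functions of `(p, y)`. -/
noncomputable def along (Φ : ℝ → ℝ → ℝ → ℝ → ℝ → ℝ → ℝ) (X q : E2 → ℝ) (z : E2) : ℝ :=
  Φ z.1 z.2 (X z) (q z) (d1 X z) (d1 q z)

/-- A solution in hodograph coordinates `(p, y)`, `p = Z_x`, `q = Z_y`. -/
structure Hodo (n : ℕ) (δ t lam η K0 : ℝ) (X q : E2 → ℝ) : Prop where
  smoothX : ContDiff ℝ ∞ X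
  smoothQ : ContDiff ℝ ∞ q
  compat : ∀ z, d2 X z = -d1 q z
  eqn : ∀ z ∈ box 4, d2 q z = along (rhsF (psi n δ) t lam) X q z
  Xp : ∀ z, |d1 X z - 1| ≤ η
  Qp : ∀ z, |d1 q z| ≤ η
  Qy : ∀ z, |d2 q z| ≤ η
  highX : ∀ k : ℕ, 2 ≤ k → k ≤ 5 → ∀ z, ‖iteratedFDeriv ℝ k X z‖ ≤ η
  highQ : ∀ k : ℕ, 2 ≤ k → k ≤ 5 → ∀ z, ‖iteratedFDeriv ℝ k q z‖ ≤ η
  axisX : ∀ z ∈ box 4, |X z| ≤ 2 * |z.1| + K0 * t
  axisP : ∀ z ∈ box 4, |z.1| ≤ 2 * |X z| + K0 * t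
  axisQ : ∀ z ∈ box 4, |q z| ≤ K0 * (|X z| + t)
  axisS : ∀ z ∈ box 4, |X z - z.1| ≤ 1 / 10

/-- A bilinear form with coefficients `E F G`. -/
def bil (E F G : E2 → ℝ) (x a b : E2) : ℝ :=
  E x * a.1 * b.1 + F x * (a.1 * b.2 + a.2 * b.1) + G x * a.2 * b.2

/-- `f` is isometric for `E F G` on `U`. -/
def Isom (E F G : E2 → ℝ) (f : E2 → E3) (U : Set E2) : Prop :=
  ∀ x ∈ U, ⟪d1 f x, d1 f x⟫ = E x ∧ ⟪d1 f x, d2 f x⟫ = F x ∧ ⟪d2 f x, d2 f x⟫ = G x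

/-- Polar chart of a cone of parameter `c` (used on `0 < u.1`). -/
noncomputable def chart (c φ : ℝ) (u : E2) : E2 :=
  (Real.sqrt (sqn u) * Real.cos (φ + Real.arctan (u.2 / u.1) / c),
   Real.sqrt (sqn u) * Real.sin (φ + Real.arctan (u.2 / u.1) / c))

/-- Radius of the `k`-th circle. -/
noncomputable def ringR (k : ℕ) : ℝ := (1 / 8 : ℝ) ^ k

/-- The ring of index `k`. -/
def ringSet (k : ℕ) : Set E2 :=
  {x | (ringR k / 2) ^ 2 < sqn x ∧ sqn x < (2 * ringR k) ^ 2}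

/-- Second derivative of `f` at `x` has a normal component of size at least `a`. -/
def NormalAtLeast (f : E2 → E3) (x : E2) (a : ℝ) : Prop :=
  ∃ e : E3, ‖e‖ = 1 ∧ ⟪e, d1 f x⟫ = 0 ∧ ⟪e, d2 f x⟫ = 0 ∧
    a ≤ |⟪e, d1 (d1 f) x⟫| + |⟪e, d2 (d1 f) x⟫| + |⟪e, d2 (d2 f) x⟫|

end Vale.Agent.P229
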