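import Mathlib

/-!
# P229: pointwise algebra of the weighted energy step

`e` and `a` are the two first derivatives, `S` the weight, `chi`, `zeta` the cutoffs.
-/

namespace Vale.Agent.P229

/-- The integrand of the sum of the two weighted identities. -/
noncomputable def enPhi (chi chip chiy zeta zetap zetay S P' M u a b gam bet c d gamp betp bety g : ℝ) :
    ℝ :=
  -(chiy * S ^ 4 + 4 * chi * S ^ 3 * P') * (a * b + bet * a ^ 2 / 2)
    - (chip * S ^ 4 - 4 * chi * S ^ 3) * (b ^ 2 / 2 - gam * a ^ 2 / 2)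
    - chi * S ^ 4 * ((c - gamp / 2 + bety / 2) * a ^ 2 + d * a * b + g * a)
    - (2 * (chiy * S ^ 3 + 3 * chi * S ^ 2 * P')
        + M * (2 * zeta * zetay * S ^ 3 + 3 * zeta ^ 2 * S ^ 2 * P')) * (u * b)
    + (2 * (chip * S ^ 3 - 3 * chi * S ^ 2)
        + M * (2 * zeta * zetap * S ^ 3 - 3 * zeta ^ 2 * S ^ 2)) * (u * (gam * a + bet * b))
    + (2 * (chi * S ^ 3) + M * (zeta ^ 2 * S ^ 3)) * (b ^ 2 + gam * a ^ 2 + bet * a * b)
    - (2 * (chi * S ^ 3) + M * (zeta ^ 2 * S ^ 3))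
        * (u * ((c - gamp) * a + (d - betp) * b + g))

lemma young_lin {x N t : ℝ} (ht : 0 < t) : x * N ≤ t * N ^ 2 + x ^ 2 / (4 * t) := by
  have h : 0 ≤ (2 * t * N - x) ^ 2 / (4 * t) := by positivity
  have he : t * N ^ 2 + x ^ 2 / (4 * t) - x * N = (2 * t * N - x) ^ 2 / (4 * t) := by
    field_simp
    ring
  linarith

lemma en_bounds {C0 a b gam bet c d gamp betp P' : ℝ} (hC0 : 0 ≤ C0) (hgam : |gam| ≤ C0)
    (hbet : |bet| ≤ C0) (hc : |c| ≤ C0) (hd : |d| ≤ C0) (hgamp : |gamp| ≤ C0)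
    (hbetp : |betp| ≤ C0) (hP : |P'| ≤ C0) :
    let N := |b + bet * a / 2| + |a|
    let A := 100 * (1 + C0) ^ 3
    |b| ≤ A * N ∧ |P' * b| ≤ A * N ∧ |gam * a + bet * b| ≤ A * N ∧
      |(c - gamp) * a + (d - betp) * b| ≤ A * N := by
  intro N A
  set e := b + bet * a / 2 with he
  have hb : b = e - bet * a / 2 := by rw [he]; ring
  have hN0 : 0 ≤ N := add_nonneg (abs_nonneg _) (abs_nonneg _)
  have haN : |a| ≤ N := le_add_of_nonneg_left (abs_nonneg _)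
  have hbN : |b| ≤ (1 + C0) * N := by
    rw [hb]
    refine (abs_sub _ _).trans ?_
    rw [abs_div, abs_mul, abs_two]
    have hN : N = |e| + |a| := rfl
    nlinarith [mul_le_mul_of_nonneg_right hbet (abs_nonneg a), mul_nonneg hC0 (abs_nonneg e),
      mul_nonneg hC0 (abs_nonneg a), abs_nonneg a]
  have hGb : |gam * a + bet * b| ≤ A * N := by
    refine (abs_add_le _ _).trans ?_
    rw [abs_mul, abs_mul]
    have h1 := mul_le_mul hgam haN (abs_nonneg _) hC0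
    have h2 := mul_le_mul hbet hbN (abs_nonneg _) hC0
    have h3 : C0 + C0 * (1 + C0) ≤ A := by simp only [A]; nlinarith [sq_nonneg C0, pow_nonneg hC0 3]
    nlinarith [mul_le_mul_of_nonneg_right h3 hN0]
  have hcoef : |(c - gamp) * a + (d - betp) * b| ≤ A * N := by
    refine (abs_add_le _ _).trans ?_
    rw [abs_mul, abs_mul]
    have h1 := mul_le_mul ((abs_sub c gamp).trans (add_le_add hc hgamp)) haN (abs_nonneg _) (by linarith)
    have h2 := mul_le_mul ((abs_sub d betp).trans (add_le_add hd hbetp)) hbN (abs_nonneg _) (by linarith)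
    have h3 : 2 * C0 + 2 * C0 * (1 + C0) ≤ A := by simp only [A]; nlinarith [sq_nonneg C0, pow_nonneg hC0 3]
    nlinarith [mul_le_mul_of_nonneg_right h3 hN0]
  have hPb : |P' * b| ≤ A * N := by
    rw [abs_mul]
    refine (mul_le_mul hP hbN (abs_nonneg _) hC0).trans ?_
    have h3 : C0 * (1 + C0) ≤ A := by simp only [A]; nlinarith [sq_nonneg C0, pow_nonneg hC0 3]
    nlinarith [mul_le_mul_of_nonneg_right h3 hN0]
  have hbA : |b| ≤ A * N := by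
    refine hbN.trans (mul_le_mul_of_nonneg_right ?_ hN0)
    simp only [A]; nlinarith [sq_nonneg C0, pow_nonneg hC0 3]
  exact ⟨hbA, hPb, hGb, hcoef⟩

lemma en_main1 {ν chi S P' bet a e B : ℝ} (hν : 0 < ν) (hchi : 0 ≤ chi) (hS : 0 < S)
    (hS8 : S ≤ 8) (hgap : |P' + bet / 2| ≤ B * S) (hB : B ^ 2 ≤ ν / 2000) :
    4 * (chi * S ^ 3) * e ^ 2 - 4 / 5 * (chi * S ^ 3) * e ^ 2
      - ν / 10 * (chi * S ^ 4) * a ^ 2 ≤ 4 * (chi * S ^ 3) * (e ^ 2 - (P' + bet / 2) * a * e) := by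
  have hS3 : 0 ≤ chi * S ^ 3 := by positivity
  have hS4 : 0 ≤ chi * S ^ 4 := by positivity
  have hk : |(P' + bet / 2) * a * e| ≤ B * S * (|a| * |e|) := by
    rw [abs_mul, abs_mul, mul_assoc]
    exact mul_le_mul_of_nonneg_right hgap (by positivity)
  have hy : 4 * (B * |e|) * |a| ≤ ν / 10 * |a| ^ 2 + (4 * (B * |e|)) ^ 2 / (4 * (ν / 10)) :=
    young_lin (by linarith)
  have hy2 : (4 * (B * |e|)) ^ 2 / (4 * (ν / 10)) ≤ 1 / 50 * e ^ 2 := by
    rw [div_le_iff₀ (by linarith), mul_pow, mul_pow, sq_abs]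
    nlinarith [mul_le_mul_of_nonneg_right hB (sq_nonneg e)]
  rw [sq_abs] at hy
  have h1 := mul_le_mul_of_nonneg_left ((le_abs_self _).trans hk) hS3
  have h2 := mul_le_mul_of_nonneg_left (hy.trans (add_le_add le_rfl hy2)) hS4
  have h3 : chi * S ^ 4 * (1 / 50 * e ^ 2) ≤ 8 / 50 * (chi * S ^ 3) * e ^ 2 := by
    nlinarith [mul_le_mul_of_nonneg_left hS8 (mul_nonneg hS3 (sq_nonneg e))]
  nlinarith

lemma en_main2 {ν chi S c gamp bety d bet a e : ℝ} (hν : 0 < ν) (hchi : 0 ≤ chi) (hS : 0 < S)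
    (hS8 : S ≤ 8) (hD : chi ≠ 0 → c - gamp / 2 + bety / 2 ≤ -ν) (hd2 : d ^ 2 ≤ ν / 2000)
    (hdb : |d * bet| ≤ ν / 4) :
    (ν - ν / 8 - ν / 10) * (chi * S ^ 4) * a ^ 2 - 1 / 5 * (chi * S ^ 3) * e ^ 2
      ≤ -(chi * S ^ 4) * ((c - gamp / 2 + bety / 2 - d * bet / 2) * a ^ 2 + d * a * e) := by
  have hS3 : 0 ≤ chi * S ^ 3 := by positivity
  have hS4 : 0 ≤ chi * S ^ 4 := by positivity
  have h1 : chi * S ^ 4 * ((c - gamp / 2 + bety / 2) * a ^ 2) ≤ chi * S ^ 4 * (-ν * a ^ 2) := by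
    rcases eq_or_ne chi 0 with h | h
    · simp [h]
    · exact mul_le_mul_of_nonneg_left (mul_le_mul_of_nonneg_right (hD h) (sq_nonneg a)) hS4
  have h2 : -(d * bet / 2) * a ^ 2 ≤ ν / 8 * a ^ 2 :=
    mul_le_mul_of_nonneg_right (by linarith [(abs_le.1 hdb).1]) (sq_nonneg a)
  have hy : d * e * a ≤ ν / 10 * a ^ 2 + (d * e) ^ 2 / (4 * (ν / 10)) := young_lin (by linarith)
  have hy2 : (d * e) ^ 2 / (4 * (ν / 10)) ≤ 1 / 800 * e ^ 2 := by
    rw [div_le_iff₀ (by linarith), mul_pow]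
    nlinarith [mul_le_mul_of_nonneg_right hd2 (sq_nonneg e)]
  have h3 := mul_le_mul_of_nonneg_left (add_le_add h2 (hy.trans (add_le_add le_rfl hy2))) hS4
  have h4 : chi * S ^ 4 * (1 / 800 * e ^ 2) ≤ 1 / 5 * (chi * S ^ 3) * e ^ 2 := by
    nlinarith [mul_le_mul_of_nonneg_left hS8 (mul_nonneg hS3 (sq_nonneg e))]
  nlinarith

lemma en_Q {C0 L zeta chip chiy S gam bet a e : ℝ} (hC0 : 0 ≤ C0) (hL : 0 ≤ L) (hS : 0 < S)
    (hS8 : S ≤ 8) (hgam : |gam| ≤ C0) (hbet : |bet| ≤ C0)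
    (hz : |chip| ≤ L * zeta ^ 2 ∧ |chiy| ≤ L * zeta ^ 2) :
    |-(chiy * S ^ 4) * (a * e)
      - chip * S ^ 4 * (e ^ 2 / 2 - bet * a * e / 2 - (gam - bet ^ 2 / 4) * a ^ 2 / 2)|
      ≤ L * 16 * (100 * (1 + C0) ^ 3) * (zeta ^ 2 * S ^ 3 * (e ^ 2 + a ^ 2)) := by
  set A := 100 * (1 + C0) ^ 3 with hA
  have hA1 : 1 ≤ A := by
    have : 1 ≤ (1 + C0) ^ 3 := one_le_pow₀ (by linarith)
    linarith
  have h1 : |a * e| ≤ (e ^ 2 + a ^ 2) := by
    rw [abs_mul]; nlinarith [sq_nonneg (|e| - |a|), sq_abs e, sq_abs a]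
  have hge' : |gam - bet ^ 2 / 4| ≤ C0 + C0 ^ 2 := by
    refine (abs_sub _ _).trans (add_le_add hgam ?_)
    rw [abs_div, abs_pow]
    have := pow_le_pow_left₀ (abs_nonneg _) hbet 2
    norm_num
    nlinarith [sq_abs bet]
  have h2 : |e ^ 2 / 2 - bet * a * e / 2 - (gam - bet ^ 2 / 4) * a ^ 2 / 2|
      ≤ A * (e ^ 2 + a ^ 2) := by
    refine (abs_sub _ _).trans ((add_le_add (abs_sub _ _) le_rfl).trans ?_)
    rw [abs_div, abs_div, abs_div, abs_two, abs_pow, sq_abs, abs_mul (gam - _), abs_pow, sq_abs,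
      mul_assoc bet, abs_mul bet]
    have h3 := mul_le_mul hbet h1 (abs_nonneg _) hC0
    have h4 := mul_le_mul_of_nonneg_right hge' (sq_nonneg a)
    have h5 : 1 + C0 + C0 + C0 ^ 2 ≤ A := by rw [hA]; nlinarith [sq_nonneg C0, pow_nonneg hC0 3]
    nlinarith [mul_le_mul_of_nonneg_right h5 (add_nonneg (sq_nonneg e) (sq_nonneg a))]
  refine (abs_sub _ _).trans ?_
  rw [abs_mul, abs_mul (chip * _), abs_neg, abs_mul chiy, abs_mul chip, abs_of_pos (pow_pos hS 4)]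
  have h6 : |chiy| * S ^ 4 * |a * e| ≤ L * zeta ^ 2 * (8 * S ^ 3) * (A * (e ^ 2 + a ^ 2)) := by
    refine mul_le_mul (mul_le_mul hz.2 ?_ (by positivity) (by positivity))
      (h1.trans (le_mul_of_one_le_left (by positivity) hA1)) (abs_nonneg _) (by positivity)
    nlinarith [mul_le_mul_of_nonneg_left hS8 (pow_nonneg hS.le 3)]
  have h7 : |chip| * S ^ 4 * |e ^ 2 / 2 - bet * a * e / 2 - (gam - bet ^ 2 / 4) * a ^ 2 / 2|
      ≤ L * zeta ^ 2 * (8 * S ^ 3) * (A * (e ^ 2 + a ^ 2)) := by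
    refine mul_le_mul (mul_le_mul hz.1 ?_ (by positivity) (by positivity)) h2 (abs_nonneg _)
      (by positivity)
    nlinarith [mul_le_mul_of_nonneg_left hS8 (pow_nonneg hS.le 3)]
  nlinarith

lemma en_T {L A M N chi chip chiy zeta zetap zetay S u b Pb Gb Cf : ℝ} (hL : 0 ≤ L)
    (hA : 0 ≤ A) (hM0 : 0 ≤ M) (hN0 : 0 ≤ N) (hchi : 0 ≤ chi) (hS : 0 < S) (hS8 : S ≤ 8)
    (hzeta : |zeta| ≤ L) (hzetap : |zetap| ≤ L) (hzetay : |zetay| ≤ L)
    (hz : |chip| ≤ L * zeta ^ 2 ∧ |chiy| ≤ L * zeta ^ 2)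
    (hbA : |b| ≤ A * N) (hPb : |Pb| ≤ A * N) (hGb : |Gb| ≤ A * N) (hcoef : |Cf| ≤ A * N) :
    |u * S ^ 2 *
      (chi * (-6 * Pb - 6 * Gb - 2 * S * Cf) + (-2 * S * chiy * b + 2 * S * chip * Gb)
        + M * zeta * (-2 * S * zetay * b - 3 * zeta * Pb + 2 * S * zetap * Gb - 3 * zeta * Gb
          - zeta * S * Cf))|
      ≤ |u| * S ^ 2 * (chi * (28 * A) * N + |zeta| * (A * (L + 1) ^ 2 * (32 + 46 * M)) * N) := by
  have habs : ∀ x y X Y : ℝ, |x| ≤ X → |y| ≤ Y → |x * y| ≤ X * Y := fun x y X Y hx hy => by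
    rw [abs_mul]; exact mul_le_mul hx hy (abs_nonneg _) ((abs_nonneg _).trans hx)
  rw [abs_mul, abs_mul, abs_of_pos (pow_pos hS 2)]
  refine mul_le_mul_of_nonneg_left ?_ (by positivity)
  have hSa : |S| ≤ 8 := by rw [abs_of_pos hS]; exact hS8
  have e1 : |chi * (-6 * Pb - 6 * Gb
      - 2 * S * Cf)| ≤ chi * (28 * A) * N := by
    rw [abs_mul, abs_of_nonneg hchi, mul_assoc chi]
    refine mul_le_mul_of_nonneg_left ?_ hchi
    have h1 := habs (-6) _ 6 _ (by norm_num) hPb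
    have h2 := habs 6 _ 6 _ (by norm_num) hGb
    have h3 := habs (2 * S) _ 16 _ (by rw [abs_mul, abs_two]; linarith) hcoef
    refine (abs_sub _ _).trans ((add_le_add (abs_sub _ _) le_rfl).trans ?_)
    linarith
  have e2 : |-2 * S * chiy * b + 2 * S * chip * Gb| ≤ |zeta| * (L + 1) ^ 2 * 32 * A * N := by
    have hz2 : L * zeta ^ 2 ≤ |zeta| * (L + 1) ^ 2 := by
      rw [← sq_abs]
      nlinarith [mul_le_mul_of_nonneg_left hzeta (abs_nonneg zeta), abs_nonneg zeta,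
        mul_nonneg (abs_nonneg zeta) hL]
    have h1 := habs (-2 * S * chiy) _ (16 * (L * zeta ^ 2)) _
      (habs _ _ _ _ (by rw [abs_mul]; norm_num; linarith) hz.2) hbA
    have h2 := habs (2 * S * chip) _ (16 * (L * zeta ^ 2)) _
      (habs _ _ _ _ (by rw [abs_mul]; norm_num; linarith) hz.1) hGb
    refine (abs_add_le _ _).trans ?_
    nlinarith [mul_le_mul_of_nonneg_right hz2 (mul_nonneg (by linarith : (0 : ℝ) ≤ A) hN0)]
  have e3 : |M * zeta * (-2 * S * zetay * b - 3 * zeta * Pb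
      + 2 * S * zetap * Gb - 3 * zeta * Gb
      - zeta * S * Cf)| ≤ |zeta| * (L + 1) ^ 2 * (46 * M) * A * N := by
    rw [abs_mul, abs_mul, abs_of_nonneg hM0]
    have h1 := habs (-2 * S * zetay) _ (16 * L) _
      (habs _ _ _ _ (by rw [abs_mul]; norm_num; linarith) hzetay) hbA
    have h2 := habs (3 * zeta) _ (3 * L) _ (by rw [abs_mul]; norm_num; linarith) hPb
    have h3 := habs (2 * S * zetap) _ (16 * L) _
      (habs _ _ _ _ (by rw [abs_mul]; norm_num; linarith) hzetap) hGb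
    have h4 := habs (3 * zeta) _ (3 * L) _ (by rw [abs_mul]; norm_num; linarith) hGb
    have h5 := habs (zeta * S) _ (L * 8) _ (habs _ _ _ _ hzeta hSa) hcoef
    have hin : |-2 * S * zetay * b - 3 * zeta * Pb + 2 * S * zetap * Gb
        - 3 * zeta * Gb - zeta * S * Cf|
        ≤ 46 * L * (A * N) := by
      refine (abs_sub _ _).trans ((add_le_add ((abs_sub _ _).trans (add_le_add
        ((abs_add_le _ _).trans (add_le_add (abs_sub _ _) le_rfl)) le_rfl)) le_rfl).trans ?_)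
      linarith
    have hL2 : L ≤ (L + 1) ^ 2 := by nlinarith
    refine (mul_le_mul_of_nonneg_left hin (by positivity)).trans ?_
    nlinarith [mul_le_mul_of_nonneg_right hL2
      (show (0 : ℝ) ≤ |zeta| * (46 * M) * (A * N) by positivity)]
  refine (abs_add_le _ _).trans ((add_le_add (abs_add_le _ _) le_rfl).trans ?_)
  linarith

lemma en_young {ν c1 L chi zeta S u a e l1 l2 : ℝ} (hν : 0 < ν) (hc1p : 0 < c1) (hL : 0 ≤ L)
    (hchi : 0 ≤ chi) (hchiL : chi ≤ L) (hS : 0 < S) (hS8 : S ≤ 8) :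
    chi * l1 * |u| * S ^ 2 * |e| ≤ chi * S ^ 3 * e ^ 2 + 8 * L * l1 ^ 2 * u ^ 2 ∧
    chi * l1 * |u| * S ^ 2 * |a|
      ≤ ν / 10 * (chi * S ^ 4) * a ^ 2 + 5 * L * l1 ^ 2 / ν * u ^ 2 ∧
    |zeta| * l2 * |u| * S ^ 2 * (|e| + |a|)
      ≤ c1 * (zeta ^ 2 * S ^ 3 * (e ^ 2 + a ^ 2)) + 4 * l2 ^ 2 / c1 * u ^ 2 := by
  have hN2 : (|e| + |a|) ^ 2 ≤ 2 * (e ^ 2 + a ^ 2) := by
    nlinarith [sq_nonneg (|e| - |a|), sq_abs e, sq_abs a]
  refine ⟨?_, ?_, ?_⟩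
  · have h := young_lin (x := l1 * |u|) (N := S * |e|) one_pos
    rw [mul_pow, mul_pow, sq_abs, sq_abs] at h
    have h2 := mul_le_mul_of_nonneg_left h (mul_nonneg hchi hS.le)
    have h3 : chi * S * ((l1 ^ 2 * u ^ 2) / (4 * 1)) ≤ 8 * L * l1 ^ 2 * u ^ 2 := by
      have := mul_le_mul hchiL hS8 hS.le hL
      have h5 := mul_le_mul_of_nonneg_right this (show (0 : ℝ) ≤ l1 ^ 2 * u ^ 2 / (4 * 1) by positivity)
      nlinarith [show (0 : ℝ) ≤ L * (l1 ^ 2 * u ^ 2) by positivity]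
    nlinarith
  · have h := young_lin (x := l1 * |u|) (N := S ^ 2 * |a|) (show (0 : ℝ) < ν / 10 by linarith)
    rw [mul_pow, mul_pow, sq_abs, sq_abs] at h
    have h2 := mul_le_mul_of_nonneg_left h hchi
    have h3 : chi * ((l1 ^ 2 * u ^ 2) / (4 * (ν / 10))) ≤ 5 * L * l1 ^ 2 / ν * u ^ 2 := by
      rw [show 5 * L * l1 ^ 2 / ν * u ^ 2 = 2 * L * ((l1 ^ 2 * u ^ 2) / (4 * (ν / 10))) by
        field_simp; ring]
      exact mul_le_mul_of_nonneg_right (by linarith) (by positivity)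
    nlinarith
  · have h := young_lin (x := l2 * |u|) (N := |zeta| * S * (|e| + |a|)) (show (0 : ℝ) < c1 / 2 by linarith)
    rw [mul_pow, mul_pow, mul_pow, sq_abs, sq_abs] at h
    have h2 := mul_le_mul_of_nonneg_left h hS.le
    have h3 : S * (c1 / 2 * (zeta ^ 2 * S ^ 2 * (|e| + |a|) ^ 2)) ≤ c1 * (zeta ^ 2 * S ^ 3 * (e ^ 2 + a ^ 2)) := by
      nlinarith [mul_le_mul_of_nonneg_left hN2 (show (0 : ℝ) ≤ c1 / 2 * zeta ^ 2 * S ^ 3 by positivity)]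
    have h4 : S * ((l2 ^ 2 * u ^ 2) / (4 * (c1 / 2))) ≤ 4 * l2 ^ 2 / c1 * u ^ 2 := by
      rw [show 4 * l2 ^ 2 / c1 * u ^ 2 = 8 * ((l2 ^ 2 * u ^ 2) / (4 * (c1 / 2))) by field_simp; ring]
      exact mul_le_mul_of_nonneg_right hS8 (by positivity)
    nlinarith

lemma en_R {ν L M chi zeta S a u g : ℝ} (hν : 0 < ν) (hL : 0 ≤ L) (hM0 : 0 ≤ M) (hchi : 0 ≤ chi)
    (hchiL : chi ≤ L) (hzeta : |zeta| ≤ L) (hS : 0 < S) (hS8 : S ≤ 8) :
    |-(chi * S ^ 4 * (g * a)) - (2 * (chi * S ^ 3) + M * (zeta ^ 2 * S ^ 3)) * (u * g)|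
      ≤ ν / 10 * (chi * S ^ 4) * a ^ 2 + 4096 * (5 * L / ν) * g ^ 2
        + (2 * (L * 512) + M * (L ^ 2 * 512)) * (u ^ 2 + g ^ 2) := by
  have hS4 : 0 ≤ chi * S ^ 4 := by positivity
  refine (abs_sub _ _).trans (add_le_add ?_ ?_)
  · rw [abs_neg, abs_mul, abs_of_nonneg hS4]
    have h := young_lin (x := |g|) (N := |a|) (show (0 : ℝ) < ν / 10 by linarith)
    rw [sq_abs, sq_abs] at h
    have h2 := mul_le_mul_of_nonneg_left h hS4
    have h3 : chi * S ^ 4 * (g ^ 2 / (4 * (ν / 10))) ≤ 4096 * (5 * L / ν) * g ^ 2 := by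
      rw [show 4096 * (5 * L / ν) * g ^ 2 = 2 * (L * 4096) * (g ^ 2 / (4 * (ν / 10))) by
        field_simp; ring]
      refine mul_le_mul_of_nonneg_right ?_ (by positivity)
      have := mul_le_mul hchiL (pow_le_pow_left₀ hS.le hS8 4) (by positivity) hL
      norm_num at this ⊢
      nlinarith [mul_nonneg hchi (pow_nonneg hS.le 4)]
    rw [abs_mul]
    nlinarith
  · rw [abs_mul, abs_of_nonneg (show (0 : ℝ) ≤ 2 * (chi * S ^ 3) + M * (zeta ^ 2 * S ^ 3) by positivity)]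
    refine mul_le_mul ?_ ?_ (abs_nonneg _) (by positivity)
    · have h3 : S ^ 3 ≤ 512 := (pow_le_pow_left₀ hS.le hS8 3).trans (by norm_num)
      have h4 : zeta ^ 2 ≤ L ^ 2 := by
        rw [← sq_abs]; exact pow_le_pow_left₀ (abs_nonneg _) hzeta 2
      have h5 := mul_le_mul_of_nonneg_left (mul_le_mul h4 h3 (by positivity) (by positivity)) hM0
      have h6 := mul_le_mul hchiL h3 (by positivity) hL
      linarith
    · rw [abs_mul]
      nlinarith [sq_nonneg (|u| - |g|), sq_abs u, sq_abs g]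

lemma en_const {ν c1 A L M : ℝ} (hν : 0 < ν) (hc1p : 0 < c1) (hA1 : 1 ≤ A) (hL : 0 ≤ L)
    (hM0 : 0 ≤ M) :
    8 * L * (28 * A) ^ 2 + 5 * L * (28 * A) ^ 2 / ν + 4 * (A * (L + 1) ^ 2 * (32 + 46 * M)) ^ 2 / c1
        + 4096 * (5 * L / ν) + (2 * (L * 512) + M * (L ^ 2 * 512))
      ≤ A ^ 2 * (L + 1) ^ 4 * (1 + M) ^ 2 * (1 + 1 / ν + 1 / c1) * 10000000 := by
  set W := A ^ 2 * (L + 1) ^ 4 * (1 + M) ^ 2 with hW
  have hA2 : 1 ≤ A ^ 2 := one_le_pow₀ hA1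
  have hL1 : 1 ≤ (L + 1) ^ 3 := one_le_pow₀ (by linarith)
  have hM1 : 1 ≤ (1 + M) ^ 2 := one_le_pow₀ (by linarith)
  have hLW : L * A ^ 2 ≤ W := by
    rw [hW]
    calc L * A ^ 2 ≤ (L + 1) * A ^ 2 * 1 * 1 := by nlinarith [sq_nonneg A]
      _ ≤ (L + 1) * A ^ 2 * (L + 1) ^ 3 * (1 + M) ^ 2 := by gcongr
      _ = _ := by ring
  have hLW' : L ≤ W := le_trans (le_mul_of_one_le_right hL hA2) hLW
  have hl2W : (A * (L + 1) ^ 2 * (32 + 46 * M)) ^ 2 ≤ 2500 * W := by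
    rw [hW, mul_pow, mul_pow, show ((L + 1) ^ 2) ^ 2 = (L + 1) ^ 4 by ring]
    have : (32 + 46 * M) ^ 2 ≤ 2500 * (1 + M) ^ 2 := by nlinarith
    nlinarith [mul_le_mul_of_nonneg_left this (show (0 : ℝ) ≤ A ^ 2 * (L + 1) ^ 4 by positivity)]
  have hkW : 2 * (L * 512) + M * (L ^ 2 * 512) ≤ 2048 * W := by
    rw [hW]
    have h1 : 2 * L + M * L ^ 2 ≤ 4 * ((L + 1) ^ 4 * (1 + M) ^ 2) := by
      have h2 : (L + 1) ^ 2 * (1 + M) ≤ (L + 1) ^ 4 * (1 + M) ^ 2 := by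
        calc (L + 1) ^ 2 * (1 + M) = (L + 1) ^ 2 * 1 * ((1 + M) * 1) := by ring
          _ ≤ (L + 1) ^ 2 * (L + 1) ^ 2 * ((1 + M) * (1 + M)) := by
            gcongr
            · exact one_le_pow₀ (by linarith)
            · linarith
          _ = _ := by ring
      nlinarith
    nlinarith [mul_le_mul_of_nonneg_right hA2
      (show (0 : ℝ) ≤ (L + 1) ^ 4 * (1 + M) ^ 2 by positivity)]
  have hW0 : 0 ≤ W := by positivity
  have e1 : 8 * L * (28 * A) ^ 2 ≤ 6272 * W := by nlinarith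
  have e2 : 5 * L * (28 * A) ^ 2 / ν ≤ 3920 * (W / ν) := by
    rw [← mul_div_assoc]
    exact div_le_div_of_nonneg_right (by nlinarith) hν.le
  have e3 : 4 * (A * (L + 1) ^ 2 * (32 + 46 * M)) ^ 2 / c1 ≤ 10000 * (W / c1) := by
    rw [← mul_div_assoc]
    exact div_le_div_of_nonneg_right (by linarith) hc1p.le
  have e4 : 4096 * (5 * L / ν) ≤ 20480 * (W / ν) := by
    rw [← mul_div_assoc, ← mul_div_assoc]
    exact div_le_div_of_nonneg_right (by linarith) hν.le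
  have f1 : 0 ≤ W / ν := by positivity
  have f2 : 0 ≤ W / c1 := by positivity
  have f3 : W * (1 + 1 / ν + 1 / c1) * 10000000 = 10000000 * (W + W / ν + W / c1) := by ring
  rw [f3]
  linarith

lemma en_sum {X Y K C p q : ℝ} (hX : 0 ≤ X) (hY : 0 ≤ Y) (hp : 0 ≤ p) (hq : 0 ≤ q)
    (h : X + Y + K ≤ C) : X * p + Y * q + K * (p + q) ≤ C * (p + q) := by
  nlinarith [mul_le_mul_of_nonneg_right h (add_nonneg hp hq), mul_nonneg hX hq, mul_nonneg hY hp]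

/-- Pointwise lower bound of the energy integrand. -/
theorem enPhi_lower (ν c0 C0 L : ℝ) (hν : 0 < ν) (hc0 : 0 < c0) (hC0 : 0 ≤ C0) (hL : 0 ≤ L) :
    ∃ M C κ : ℝ, 0 ≤ M ∧ 0 ≤ C ∧ 0 < κ ∧
      ∀ chi chip chiy zeta zetap zetay S P' u a b gam bet c d gamp betp bety g B : ℝ,
        0 ≤ chi → chi ≤ L → |chip| ≤ L → |chiy| ≤ L → |zeta| ≤ L → |zetap| ≤ L → |zetay| ≤ L →
        (chip ≠ 0 ∨ chiy ≠ 0 → zeta = 1) →
        0 < S → S ≤ 8 → |P'| ≤ C0 → |P' + bet / 2| ≤ B * S → B ^ 2 ≤ ν / 2000 →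
        |gam| ≤ C0 → |bet| ≤ C0 → |c| ≤ C0 → |d| ≤ C0 → |gamp| ≤ C0 → |betp| ≤ C0 →
        (chi ≠ 0 → c - gamp / 2 + bety / 2 ≤ -ν) → d ^ 2 ≤ ν / 2000 → |d * bet| ≤ ν / 4 →
        (zeta ≠ 0 → c0 ≤ gam - bet ^ 2 / 4) →
        κ * (chi * (S ^ 3 * (b + bet * a / 2) ^ 2 + S ^ 4 * a ^ 2)) - C * (u ^ 2 + g ^ 2)
          ≤ enPhi chi chip chiy zeta zetap zetay S P' M u a b gam bet c d gamp betp bety g := by
  set c1 := min 1 c0 with hc1
  have hc1p : 0 < c1 := lt_min one_pos hc0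
  set A := 100 * (1 + C0) ^ 3 with hA
  have hA1 : 1 ≤ A := by
    have : 1 ≤ (1 + C0) ^ 3 := one_le_pow₀ (by linarith)
    linarith
  set M := 4 * (L + 1) * (50 * A + 1) / c1 with hM
  have hM0 : 0 ≤ M := by positivity
  -- constants of the Young inequalities
  set t2 := c1 / 8 with ht2
  set C := A ^ 2 * (L + 1) ^ 4 * (1 + M) ^ 2 * (1 + 1 / ν + 1 / c1) * 10000000 with hC
  have hc1one : c1 ≤ 1 := min_le_left _ _
  have hc1c0 : c1 ≤ c0 := min_le_right _ _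
  have hMc : M * c1 = 4 * (L + 1) * (50 * A + 1) := by rw [hM, div_mul_cancel₀ _ hc1p.ne']
  have hC0' : 0 ≤ C := by positivity
  have hCbig0 := en_const (A := A) (M := M) hν hc1p hA1 hL hM0
  rw [← hC] at hCbig0
  clear_value C M c1
  refine ⟨M, C, min 1 (ν / 4), hM0, hC0', lt_min one_pos (by linarith), ?_⟩
  intro chi chip chiy zeta zetap zetay S P' u a b gam bet c d gamp betp bety g B hchi hchiL hchip
    hchiy hzeta hzetap hzetay hsupp hS hS8 hP hgap hB hgam hbet hc hd hgamp hbetp hD hd2 hdb hge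
  set e := b + bet * a / 2 with he
  have hb : b = e - bet * a / 2 := by rw [he]; ring
  set N := |e| + |a| with hN
  have hN0 : 0 ≤ N := add_nonneg (abs_nonneg _) (abs_nonneg _)
  obtain ⟨hbA, hPb, hGb, hcoef⟩ := en_bounds (a := a) (b := b) hC0 hgam hbet hc hd hgamp hbetp hP
  -- exact decomposition
  set Q := -(chiy * S ^ 4) * (a * e)
    - chip * S ^ 4 * (e ^ 2 / 2 - bet * a * e / 2 - (gam - bet ^ 2 / 4) * a ^ 2 / 2) with hQ
  set T := u * S ^ 2 *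
    (chi * (-6 * (P' * b) - 6 * (gam * a + bet * b) - 2 * S * ((c - gamp) * a + (d - betp) * b))
      + (-2 * S * chiy * b + 2 * S * chip * (gam * a + bet * b))
      + M * zeta * (-2 * S * zetay * b - 3 * zeta * (P' * b) + 2 * S * zetap * (gam * a + bet * b)
          - 3 * zeta * (gam * a + bet * b) - zeta * S * ((c - gamp) * a + (d - betp) * b))) with hT
  set R := -(chi * S ^ 4 * (g * a)) - (2 * (chi * S ^ 3) + M * (zeta ^ 2 * S ^ 3)) * (u * g) with hR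
  have hsplit : enPhi chi chip chiy zeta zetap zetay S P' M u a b gam bet c d gamp betp bety g
      = 4 * (chi * S ^ 3) * (e ^ 2 - (P' + bet / 2) * a * e)
        + M * (zeta ^ 2 * S ^ 3) * (e ^ 2 + (gam - bet ^ 2 / 4) * a ^ 2)
        + -(chi * S ^ 4) * ((c - gamp / 2 + bety / 2 - d * bet / 2) * a ^ 2 + d * a * e)
        + Q + T + R := by
    rw [enPhi, hQ, hT, hR, hb]; ring
  have hS3 : 0 ≤ chi * S ^ 3 := by positivity
  have hS4 : 0 ≤ chi * S ^ 4 := by positivity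
  have hmain1 := en_main1 (a := a) (e := e) hν hchi hS hS8 hgap hB
  have hmain2 := en_main2 (a := a) (e := e) hν hchi hS hS8 hD hd2 hdb
  -- gradient of the cutoff is carried by zeta
  have hz : |chip| ≤ L * zeta ^ 2 ∧ |chiy| ≤ L * zeta ^ 2 := by
    by_cases h : chip ≠ 0 ∨ chiy ≠ 0
    · rw [hsupp h]; simp [hchip, hchiy]
    · rw [not_or, not_not, not_not] at h
      rw [h.1, h.2, abs_zero]
      exact ⟨by positivity, by positivity⟩
  set Z := zeta ^ 2 * S ^ 3 * (e ^ 2 + a ^ 2) with hZ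
  have hZ0 : 0 ≤ Z := by positivity
  have hmain3 : M * c1 * Z ≤ M * (zeta ^ 2 * S ^ 3) * (e ^ 2 + (gam - bet ^ 2 / 4) * a ^ 2) := by
    rcases eq_or_ne zeta 0 with h | h
    · simp [hZ, h]
    · have h4 : c1 ≤ gam - bet ^ 2 / 4 := le_trans hc1c0 (hge h)
      have h1 : c1 * (e ^ 2 + a ^ 2) ≤ e ^ 2 + (gam - bet ^ 2 / 4) * a ^ 2 := by
        rw [mul_add]
        exact add_le_add (mul_le_of_le_one_left (sq_nonneg e) hc1one)
          (mul_le_mul_of_nonneg_right h4 (sq_nonneg a))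
      calc M * c1 * Z = M * (zeta ^ 2 * S ^ 3) * (c1 * (e ^ 2 + a ^ 2)) := by rw [hZ]; ring
        _ ≤ _ := mul_le_mul_of_nonneg_left h1 (by positivity)
  have hQb : |Q| ≤ L * 16 * A * Z := en_Q hC0 hL hS hS8 hgam hbet hz
  set l1 := 28 * A with hl1
  set l2 := A * (L + 1) ^ 2 * (32 + 46 * M) with hl2
  have hT1 : |T| ≤ |u| * S ^ 2 * (chi * l1 * N + |zeta| * l2 * N) :=
    en_T hL (by linarith) hM0 hN0 hchi hS hS8 hzeta hzetap hzetay hz hbA hPb hGb hcoef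
  obtain ⟨hTe, hTa, hTz⟩ := en_young (a := a) (e := e) (u := u) (zeta := zeta) (l1 := l1) (l2 := l2)
    hν hc1p hL hchi hchiL hS hS8
  set kb := 2 * (L * 512) + M * (L ^ 2 * 512) with hkb
  have hR1 : |R| ≤ ν / 10 * (chi * S ^ 4) * a ^ 2 + 4096 * (5 * L / ν) * g ^ 2
      + kb * (u ^ 2 + g ^ 2) := en_R hν hL hM0 hchi hchiL hzeta hS hS8
  have hCbig : 8 * L * l1 ^ 2 + 5 * L * l1 ^ 2 / ν + 4 * l2 ^ 2 / c1 + 4096 * (5 * L / ν) + kb ≤ C :=
    hCbig0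
  have hMZ : L * 16 * A * Z + c1 * Z ≤ M * c1 * Z := by
    refine le_of_eq_of_le (by ring : _ = (L * 16 * A + c1) * Z) (mul_le_mul_of_nonneg_right ?_ hZ0)
    rw [hMc]
    linarith [mul_nonneg hL (le_trans zero_le_one hA1),
      show 4 * (L + 1) * (50 * A + 1) = 200 * (L * A) + 4 * L + 200 * A + 4 by ring,
      show L * 16 * A = 16 * (L * A) by ring]
  have hTN : |u| * S ^ 2 * (chi * l1 * N + |zeta| * l2 * N)
      = chi * l1 * |u| * S ^ 2 * |e| + chi * l1 * |u| * S ^ 2 * |a| + |zeta| * l2 * |u| * S ^ 2 * N := by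
    rw [hN]; ring
  have k1 : min 1 (ν / 4) * (chi * S ^ 3 * e ^ 2) ≤ 2 * (chi * S ^ 3 * e ^ 2) :=
    mul_le_mul_of_nonneg_right ((min_le_left _ _).trans one_le_two) (by positivity)
  have k2 : min 1 (ν / 4) * (chi * S ^ 4 * a ^ 2) ≤ (ν - ν / 8 - 4 * (ν / 10)) * (chi * S ^ 4 * a ^ 2) :=
    mul_le_mul_of_nonneg_right ((min_le_right _ _).trans (by linarith)) (by positivity)
  have p1 : 0 ≤ 8 * L * l1 ^ 2 + 5 * L * l1 ^ 2 / ν + 4 * l2 ^ 2 / c1 := by positivity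
  have p2 : 0 ≤ 4096 * (5 * L / ν) := by positivity
  have k3 : (8 * L * l1 ^ 2 + 5 * L * l1 ^ 2 / ν + 4 * l2 ^ 2 / c1) * u ^ 2
      + 4096 * (5 * L / ν) * g ^ 2 + kb * (u ^ 2 + g ^ 2) ≤ C * (u ^ 2 + g ^ 2) := by
    exact en_sum p1 p2 (sq_nonneg u) (sq_nonneg g) hCbig
  rw [hsplit]
  linarith [(abs_le.1 hQb).1, (abs_le.1 hT1).1, (abs_le.1 hR1).1]

end Vale.Agent.P229
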