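import Vale.Agent.P229.Defs
import Vale.Agent.P229.Ibp
import Vale.Agent.P229.EnergyAlg

/-!
# P229: the abstract weighted energy step, and the supremum lemma
-/

open MeasureTheory Set Filter Topology

namespace Vale.Agent.P229

lemma contDiffAt_slice1 {f : E2 → ℝ} {z : E2} (hf : ContDiffAt ℝ 1 f z) :
    HasDerivAt (fun s => f (s, z.2)) (d1 f z) z.1 := by
  have h : HasDerivAt (fun s : ℝ => ((s, z.2) : E2)) (1, 0) z.1 :=
    (hasDerivAt_id' z.1).prodMk (hasDerivAt_const _ _)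
  exact (hf.differentiableAt one_ne_zero).hasFDerivAt.comp_hasDerivAt z.1 h

lemma contDiffAt_slice2 {f : E2 → ℝ} {z : E2} (hf : ContDiffAt ℝ 1 f z) :
    HasDerivAt (fun s => f (z.1, s)) (d2 f z) z.2 := by
  have h : HasDerivAt (fun s : ℝ => ((z.1, s) : E2)) (0, 1) z.2 :=
    (hasDerivAt_const _ _).prodMk (hasDerivAt_id' z.2)
  exact (hf.differentiableAt one_ne_zero).hasFDerivAt.comp_hasDerivAt z.2 h

lemma hasDerivAt_pos_pow (n : ℕ) (hn : 1 ≤ n) (x : ℝ) :
    HasDerivAt (fun y => max y 0 ^ (n + 1)) ((n + 1 : ℝ) * max x 0 ^ n) x := by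
  rcases lt_trichotomy x 0 with h | rfl | h
  · rw [max_eq_right h.le, zero_pow (by omega), mul_zero]
    refine (hasDerivAt_const x (0 : ℝ)).congr_of_eventuallyEq ?_
    filter_upwards [Iio_mem_nhds h] with y hy
    rw [max_eq_right (le_of_lt hy), zero_pow (by omega)]
  · rw [max_self, zero_pow (by omega), mul_zero, hasDerivAt_iff_isLittleO_nhds_zero]
    simp only [zero_add, max_self, smul_zero, sub_zero, zero_pow (Nat.succ_ne_zero n)]
    refine (Asymptotics.IsBigO.of_bound 1 (Eventually.of_forall fun y => ?_)).trans_isLittleO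
      (Asymptotics.isLittleO_pow_id (show 1 < n + 1 by omega))
    rw [one_mul, Real.norm_eq_abs, Real.norm_eq_abs, abs_pow, abs_pow]
    exact pow_le_pow_left₀ (abs_nonneg _) (by
      rw [abs_of_nonneg (le_max_right _ _)]; exact max_le (le_abs_self _) (abs_nonneg _)) _
  · rw [max_eq_left h.le]
    have h2 := hasDerivAt_pow (n + 1) x
    simp only [Nat.add_sub_cancel] at h2
    refine HasDerivAt.congr_of_eventuallyEq (by exact_mod_cast h2) ?_
    filter_upwards [Ioi_mem_nhds h] with y hy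
    rw [max_eq_left (le_of_lt hy)]

lemma contDiff_pos_pow (n : ℕ) (hn : 2 ≤ n) : ContDiff ℝ 1 fun y : ℝ => max y 0 ^ n := by
  obtain ⟨m, rfl⟩ : ∃ m, n = m + 1 := ⟨n - 1, by omega⟩
  have h := fun x => hasDerivAt_pos_pow m (by omega) x
  refine contDiff_one_iff_deriv.2 ⟨fun x => (h x).differentiableAt, ?_⟩
  rw [funext fun x => (h x).deriv]
  fun_prop

/-- The weight `max (P y - p) 0` of a curve `p = P y`. -/
noncomputable def wgt (P : ℝ → ℝ) (z : E2) : ℝ := max (P z.2 - z.1) 0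

lemma wgt_pow_contDiff {P : ℝ → ℝ} (hP : ContDiff ℝ 1 P) (n : ℕ) (hn : 2 ≤ n) :
    ContDiff ℝ 1 fun z => wgt P z ^ n :=
  (contDiff_pos_pow n hn).comp ((hP.comp contDiff_snd).sub contDiff_fst)

lemma wgt_pow_slice1 (P : ℝ → ℝ) (n : ℕ) (hn : 1 ≤ n) (z : E2) :
    HasDerivAt (fun s => wgt P (s, z.2) ^ (n + 1)) (-((n + 1 : ℝ) * wgt P z ^ n)) z.1 := by
  have h := (hasDerivAt_pos_pow n hn (P z.2 - z.1)).comp z.1 ((hasDerivAt_id' z.1).const_sub (P z.2))
  simpa only [Function.comp_def, wgt, mul_neg, mul_one] using h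

lemma wgt_pow_slice2 {P : ℝ → ℝ} (hP : ContDiff ℝ 1 P) (n : ℕ) (hn : 1 ≤ n) (z : E2) :
    HasDerivAt (fun s => wgt P (z.1, s) ^ (n + 1)) ((n + 1 : ℝ) * wgt P z ^ n * deriv P z.2) z.2 := by
  have h := (hasDerivAt_pos_pow n hn (P z.2 - z.1)).comp z.2
    (((hP.differentiable one_ne_zero) z.2).hasDerivAt.sub_const z.1)
  simpa only [Function.comp_def, wgt] using h

lemma contDiff_glue {f : E2 → ℝ} {R : Set E2} (hR : IsOpen R) (hf : ContDiffOn ℝ 1 f R) {T : Set E2}
    (hT : IsClosed T) (hTR : T ⊆ R) (h0 : ∀ z, z ∉ T → f z = 0) : ContDiff ℝ 1 f := by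
  refine contDiff_iff_contDiffAt.2 fun z => ?_
  by_cases hz : z ∈ R
  · exact hf.contDiffAt (hR.mem_nhds hz)
  · refine (contDiffAt_const (c := (0 : ℝ))).congr_of_eventuallyEq ?_
    filter_upwards [hT.isOpen_compl.mem_nhds (fun h => hz (hTR h))] with w hw
    exact h0 w hw

lemma continuous_glue {f : E2 → ℝ} {R : Set E2} (hR : IsOpen R) (hf : ContinuousOn f R) {T : Set E2}
    (hT : IsClosed T) (hTR : T ⊆ R) (h0 : ∀ z, z ∉ T → f z = 0) : Continuous f := by
  refine continuous_iff_continuousAt.2 fun z => ?_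
  by_cases hz : z ∈ R
  · exact hf.continuousAt (hR.mem_nhds hz)
  · refine continuousAt_const.congr (EventuallyEq.symm (?_ : f =ᶠ[𝓝 z] fun _ => (0 : ℝ)))
    filter_upwards [hT.isOpen_compl.mem_nhds (fun h => hz (hTR h))] with w hw
    exact h0 w hw

lemma contDiffOn_d1 {u : E2 → ℝ} {R : Set E2} (hR : IsOpen R) (hu : ContDiffOn ℝ 2 u R) :
    ContDiffOn ℝ 1 (d1 u) R :=
  (hu.fderiv_of_isOpen hR (by norm_num)).clm_apply contDiffOn_const

lemma contDiffOn_d2 {u : E2 → ℝ} {R : Set E2} (hR : IsOpen R) (hu : ContDiffOn ℝ 2 u R) :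
    ContDiffOn ℝ 1 (d2 u) R :=
  (hu.fderiv_of_isOpen hR (by norm_num)).clm_apply contDiffOn_const

lemma d2_d1_eq {u : E2 → ℝ} {z : E2} (hu : ContDiffAt ℝ 2 u z) : d2 (d1 u) z = d1 (d2 u) z := by
  have hd : DifferentiableAt ℝ (fderiv ℝ u) z :=
    (hu.fderiv_right (m := 1) (by norm_num)).differentiableAt one_ne_zero
  have hsym := hu.isSymmSndFDerivAt (by simp)
  show fderiv ℝ (fun w => fderiv ℝ u w (1, 0)) z (0, 1) = fderiv ℝ (fun w => fderiv ℝ u w (0, 1)) z (1, 0)
  rw [fderiv_clm_apply hd (differentiableAt_const _), fderiv_clm_apply hd (differentiableAt_const _)]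
  simpa using hsym.eq (0, 1) (1, 0)

/-- The coefficient of `a` in the curve condition, from the mean value theorem. -/
lemma curve_gap {P : ℝ → ℝ} {β : E2 → ℝ} {B : ℝ} {z : E2} (hz : z.1 ≤ P z.2)
    (hcurve : deriv P z.2 = -β (P z.2, z.2) / 2)
    (hβ : ∀ p ∈ Icc z.1 (P z.2), ContDiffAt ℝ 1 β (p, z.2) ∧ |d1 β (p, z.2)| ≤ 2 * B) :
    |deriv P z.2 + β z / 2| ≤ B * (P z.2 - z.1) := by
  have h := (convex_Icc z.1 (P z.2)).norm_image_sub_le_of_norm_hasDerivWithin_le
    (f := fun s => β (s, z.2)) (f' := fun s => d1 β (s, z.2)) (C := 2 * B)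
    (fun s hs => (contDiffAt_slice1 (z := (s, z.2)) (hβ s hs).1).hasDerivWithinAt)
    (fun s hs => by rw [Real.norm_eq_abs]; exact (hβ s hs).2)
    (right_mem_Icc.2 hz) (left_mem_Icc.2 hz)
  rw [Real.norm_eq_abs, Real.norm_eq_abs, abs_sub_comm z.1, abs_of_nonneg (sub_nonneg.2 hz)] at h
  rw [hcurve, show -β (P z.2, z.2) / 2 + β z / 2 = (β (z.1, z.2) - β (P z.2, z.2)) / 2 by
    simp only [Prod.mk.eta]; ring, abs_div, abs_two]
  linarith

/-- The pointwise hypotheses of the energy step at a point `z` with `z.1 < P z.2`. -/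
structure StepData (P : ℝ → ℝ) (χ ζ u γ β c d G : E2 → ℝ) (ν c0 C0 B : ℝ) (z : E2) : Prop where
  width : P z.2 - z.1 ≤ 8
  slope : |deriv P z.2| ≤ C0
  gap : |deriv P z.2 + β z / 2| ≤ B * (P z.2 - z.1)
  grad : d1 χ z ≠ 0 ∨ d2 χ z ≠ 0 → ζ z = 1
  eqn : d2 (fun w => -d2 u w) z =
    γ z * d1 (d1 u) z + β z * d1 (fun w => -d2 u w) z + c z * d1 u z + d z * (-d2 u z) + G z
  bgam : |γ z| ≤ C0
  bbet : |β z| ≤ C0
  bc : |c z| ≤ C0
  bd : |d z| ≤ C0
  bgamp : |d1 γ z| ≤ C0
  bbetp : |d1 β z| ≤ C0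
  neg : χ z ≠ 0 → c z - d1 γ z / 2 + d2 β z / 2 ≤ -ν
  dsq : d z ^ 2 ≤ ν / 2000
  dbet : |d z * β z| ≤ ν / 4
  ell : ζ z ≠ 0 → c0 ≤ γ z - β z ^ 2 / 4

/-- The abstract energy step. -/
theorem energy_step (ν c0 C0 L : ℝ) (hν : 0 < ν) (hc0 : 0 < c0) (hC0 : 0 ≤ C0) (hL : 0 ≤ L) :
    ∃ C : ℝ, 0 ≤ C ∧ ∀ (R : Set E2) (P : ℝ → ℝ) (χ ζ u γ β c d G : E2 → ℝ) (B : ℝ),
      IsOpen R → ContDiff ℝ 1 P → ContDiff ℝ 1 χ → ContDiff ℝ 1 ζ →
      HasCompactSupport χ → HasCompactSupport ζ → tsupport χ ⊆ R → tsupport ζ ⊆ R →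
      (∀ z, 0 ≤ χ z ∧ χ z ≤ L ∧ |d1 χ z| ≤ L ∧ |d2 χ z| ≤ L ∧
        |ζ z| ≤ L ∧ |d1 ζ z| ≤ L ∧ |d2 ζ z| ≤ L) →
      ContDiffOn ℝ 2 u R → ContDiffOn ℝ 1 γ R → ContDiffOn ℝ 1 β R → B ^ 2 ≤ ν / 2000 →
      (∀ z ∈ R, z.1 < P z.2 → StepData P χ ζ u γ β c d G ν c0 C0 B z) →
      IntegrableOn (fun z => u z ^ 2 + G z ^ 2) (R ∩ {z | z.1 < P z.2}) →
      Integrable (fun z => χ z * (wgt P z ^ 3 * (-d2 u z + β z * d1 u z / 2) ^ 2
          + wgt P z ^ 4 * d1 u z ^ 2)) ∧
      ∫ z, χ z * (wgt P z ^ 3 * (-d2 u z + β z * d1 u z / 2) ^ 2 + wgt P z ^ 4 * d1 u z ^ 2)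
        ≤ C * ∫ z in R ∩ {z | z.1 < P z.2}, (u z ^ 2 + G z ^ 2) := by
  obtain ⟨M, C, κ, hM, hC, hκ, halg⟩ := enPhi_lower ν c0 C0 L hν hc0 hC0 hL
  refine ⟨C / κ, div_nonneg hC hκ.le, ?_⟩
  intro R P χ ζ u γ β c d G B hR hP hχ hζ hχc hζc hχR hζR hbd hu hγ hβ hB hdata hint
  let a : E2 → ℝ := d1 u
  let b : E2 → ℝ := fun w => -d2 u w
  let w : E2 → ℝ := fun z => χ z * wgt P z ^ (3 + 1)
  let k : E2 → ℝ := fun z => 2 * (χ z * wgt P z ^ (2 + 1)) + M * (ζ z ^ 2 * wgt P z ^ (2 + 1))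
  let F1 : E2 → ℝ := fun z =>
    w z * (b z ^ 2 / 2 - γ z * a z ^ 2 / 2) - k z * (u z * (γ z * a z + β z * b z))
  let F2 : E2 → ℝ := fun z =>
    w z * (a z * b z + β z * a z ^ 2 / 2) + k z * (u z * b z)
  let low : E2 → ℝ := fun z => χ z * (wgt P z ^ 3 * (-d2 u z + β z * d1 u z / 2) ^ 2
          + wgt P z ^ 4 * d1 u z ^ 2)
  set T := tsupport χ ∪ tsupport ζ
  have hTc : IsClosed T := (isClosed_tsupport _).union (isClosed_tsupport _)
  have hTk : IsCompact T := hχc.isCompact.union hζc.isCompact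
  have hTR : T ⊆ R := union_subset hχR hζR
  have hT0 : ∀ z, z ∉ T → χ z = 0 ∧ ζ z = 0 := fun z hz =>
    ⟨image_eq_zero_of_notMem_tsupport fun h => hz (Or.inl h),
      image_eq_zero_of_notMem_tsupport fun h => hz (Or.inr h)⟩
  have ha : ContDiffOn ℝ 1 a R := contDiffOn_d1 hR hu
  have hb : ContDiffOn ℝ 1 b R := (contDiffOn_d2 hR hu).neg
  have hu1 : ContDiffOn ℝ 1 u R := hu.of_le one_le_two
  have hw : ContDiff ℝ 1 w := hχ.mul (wgt_pow_contDiff hP _ (by norm_num))
  have hk : ContDiff ℝ 1 k := (contDiff_const.mul (hχ.mul (wgt_pow_contDiff hP _ (by norm_num)))).add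
    (contDiff_const.mul ((hζ.pow 2).mul (wgt_pow_contDiff hP _ (by norm_num))))
  have hwk : ∀ z, z ∉ T → w z = 0 ∧ k z = 0 := fun z hz => by
    simp [w, k, (hT0 z hz).1, (hT0 z hz).2]
  have hF1 : ContDiff ℝ 1 F1 := contDiff_glue hR
    ((hw.contDiffOn.mul (((hb.pow 2).div_const 2).sub ((hγ.mul (ha.pow 2)).div_const 2))).sub
      (hk.contDiffOn.mul (hu1.mul ((hγ.mul ha).add (hβ.mul hb))))) hTc hTR
    fun z hz => by simp [F1, (hwk z hz).1, (hwk z hz).2]
  have hF2 : ContDiff ℝ 1 F2 := contDiff_glue hR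
    ((hw.contDiffOn.mul ((ha.mul hb).add ((hβ.mul (ha.pow 2)).div_const 2))).add
      (hk.contDiffOn.mul (hu1.mul hb))) hTc hTR
    fun z hz => by simp [F2, (hwk z hz).1, (hwk z hz).2]
  have hF1s : HasCompactSupport F1 := HasCompactSupport.intro hTk fun z hz => by
    simp [F1, (hwk z hz).1, (hwk z hz).2]
  have hF2s : HasCompactSupport F2 := HasCompactSupport.intro hTk fun z hz => by
    simp [F2, (hwk z hz).1, (hwk z hz).2]
  set div : E2 → ℝ := fun z => d1 F1 z + d2 F2 z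
  have hdiv0 : ∫ z, div z = 0 := by
    have i1 : Integrable (d1 F1) :=
      ((hF1.continuous_fderiv one_ne_zero).clm_apply continuous_const).integrable_of_hasCompactSupport
        (hF1s.fderiv_apply ℝ _)
    have i2 : Integrable (d2 F2) :=
      ((hF2.continuous_fderiv one_ne_zero).clm_apply continuous_const).integrable_of_hasCompactSupport
        (hF2s.fderiv_apply ℝ _)
    show ∫ z, d1 F1 z + d2 F2 z = 0
    rw [integral_add i1 i2]
    show (∫ z, fderiv ℝ F1 z (1, 0)) + ∫ z, fderiv ℝ F2 z (0, 1) = 0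
    rw [integral_fderiv_eq_zero hF1 hF1s, integral_fderiv_eq_zero hF2 hF2s, add_zero]
  have hdivI : Integrable div := by
    refine Integrable.add ?_ ?_
    · exact ((hF1.continuous_fderiv one_ne_zero).clm_apply continuous_const).integrable_of_hasCompactSupport
        (hF1s.fderiv_apply ℝ _)
    · exact ((hF2.continuous_fderiv one_ne_zero).clm_apply continuous_const).integrable_of_hasCompactSupport
        (hF2s.fderiv_apply ℝ _)
  have hlowI : Integrable low := by
    refine Continuous.integrable_of_hasCompactSupport ?_ (HasCompactSupport.intro hTk fun z hz => by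
      simp [low, (hT0 z hz).1])
    refine continuous_glue hR ?_ hTc hTR fun z hz => by simp [low, (hT0 z hz).1]
    have hwc : Continuous (wgt P) := by
      unfold wgt
      exact ((hP.continuous.comp continuous_snd).sub continuous_fst).max continuous_const
    exact hχ.continuous.continuousOn.mul (((hwc.pow 3).continuousOn.mul
      ((((contDiffOn_d2 hR hu).continuousOn.neg).add ((hβ.continuousOn.mul ha.continuousOn).div_const 2)).pow 2)).add
      ((hwc.pow 4).continuousOn.mul (ha.continuousOn.pow 2)))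
  set D := R ∩ {z : E2 | z.1 < P z.2}
  have hDm : MeasurableSet D :=
    (hR.inter (isOpen_lt continuous_fst (hP.continuous.comp continuous_snd))).measurableSet
  have hformula : ∀ z ∈ R, div z =
      d1 χ z * wgt P z ^ 4 * (b z ^ 2 / 2 - γ z * a z ^ 2 / 2)
      - 4 * χ z * wgt P z ^ 3 * (b z ^ 2 / 2 - γ z * a z ^ 2 / 2)
      + w z * (b z * d1 b z - d1 γ z * a z ^ 2 / 2 - γ z * a z * d1 a z)
      - (2 * (d1 χ z * wgt P z ^ 3 - 3 * χ z * wgt P z ^ 2)
          + M * (2 * ζ z * d1 ζ z * wgt P z ^ 3 - 3 * ζ z ^ 2 * wgt P z ^ 2)) * (u z * (γ z * a z + β z * b z))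
      - k z * (a z * (γ z * a z + β z * b z)
          + u z * (d1 γ z * a z + γ z * d1 a z + d1 β z * b z + β z * d1 b z))
      + (d2 χ z * wgt P z ^ 4 + 4 * χ z * wgt P z ^ 3 * deriv P z.2) * (a z * b z + β z * a z ^ 2 / 2)
      + w z * (-(d1 b z) * b z + a z * d2 b z + d2 β z * a z ^ 2 / 2 + β z * a z * -(d1 b z))
      + (2 * (d2 χ z * wgt P z ^ 3 + 3 * χ z * wgt P z ^ 2 * deriv P z.2)
          + M * (2 * ζ z * d2 ζ z * wgt P z ^ 3 + 3 * ζ z ^ 2 * wgt P z ^ 2 * deriv P z.2)) * (u z * b z)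
      + k z * (-(b z) * b z + u z * d2 b z) := by
    intro z hz
    have nh := hR.mem_nhds hz
    have hu2 : ContDiffAt ℝ 2 u z := hu.contDiffAt nh
    have cu : ContDiffAt ℝ 1 u z := hu1.contDiffAt nh
    have ca : ContDiffAt ℝ 1 a z := ha.contDiffAt nh
    have cb : ContDiffAt ℝ 1 b z := hb.contDiffAt nh
    have cg : ContDiffAt ℝ 1 γ z := hγ.contDiffAt nh
    have cB : ContDiffAt ℝ 1 β z := hβ.contDiffAt nh
    have hay : d2 a z = -d1 b z := by
      show d2 (d1 u) z = -fderiv ℝ (fun w => -d2 u w) z (1, 0)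
      rw [d2_d1_eq hu2, fderiv_fun_neg]
      simp [d1]
    have hby : d2 u z = -b z := by simp [b]
    -- first direction
    have pw := (contDiffAt_slice1 hχ.contDiffAt (z := z)).fun_mul (wgt_pow_slice1 P 3 (by norm_num) z)
    have pk := (((contDiffAt_slice1 hχ.contDiffAt (z := z)).fun_mul (wgt_pow_slice1 P 2 (by norm_num) z)).const_mul 2).fun_add
      ((((contDiffAt_slice1 hζ.contDiffAt (z := z)).fun_pow 2).fun_mul (wgt_pow_slice1 P 2 (by norm_num) z)).const_mul M)
    have pX := (((contDiffAt_slice1 cb).fun_pow 2).div_const 2).fun_sub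
      (((contDiffAt_slice1 cg).fun_mul ((contDiffAt_slice1 ca).fun_pow 2)).div_const 2)
    have pY := (contDiffAt_slice1 cu).fun_mul (((contDiffAt_slice1 cg).fun_mul (contDiffAt_slice1 ca)).fun_add
      ((contDiffAt_slice1 cB).fun_mul (contDiffAt_slice1 cb)))
    have e1 := (contDiffAt_slice1 hF1.contDiffAt (z := z)).unique ((pw.fun_mul pX).fun_sub (pk.fun_mul pY))
    -- second direction
    have qw := (contDiffAt_slice2 hχ.contDiffAt (z := z)).fun_mul (wgt_pow_slice2 hP 3 (by norm_num) z)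
    have qk := (((contDiffAt_slice2 hχ.contDiffAt (z := z)).fun_mul (wgt_pow_slice2 hP 2 (by norm_num) z)).const_mul 2).fun_add
      ((((contDiffAt_slice2 hζ.contDiffAt (z := z)).fun_pow 2).fun_mul (wgt_pow_slice2 hP 2 (by norm_num) z)).const_mul M)
    have qX := ((contDiffAt_slice2 ca).fun_mul (contDiffAt_slice2 cb)).fun_add
      (((contDiffAt_slice2 cB).fun_mul ((contDiffAt_slice2 ca).fun_pow 2)).div_const 2)
    have qY := (contDiffAt_slice2 cu).fun_mul (contDiffAt_slice2 cb)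
    have e2 := (contDiffAt_slice2 hF2.contDiffAt (z := z)).unique ((qw.fun_mul qX).fun_add (qk.fun_mul qY))
    have hau : d1 u z = a z := rfl
    show d1 F1 z + d2 F2 z = _
    rw [e1, e2, hay, hby]
    simp only [Prod.mk.eta, w, k, hau, Nat.cast_ofNat]
    ring
  have hpt : ∀ z, κ * low z - C * D.indicator (fun z => u z ^ 2 + G z ^ 2) z ≤ -div z := by
    intro z
    by_cases hz : z ∈ R
    swap
    · have hnT : z ∉ T := fun h => hz (hTR h)
      have hev : ∀ᶠ y in 𝓝 z, y ∉ T := hTc.isOpen_compl.mem_nhds hnT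
      have e1 : F1 =ᶠ[𝓝 z] fun _ => (0 : ℝ) := hev.mono fun y hy => by simp [F1, (hwk y hy).1, (hwk y hy).2]
      have e2 : F2 =ᶠ[𝓝 z] fun _ => (0 : ℝ) := hev.mono fun y hy => by simp [F2, (hwk y hy).1, (hwk y hy).2]
      have hl : low z = 0 := by simp [low, (hT0 z hnT).1]
      rw [indicator_of_notMem (fun h => hz h.1), hl]
      simp [div, d1, d2, e1.fderiv_eq, e2.fderiv_eq]
    rw [hformula z hz]
    by_cases hp : z.1 < P z.2
    swap
    · have hS : wgt P z = 0 := max_eq_right (by linarith [not_lt.1 hp])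
      rw [indicator_of_notMem (fun h => hp h.2)]
      simp [low, w, k, hS]
    rw [indicator_of_mem (show z ∈ D from ⟨hz, hp⟩)]
    have h := hdata z hz hp
    have hSd : wgt P z = P z.2 - z.1 := max_eq_left (by linarith)
    obtain ⟨b1, b2, b3, b4, b5, b6, b7⟩ := hbd z
    have key := halg (χ z) (d1 χ z) (d2 χ z) (ζ z) (d1 ζ z) (d2 ζ z) (wgt P z) (deriv P z.2)
      (u z) (a z) (b z) (γ z) (β z) (c z) (d z) (d1 γ z) (d1 β z) (d2 β z) (G z) B
      b1 b2 b3 b4 b5 b6 b7 h.grad (by rw [hSd]; linarith) (by rw [hSd]; exact h.width) h.slope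
      (by rw [hSd]; exact h.gap) hB h.bgam h.bbet h.bc h.bd h.bgamp h.bbetp h.neg h.dsq h.dbet h.ell
    refine le_of_eq_of_le rfl (key.trans (le_of_eq ?_))
    have he : d2 b z = γ z * d1 a z + β z * d1 b z + c z * a z + d z * b z + G z := h.eqn
    rw [he, enPhi]
    simp only [w, k]
    ring
  refine ⟨hlowI, ?_⟩
  have hI : Integrable (D.indicator fun z => u z ^ 2 + G z ^ 2) := hint.integrable_indicator hDm
  have h := integral_mono ((hlowI.const_mul κ).sub (hI.const_mul C)) hdivI.neg fun z => hpt z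
  simp only [Pi.sub_apply, Pi.neg_apply] at h
  rw [integral_sub (hlowI.const_mul κ) (hI.const_mul C), integral_const_mul, integral_const_mul,
    integral_indicator hDm, integral_neg, hdiv0, neg_zero] at h
  rw [div_mul_eq_mul_div, le_div_iff₀ hκ, mul_comm]
  show κ * ∫ z, low z ≤ _
  linarith

/-- Supremum lemma: a compactly supported `C^2` function is bounded by the integral of its mixed
second derivative. -/
theorem sup_le_integral_mixed {f : E2 → ℝ} (hf : ContDiff ℝ 2 f) (hs : HasCompactSupport f) (z : E2) :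
    |f z| ≤ ∫ w, |d2 (d1 f) w| := by
  have hg : ContDiff ℝ 1 (d1 f) := (hf.fderiv_right (by norm_num)).clm_apply contDiff_const
  have hgs : HasCompactSupport (d1 f) := hs.fderiv_apply ℝ _
  have hh : Continuous fun w => |d2 (d1 f) w| :=
    ((hg.continuous_fderiv one_ne_zero).clm_apply continuous_const).abs
  have hhI : Integrable (fun w => |d2 (d1 f) w|) :=
    hh.integrable_of_hasCompactSupport (HasCompactSupport.abs (hgs.fderiv_apply ℝ _))
  have hcs1 : HasCompactSupport fun s => f (s, z.2) :=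
    HasCompactSupport.intro (hs.isCompact.image continuous_fst) fun s hs' =>
      image_eq_zero_of_notMem_tsupport fun h => hs' ⟨_, h, rfl⟩
  have hcs2 : ∀ s, HasCompactSupport fun y => d1 f (s, y) := fun s =>
    HasCompactSupport.intro (hgs.isCompact.image continuous_snd) fun y hy =>
      image_eq_zero_of_notMem_tsupport fun h => hy ⟨_, h, rfl⟩
  have hc1 : ContDiff ℝ 1 fun s => f (s, z.2) :=
    (hf.of_le one_le_two).comp (contDiff_id.prodMk contDiff_const)
  have hint1 : f z = ∫ s in Iic z.1, d1 f (s, z.2) := by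
    rw [← hcs1.integral_Iic_deriv_eq hc1 z.1]
    refine setIntegral_congr_fun measurableSet_Iic fun s _ => ?_
    exact (contDiffAt_slice1 (z := (s, z.2)) (hf.of_le one_le_two).contDiffAt).deriv
  have hb2 : ∀ s, |d1 f (s, z.2)| ≤ ∫ y, |d2 (d1 f) (s, y)| := fun s => by
    have hc2 : ContDiff ℝ 1 fun y => d1 f (s, y) := hg.comp (contDiff_const.prodMk contDiff_id)
    have e : d1 f (s, z.2) = ∫ y in Iic z.2, d2 (d1 f) (s, y) := by
      rw [← (hcs2 s).integral_Iic_deriv_eq hc2 z.2]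
      refine setIntegral_congr_fun measurableSet_Iic fun y _ => ?_
      exact (contDiffAt_slice2 (z := (s, y)) hg.contDiffAt).deriv
    have hI2 : Integrable fun y => |d2 (d1 f) (s, y)| :=
      (hh.comp (continuous_const.prodMk continuous_id)).integrable_of_hasCompactSupport
        (HasCompactSupport.intro ((hgs.fderiv_apply ℝ _).isCompact.image continuous_snd) fun y hy =>
          abs_eq_zero.2 (image_eq_zero_of_notMem_tsupport (f := fun w => fderiv ℝ (d1 f) w (0, 1))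
            fun h => hy ⟨_, h, rfl⟩))
    rw [e]
    exact (abs_integral_le_integral_abs).trans
      (setIntegral_le_integral hI2 (Eventually.of_forall fun y => abs_nonneg _))
  have hI1 : Integrable fun s => ∫ y, |d2 (d1 f) (s, y)| :=
    (hhI.integral_prod_left : _)
  have hI0 : Integrable fun s => |d1 f (s, z.2)| :=
    ((hg.continuous.comp (continuous_id.prodMk continuous_const)).abs).integrable_of_hasCompactSupport
      (HasCompactSupport.intro (hgs.isCompact.image continuous_fst) fun s hs' =>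
        abs_eq_zero.2 (image_eq_zero_of_notMem_tsupport (f := d1 f) (x := ((s, z.2) : E2))
          fun h => hs' ⟨_, h, rfl⟩))
  rw [hint1]
  refine abs_integral_le_integral_abs.trans
    ((setIntegral_le_integral hI0 (Eventually.of_forall fun s => abs_nonneg _)).trans ?_)
  refine (integral_mono hI0 hI1 hb2).trans_eq ?_
  exact (integral_prod (fun w => |d2 (d1 f) w|) hhI).symm

end Vale.Agent.P229
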