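import Vale.Agent.P229.Geom.Pieces
import Vale.Agent.P229.Geom.Darboux

/-!
P229, geometry: a patch solution gives a normalised solution of the scaled Darboux equation.
-/

namespace Vale.Agent.P229.Geom

open Set Filter Metric
open scoped ContDiff Topology RealInnerProductSpace

/-- The scaled and rotated profile exponent. -/
noncomputable def patchSig (n : ℕ) (δ s ρ : ℝ) (x0 : E2) (x : E2) : ℝ :=
  s * psi n δ (simMap (-((1 / ρ) • x0)) (1 / ρ) 1 0 x)

lemma contDiff_patchSig (n : ℕ) (δ s ρ : ℝ) (x0 : E2) :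
    ContDiff ℝ ∞ (patchSig n δ s ρ x0) :=
  contDiff_const.mul ((contDiff_psi n δ).comp (contDiff_simMap _ _ _ _))

lemma patchSig_eq (n : ℕ) (δ s ρ : ℝ) (x0 x : E2) :
    patchSig n δ s ρ x0 x = s * psi n δ ((1 / ρ) • (x - x0)) := by
  unfold patchSig simMap
  congr 2
  ext <;> simp <;> ring

lemma patchSig_calc (n : ℕ) (δ s : ℝ) {ρ : ℝ} (x0 x v : E2)
    (hv : simMap (-((1 / ρ) • x0)) (1 / ρ) 1 0 x = v) :
    d1 (patchSig n δ s ρ x0) x = s / ρ * d1 (psi n δ) v ∧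
    d2 (patchSig n δ s ρ x0) x = s / ρ * d2 (psi n δ) v ∧
    lap (patchSig n δ s ρ x0) x = s / ρ ^ 2 * lap (psi n δ) v := by
  have hψ := contDiff_psi n δ
  have hψs : ContDiff ℝ ∞ fun w => psi n δ (simMap (-((1 / ρ) • x0)) (1 / ρ) 1 0 w) :=
    hψ.comp (contDiff_simMap _ _ _ _)
  have e : patchSig n δ s ρ x0
      = fun w => s * psi n δ (simMap (-((1 / ρ) • x0)) (1 / ρ) 1 0 w) := rfl
  refine ⟨?_, ?_, ?_⟩
  · rw [e, (d_const_mul hψs s x).1, d1_comp_sim hψ]; simp only [hv]; ring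
  · rw [e, (d_const_mul hψs s x).2, d2_comp_sim hψ]; simp only [hv]; ring
  · rw [lap, e, (second_const_mul hψs s x).1, (second_const_mul hψs s x).2.2,
      d1d1_comp_sim hψ, d2d2_comp_sim hψ, hv, lap]
    ring

lemma psi_rot (n : ℕ) (δ : ℝ) {c sn : ℝ} (hcs : c ^ 2 + sn ^ 2 = 1) (u : E2) :
    psi n δ u = psi n δ (rot c sn u) ∧
    d1 (psi n δ) u = c * d1 (psi n δ) (rot c sn u) + sn * d2 (psi n δ) (rot c sn u) ∧
    d2 (psi n δ) u = -sn * d1 (psi n δ) (rot c sn u) + c * d2 (psi n δ) (rot c sn u) ∧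
    lap (psi n δ) u = lap (psi n δ) (rot c sn u) := by
  have hψ := contDiff_psi n δ
  have hinv : psi n δ = fun w => psi n δ (simMap 0 1 c sn w) := by
    funext w
    refine psi_congr_sqn n δ ?_
    rw [simMap, zero_add, one_smul, sqn_rot hcs]
  have hv : simMap 0 1 c sn u = rot c sn u := by simp [simMap]
  refine ⟨?_, ?_, ?_, ?_⟩
  · conv_lhs => rw [hinv]
    simp only [hv]
  · conv_lhs => rw [hinv]
    rw [d1_comp_sim hψ]; simp only [hv]; ring
  · conv_lhs => rw [hinv]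
    rw [d2_comp_sim hψ]; simp only [hv]; ring
  · conv_lhs => rw [hinv]
    rw [lap, d1d1_comp_sim hψ, d2d2_comp_sim hψ, hv, lap]
    linear_combination (d1 (d1 (psi n δ)) (rot c sn u) + d2 (d2 (psi n δ)) (rot c sn u)) * hcs

lemma scaled_calc {zt z : E2 → ℝ} (hzt : ContDiff ℝ ∞ zt) (x0 : E2) (ρ lam c sn : ℝ) (hρ : 0 < ρ)
    (u : E2) (hloc : zt =ᶠ[𝓝 (simMap x0 ρ c sn u)] z) :
    let x := simMap x0 ρ c sn u
    let Z0 := fun w => 1 / (ρ * lam) * zt (simMap x0 ρ c sn w)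
    d1 Z0 u = 1 / lam * (c * d1 z x + sn * d2 z x) ∧
    d2 Z0 u = 1 / lam * (-sn * d1 z x + c * d2 z x) ∧
    d1 (d1 Z0) u = ρ / lam * (c ^ 2 * d1 (d1 z) x + 2 * c * sn * d2 (d1 z) x
      + sn ^ 2 * d2 (d2 z) x) ∧
    d2 (d1 Z0) u = ρ / lam * (c * sn * (d2 (d2 z) x - d1 (d1 z) x)
      + (c ^ 2 - sn ^ 2) * d2 (d1 z) x) ∧
    d2 (d2 Z0) u = ρ / lam * (sn ^ 2 * d1 (d1 z) x - 2 * c * sn * d2 (d1 z) x
      + c ^ 2 * d2 (d2 z) x) := by
  intro x Z0
  have hg : ContDiff ℝ ∞ fun w => zt (simMap x0 ρ c sn w) := hzt.comp (contDiff_simMap _ _ _ _)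
  obtain ⟨k1, k2, k11, k12, k22⟩ := d_congr_all hloc
  refine ⟨?_, ?_, ?_, ?_, ?_⟩
  · rw [(d_const_mul hg _ u).1, d1_comp_sim hzt]; simp only [k1, k2, x]; field_simp
  · rw [(d_const_mul hg _ u).2, d2_comp_sim hzt]; simp only [k1, k2, x]; field_simp
  · rw [(second_const_mul hg _ u).1, d1d1_comp_sim hzt]; simp only [k11, k12, k22, x]; field_simp
  · rw [(second_const_mul hg _ u).2.1, d2d1_comp_sim hzt]; simp only [k11, k12, k22, x]; field_simp
  · rw [(second_const_mul hg _ u).2.2, d2d2_comp_sim hzt]; simp only [k11, k12, k22, x]; field_simp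

/-- The deviation of the scaled height from the quadratic model is small. -/
lemma dev_bounds {zt z : E2 → ℝ} (hzt : ContDiff ℝ ∞ zt) {x0 : E2} {ρ M a b c sn P : ℝ}
    (hρ : 0 < ρ) (hρ1 : ρ ≤ 1) (ha : 0 < a) (hMa : M / a ≤ 3 * M ^ 2)
    (hcs : c ^ 2 + sn ^ 2 = 1)
    (hloc : ∀ y ∈ ball x0 (23 / 2 * ρ), zt =ᶠ[𝓝 y] z)
    (hzb : ∀ k : ℕ, 1 ≤ k → k ≤ 6 → ∀ y ∈ ball x0 (23 / 2 * ρ), ‖iteratedFDeriv ℝ k z y‖ ≤ M)
    (hz0 : z x0 = 0) (hz1 : d1 z x0 = 0) (hz2 : d2 z x0 = 0)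
    (hoff : c * sn * (d2 (d2 z) x0 - d1 (d1 z) x0) + (c ^ 2 - sn ^ 2) * d2 (d1 z) x0 = 0)
    (haa : a = c ^ 2 * d1 (d1 z) x0 + 2 * c * sn * d2 (d1 z) x0 + sn ^ 2 * d2 (d2 z) x0)
    (hbb : b = sn ^ 2 * d1 (d1 z) x0 - 2 * c * sn * d2 (d1 z) x0 + c ^ 2 * d2 (d2 z) x0)
    (hb : |b / a| ≤ P * ρ) :
    let W := fun w => 1 / (ρ * (ρ * a)) * zt (simMap x0 ρ c sn w) + (-1) * par w
    ContDiff ℝ ∞ W ∧ W 0 = 0 ∧ fderiv ℝ W 0 = 0 ∧
      ‖iteratedFDeriv ℝ 2 W 0‖ ≤ (2 ^ 6 * (3 * M ^ 2) + P) * ρ ∧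
      ∀ k, 3 ≤ k → k ≤ 6 → ∀ u ∈ closedBall (0 : E2) 7,
        ‖iteratedFDeriv ℝ k W u‖ ≤ (2 ^ 6 * (3 * M ^ 2) + P) * ρ := by
  intro W
  set K := 1 / (ρ * (ρ * a)) with hK
  set g0 := fun w => zt (simMap x0 ρ c sn w) with hg0d
  have hg0 : ContDiff ℝ ∞ g0 := hzt.comp (contDiff_simMap x0 ρ c sn)
  have hZ0c : ContDiff ℝ ∞ fun w => K * g0 w := contDiff_const.mul hg0
  have hnp : ContDiff ℝ ∞ fun w => (-1 : ℝ) * par w := contDiff_const.mul contDiff_par
  have hWc : ContDiff ℝ ∞ W := hZ0c.add hnp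
  have hball : ∀ u ∈ closedBall (0 : E2) 7, simMap x0 ρ c sn u ∈ ball x0 (23 / 2 * ρ) := by
    intro u hu
    rw [mem_closedBall, dist_zero_right] at hu
    have h1 : u.1 ^ 2 ≤ 7 ^ 2 := sq_le_sq' (abs_le.mp ((norm_fst_le u).trans hu)).1
      (abs_le.mp ((norm_fst_le u).trans hu)).2
    have h2 : u.2 ^ 2 ≤ 7 ^ 2 := sq_le_sq' (abs_le.mp ((norm_snd_le u).trans hu)).1
      (abs_le.mp ((norm_snd_le u).trans hu)).2
    have h3 : (c * u.1 - sn * u.2) ^ 2 + (sn * u.1 + c * u.2) ^ 2 = u.1 ^ 2 + u.2 ^ 2 := by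
      linear_combination (u.1 ^ 2 + u.2 ^ 2) * hcs
    have h4 : ‖rot c sn u‖ ≤ 10 := by
      rw [rot_apply, Prod.norm_def, max_le_iff, Real.norm_eq_abs, Real.norm_eq_abs]
      constructor <;> refine abs_le_of_sq_le_sq ?_ (by norm_num) <;>
        nlinarith only [h1, h2, h3, sq_nonneg (c * u.1 - sn * u.2),
          sq_nonneg (sn * u.1 + c * u.2)]
    rw [mem_ball, dist_eq_norm, simMap, add_sub_cancel_left, norm_smul, Real.norm_eq_abs,
      abs_of_pos hρ]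
    calc ρ * ‖rot c sn u‖ ≤ ρ * 10 := mul_le_mul_of_nonneg_left h4 hρ.le
      _ < 23 / 2 * ρ := by linarith
  have hs0 : simMap x0 ρ c sn 0 = x0 := by simp [simMap]
  have h0b : x0 ∈ ball x0 (23 / 2 * ρ) := mem_ball_self (by positivity)
  have hl0 := hloc x0 h0b
  obtain ⟨v1, v2, v11, v12, v22⟩ := scaled_calc (z := z) hzt x0 ρ (ρ * a) c sn hρ 0 (by rw [hs0]; exact hl0)
  simp only [hs0, ← haa, ← hbb, hoff, hz1, hz2, mul_zero, add_zero] at v1 v2 v11 v12 v22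
  have a2 : 0 ≤ P * ρ := (abs_nonneg _).trans hb
  refine ⟨hWc, ?_, ?_, ?_, ?_⟩
  · simp only [W, hs0, hl0.self_of_nhds, hz0, par]
    simp
  · refine norm_le_zero_iff.mp ((norm_clm_pair _).trans ?_)
    have e1 : fderiv ℝ W 0 (1, 0) = 0 := by
      show d1 W 0 = 0
      rw [(d_add_apply hZ0c hnp 0).1, v1, (d_const_mul contDiff_par (-1) 0).1, par_d1]
      simp
    have e2 : fderiv ℝ W 0 (0, 1) = 0 := by
      show d2 W 0 = 0
      rw [(d_add_apply hZ0c hnp 0).2, v2, (d_const_mul contDiff_par (-1) 0).2, par_d2]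
      simp
    rw [e1, e2]
    simp
  · refine (second_le_sum hWc 0).trans ?_
    obtain ⟨s1, s2, s3⟩ := second_add hZ0c hnp 0
    obtain ⟨c1, c2, c3⟩ := second_const_mul contDiff_par (-1) 0
    obtain ⟨q1, q2, q3⟩ := par_second 0
    rw [s1, s2, s3, v11, v12, v22, c1, c2, c3, q1, q2, q3]
    have e : ρ / (ρ * a) * a = 1 := by field_simp
    have e' : ρ / (ρ * a) * b = b / a := by field_simp
    rw [e, e']
    norm_num
    have : 0 ≤ 2 ^ 6 * (3 * M ^ 2) * ρ := by positivity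
    linarith
  · intro k hk3 hk6 u hu
    have hle : ((k : ℕ∞) : WithTop ℕ∞) ≤ ((⊤ : ℕ∞) : WithTop ℕ∞) := WithTop.coe_le_coe.mpr le_top
    have hWe : W = (fun w => K * g0 w) + (-1 : ℝ) • par := by funext w; simp [W, g0, K]
    have hnp' : ContDiff ℝ (k : ℕ∞) ((-1 : ℝ) • par) := (contDiff_par.of_le hle).const_smul (-1 : ℝ)
    rw [hWe, iteratedFDeriv_add_apply ((hZ0c.of_le hle).contDiffAt) hnp'.contDiffAt,
      iteratedFDeriv_const_smul_apply (contDiff_par.of_le hle).contDiffAt,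
      show iteratedFDeriv ℝ k par u = 0 from norm_eq_zero.mp (par_high hk3 u), smul_zero, add_zero,
      show (fun w => K * g0 w) = K • g0 from rfl,
      iteratedFDeriv_const_smul_apply (hg0.of_le hle).contDiffAt,
      norm_smul, Real.norm_eq_abs, abs_of_pos (by positivity : 0 < K)]
    have hy := hball u hu
    have hzk : ‖iteratedFDeriv ℝ k zt (simMap x0 ρ c sn u)‖ ≤ M := by
      rw [((hloc _ hy).iteratedFDeriv ℝ k).self_of_nhds]
      exact hzb k (by omega) hk6 _ hy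
    calc K * ‖iteratedFDeriv ℝ k g0 u‖ ≤ K * (M * (2 * ρ) ^ k) := by
          refine mul_le_mul_of_nonneg_left ?_ (by positivity)
          exact (norm_iterated_comp_sim hzt x0 hρ.le hcs k u).trans
            (mul_le_mul_of_nonneg_right hzk (by positivity))
      _ = 2 ^ k * (M / a) * ρ ^ (k - 2) := by
          obtain ⟨l, rfl⟩ : ∃ l, k = l + 2 := ⟨k - 2, by omega⟩
          rw [hK, Nat.add_sub_cancel, mul_pow]
          field_simp
          ring
      _ ≤ 2 ^ 6 * (3 * M ^ 2) * ρ ^ 1 := by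
          have hM : 0 ≤ M / a := div_nonneg ((norm_nonneg _).trans hzk) ha.le
          exact mul_le_mul (mul_le_mul (pow_le_pow_right₀ (by norm_num) hk6) hMa hM
            (by positivity)) (pow_le_pow_of_le_one hρ.le hρ1 (by omega)) (by positivity)
            (by positivity)
      _ ≤ (2 ^ 6 * (3 * M ^ 2) + P) * ρ := by rw [pow_one, add_mul]; linarith

/-- The geometry module. -/
theorem geomStmt : GeomStmt := by
  intro n hn M η hM hη
  obtain ⟨P0, hP0⟩ := psiBound n 0 (Nat.zero_le n)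
  obtain ⟨P2, hP2⟩ := psiBound n 2 (by omega)
  have hP0' : 0 ≤ P0 := le_trans (norm_nonneg _) (hP0 1 one_pos le_rfl 0)
  have hP2' : 0 ≤ P2 := le_trans (norm_nonneg _) (hP2 1 one_pos le_rfl 0)
  obtain ⟨Cc, hCc, hcut⟩ := cut_small
  set CA := 18 * M ^ 2 * P2 * Real.exp 2 with hCA
  set CG := Cc * (2 ^ 6 * (3 * M ^ 2) + CA) + 4 * M with hCG
  have hCG0 : 0 < CG := by positivity
  refine ⟨min 1 (η / CG), by positivity, fun ρ hρ hρ0 => ?_⟩
  have hρ1 : ρ ≤ 1 := hρ0.trans (min_le_left _ _)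
  have hρη : CG * ρ ≤ η := by
    have h1 : ρ ≤ η / CG := hρ0.trans (min_le_right _ _)
    rw [le_div_iff₀ hCG0] at h1
    linarith
  refine ⟨min (ρ ^ 3) (min (1 / (P0 + 1)) (η * ρ ^ 2 / (9 * M ^ 2))), by positivity,
    fun s hs hs0 => ?_⟩
  have hs3 : s ≤ ρ ^ 3 := hs0.trans (min_le_left _ _)
  have hsP : s ≤ 1 / (P0 + 1) := hs0.trans ((min_le_right _ _).trans (min_le_left _ _))
  have hsη : s ≤ η * ρ ^ 2 / (9 * M ^ 2) := hs0.trans ((min_le_right _ _).trans (min_le_right _ _))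
  refine ⟨s / (16 * M ^ 2 * ρ ^ 2), by positivity, fun δ hδ hδ1 x0 f hP => ?_⟩
  obtain ⟨hf, hconf, hbd, e0, he0, he01, he02, hlow⟩ := hP
  set U := ball x0 (12 * ρ) with hUd
  have hUo : IsOpen U := isOpen_ball
  have hx0 : x0 ∈ U := mem_ball_self (by positivity)
  obtain ⟨c, sn, ε, a, b, hcs, hε, hoff, haa, hbb, hab, halow, hahi⟩ :=
    axes ⟪e0, d1 (d1 f) x0⟫ ⟪e0, d2 (d1 f) x0⟫ ⟪e0, d2 (d2 f) x0⟫ M hM hlow
  set e : E3 := ε • e0 with hed
  have he : ‖e‖ = 1 := by rw [hed, norm_smul, he0, Real.norm_eq_abs, hε, one_mul]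
  have hei : ∀ v, ⟪e, v⟫ = ε * ⟪e0, v⟫ := fun v => real_inner_smul_left e0 v ε
  set z := fun y => ⟪e, f y - f x0⟫ with hz
  obtain ⟨z1, z2, z11, z12, z22⟩ := inner_second hUo hf e (f x0) hx0
  rw [← hz] at z1 z2 z11 z12 z22
  rw [hei, he01, mul_zero] at z1
  rw [hei, he02, mul_zero] at z2
  rw [hei] at z11 z12 z22
  rw [← z11, ← z12, ← z22] at hoff haa hbb hab
  have hapos : 0 < a := lt_of_lt_of_le (by positivity) halow
  have hMa : 1 ≤ 3 * M * a := by rw [div_le_iff₀ (by positivity)] at halow; linarith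
  have hMa' : M / a ≤ 3 * M ^ 2 := by
    rw [div_le_iff₀ hapos]
    calc M = M * 1 := (mul_one M).symm
      _ ≤ M * (3 * M * a) := mul_le_mul_of_nonneg_left hMa hM.le
      _ = 3 * M ^ 2 * a := by ring
  have hzb : ∀ k : ℕ, 1 ≤ k → k ≤ 6 → ∀ y ∈ U, ‖iteratedFDeriv ℝ k z y‖ ≤ M :=
    fun k hk hk6 y hy => inner_bounds (hf.contDiffAt (hUo.mem_nhds hy)) he _ hk (hbd k hk hk6 y hy)
  obtain ⟨zt, hzt, hloc⟩ := extend_ball hρ
    (show ContDiffOn ℝ ∞ z U from contDiffOn_const.inner ℝ (hf.sub contDiffOn_const))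
  set σ := patchSig n δ s ρ x0 with hσd
  have hσ : ContDiff ℝ ∞ σ := contDiff_patchSig n δ s ρ x0
  have hconf' : ∀ x ∈ U, ⟪d1 f x, d1 f x⟫ = Real.exp (2 * σ x) ∧ ⟪d1 f x, d2 f x⟫ = 0 ∧
      ⟪d2 f x, d2 f x⟫ = Real.exp (2 * σ x) := fun x hx => by
    rw [hσd, patchSig_eq]; exact hconf x hx
  have hdar := darboux hUo hf hσ hconf' he (f x0)
  -- the small eigenvalue
  obtain ⟨S1, S2, S3⟩ := patchSig_calc n δ s x0 x0 0 (ρ := ρ) (by simp [simMap])
  have hψ0 : |psi n δ 0| ≤ P0 := by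
    have := hP0 δ hδ hδ1 0
    rwa [norm_iteratedFDeriv_zero, Real.norm_eq_abs] at this
  have hlapψ : |lap (psi n δ) 0| ≤ 2 * P2 := by
    obtain ⟨q1, -, q3⟩ := abs_second_le (contDiff_psi n δ) (0 : E2)
    have := hP2 δ hδ hδ1 0
    refine (abs_add_le _ _).trans ?_
    linarith
  have hσ0 : σ x0 = s * psi n δ 0 := by simp [hσd, patchSig, simMap]
  have hexp : Real.exp (2 * σ x0) ≤ Real.exp 2 := by
    apply Real.exp_le_exp.mpr
    rw [hσ0]
    have h1 : s * psi n δ 0 ≤ s * P0 := mul_le_mul_of_nonneg_left (abs_le.mp hψ0).2 hs.le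
    rw [le_div_iff₀ (by positivity)] at hsP
    linarith
  have hbsmall : |b / a| ≤ CA * ρ := by
    have hd := hdar x0 hx0
    simp only [H11, H12, H22] at hd
    rw [← hz, z1, z2] at hd
    simp only [mul_zero, sub_zero, add_zero] at hd
    have hz' : d1 (d1 z) x0 * d2 (d2 z) x0 - d2 (d1 z) x0 ^ 2
        = -lap σ x0 * Real.exp (2 * σ x0) := by rw [hd]; ring
    have hdet : |a * b| ≤ s / ρ ^ 2 * (2 * P2) * Real.exp 2 := by
      rw [hab, hz', abs_mul, abs_neg, hσd, S3, abs_mul, Real.abs_exp,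
        abs_of_nonneg (by positivity : (0:ℝ) ≤ s / ρ ^ 2)]
      gcongr
    have h9 : |b / a| ≤ 9 * M ^ 2 * |a * b| := by
      rw [show b / a = (1 / a) ^ 2 * (a * b) by field_simp, abs_mul, abs_pow,
        abs_of_pos (by positivity : (0:ℝ) < 1 / a), show (9 : ℝ) * M ^ 2 = (3 * M) ^ 2 by ring]
      refine mul_le_mul_of_nonneg_right (pow_le_pow_left₀ (by positivity) ?_ 2) (abs_nonneg _)
      rw [div_le_iff₀ hapos]; linarith
    calc |b / a| ≤ 9 * M ^ 2 * (s / ρ ^ 2 * (2 * P2) * Real.exp 2) :=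
          h9.trans (mul_le_mul_of_nonneg_left hdet (by positivity))
      _ = CA * (s / ρ ^ 2) := by rw [hCA]; ring
      _ ≤ CA * ρ := by
          refine mul_le_mul_of_nonneg_left ?_ (by positivity)
          rw [div_le_iff₀ (by positivity), show ρ * ρ ^ 2 = ρ ^ 3 by ring]
          exact hs3
  obtain ⟨hW, hW0, hW1, hW2, hW3⟩ := dev_bounds hzt hρ hρ1 hapos hMa' hcs hloc
    (fun k hk hk6 y hy => hzb k hk hk6 y (ball_subset_ball (by linarith) hy))
    (by simp [z]) z1 z2 hoff haa hbb hbsmall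
  set lam := ρ * a with hlam
  set W := fun w => 1 / (ρ * lam) * zt (simMap x0 ρ c sn w) + (-1) * par w with hWd
  have hprod : ∀ k ≤ 6, ∀ u, ‖iteratedFDeriv ℝ k (fun w => cut7 w * W w) u‖ ≤ η := fun k hk u =>
    (hcut W _ (by positivity) hW hW0 hW1 hW2 hW3 k hk u).trans (le_trans
      (by rw [hCG, add_mul, mul_assoc]; linarith [show 0 ≤ 4 * M * ρ by positivity]) hρη)
  have hχW : ContDiff ℝ ∞ fun w => cut7 w * W w := cut7.contDiff.mul hW
  set Z := fun w => par w + cut7 w * W w with hZ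
  have hlZ : ∀ u ∈ ball (0 : E2) (11 / 2),
      Z =ᶠ[𝓝 u] fun w => 1 / (ρ * lam) * zt (simMap x0 ρ c sn w) := fun u hu =>
    eventuallyEq_of_mem (isOpen_ball.mem_nhds hu) fun w hw => by
      simp only [Z, W, cut7.one_of_mem_closedBall (ball_subset_closedBall hw)]; ring
  have hs0' : simMap x0 ρ c sn 0 = x0 := by simp [simMap]
  obtain ⟨v1, v2, v11, v12, v22⟩ := scaled_calc (z := z) hzt x0 ρ lam c sn hρ 0
    (by rw [hs0']; exact hloc x0 (mem_ball_self (by positivity)))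
  simp only [hs0'] at v1 v2 v11 v12 v22
  obtain ⟨l1, l2, l11, l12, l22⟩ := d_congr_all (hlZ 0 (mem_ball_self (by norm_num)))
  have ha4 : a ≤ 4 * M := by
    refine hahi M ?_ ?_ ?_ <;>
    · have h := hbd 2 (by norm_num) (by norm_num) x0 hx0
      have hz2 : ‖iteratedFDeriv ℝ 2 zt x0‖ ≤ M := by
        rw [((hloc x0 (mem_ball_self (by positivity))).iteratedFDeriv ℝ 2).self_of_nhds]
        exact hzb 2 (by norm_num) (by norm_num) x0 hx0
      obtain ⟨-, -, k11, k12, k22⟩ := d_congr_all (hloc x0 (mem_ball_self (by positivity)))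
      obtain ⟨q1, q2, q3⟩ := abs_second_le hzt x0
      rw [k11, z11, abs_mul, hε, one_mul] at q1
      rw [k12, z12, abs_mul, hε, one_mul] at q2
      rw [k22, z22, abs_mul, hε, one_mul] at q3
      linarith
  refine ⟨s / lam ^ 2, lam, Z, ?_, ?_, by positivity, ?_,
    ⟨contDiff_par.add hχW, ?_, ?_, ?_, ?_, ?_, ?_, ?_, ?_⟩⟩
  · refine div_le_div_of_nonneg_left hs.le (by positivity) ?_
    rw [hlam, mul_pow]
    calc ρ ^ 2 * a ^ 2 ≤ ρ ^ 2 * (4 * M) ^ 2 := by gcongr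
      _ = 16 * M ^ 2 * ρ ^ 2 := by ring
  · rw [hlam, div_le_iff₀ (by positivity)]
    rw [le_div_iff₀ (by positivity)] at hsη
    have h9 : 1 ≤ 9 * M ^ 2 * a ^ 2 := by
      calc (1 : ℝ) = 1 ^ 2 := (one_pow 2).symm
        _ ≤ (3 * M * a) ^ 2 := pow_le_pow_left₀ zero_le_one hMa 2
        _ = 9 * M ^ 2 * a ^ 2 := by ring
    calc s = s * 1 := (mul_one s).symm
      _ ≤ s * (9 * M ^ 2 * a ^ 2) := mul_le_mul_of_nonneg_left h9 hs.le
      _ = s * (9 * M ^ 2) * a ^ 2 := by ring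
      _ ≤ η * ρ ^ 2 * a ^ 2 := mul_le_mul_of_nonneg_right hsη (sq_nonneg a)
      _ = η * (ρ * a) ^ 2 := by ring
  · refine le_trans ?_ hρη
    rw [hlam, mul_comm ρ a]
    refine mul_le_mul_of_nonneg_right (ha4.trans ?_) hρ.le
    rw [hCG]
    exact le_add_of_nonneg_left (by positivity)
  · rw [l1, v1, z1, z2]; ring
  · rw [l2, v2, z1, z2]; ring
  · rw [l12, v12, hoff, mul_zero]
  · intro u
    rw [(second_add contDiff_par hχW u).1, (par_second u).1, add_sub_cancel_left]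
    exact (abs_second_le hχW u).1.trans (hprod 2 (by norm_num) u)
  · intro u
    rw [(second_add contDiff_par hχW u).2.1, (par_second u).2.1, zero_add]
    exact (abs_second_le hχW u).2.1.trans (hprod 2 (by norm_num) u)
  · intro u
    rw [(second_add contDiff_par hχW u).2.2, (par_second u).2.2, zero_add]
    exact (abs_second_le hχW u).2.2.trans (hprod 2 (by norm_num) u)
  · intro k hk3 hk6 u
    have hle : ((k : ℕ∞) : WithTop ℕ∞) ≤ ((⊤ : ℕ∞) : WithTop ℕ∞) := WithTop.coe_le_coe.mpr le_top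
    rw [show Z = par + fun w => cut7 w * W w from rfl,
      iteratedFDeriv_add_apply (contDiff_par.of_le hle).contDiffAt (hχW.of_le hle).contDiffAt,
      show iteratedFDeriv ℝ k par u = 0 from norm_eq_zero.mp (par_high hk3 u), zero_add]
    exact hprod k hk6 u
  · intro u hu
    have hu55 : u ∈ ball (0 : E2) (11 / 2) := by
      rw [mem_ball, dist_zero_right, Prod.norm_def, max_lt_iff, Real.norm_eq_abs, Real.norm_eq_abs]
      exact ⟨lt_trans hu.1 (by norm_num), lt_trans hu.2 (by norm_num)⟩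
    set x := simMap x0 ρ c sn u with hx
    have hxb : x ∈ ball x0 (23 / 2 * ρ) := by
      rw [mem_ball, dist_eq_norm, hx, simMap, add_sub_cancel_left, norm_smul, Real.norm_eq_abs,
        abs_of_pos hρ]
      have h1 : u.1 ^ 2 ≤ 5 ^ 2 := sq_le_sq' (abs_le.mp hu.1.le).1 (abs_le.mp hu.1.le).2
      have h2 : u.2 ^ 2 ≤ 5 ^ 2 := sq_le_sq' (abs_le.mp hu.2.le).1 (abs_le.mp hu.2.le).2
      have h3 : (c * u.1 - sn * u.2) ^ 2 + (sn * u.1 + c * u.2) ^ 2 = u.1 ^ 2 + u.2 ^ 2 := by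
        linear_combination (u.1 ^ 2 + u.2 ^ 2) * hcs
      have h4 : ‖rot c sn u‖ ≤ 10 := by
        rw [rot_apply, Prod.norm_def, max_le_iff, Real.norm_eq_abs, Real.norm_eq_abs]
        constructor <;> refine abs_le_of_sq_le_sq ?_ (by norm_num) <;>
          nlinarith only [h1, h2, h3, sq_nonneg (c * u.1 - sn * u.2),
            sq_nonneg (sn * u.1 + c * u.2)]
      calc ρ * ‖rot c sn u‖ ≤ ρ * 10 := mul_le_mul_of_nonneg_left h4 hρ.le
        _ < 23 / 2 * ρ := by linarith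
    have hd := hdar x (ball_subset_ball (by linarith) hxb)
    rw [← hz] at hd
    obtain ⟨w1, w2, w11, w12, w22⟩ := scaled_calc (z := z) hzt x0 ρ lam c sn hρ u (hloc x hxb)
    obtain ⟨g1, g2, g11, g12, g22⟩ := d_congr_all (hlZ u hu55)
    obtain ⟨y0, y1, y2, y3⟩ := psi_rot n δ hcs u
    have hxv : simMap (-((1 / ρ) • x0)) (1 / ρ) 1 0 x = rot c sn u := by
      rw [hx]
      simp only [simMap, rot_apply]
      ext <;> simp <;> field_simp <;> ring
    obtain ⟨t1, t2, t3⟩ := patchSig_calc n δ s x0 x (rot c sn u) hxv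
    rw [← hσd] at t1 t2 t3
    have sval : σ x = s * psi n δ (rot c sn u) := by rw [hσd, patchSig, hxv]
    simp only [H11, H12, H22, one_mul] at hd
    rw [t1, t2, t3, sval] at hd
    have hts : s / lam ^ 2 * lam ^ 2 = s := by rw [hlam]; field_simp
    simp only [H11, H12, H22, hts]
    rw [g1, g2, g11, g12, g22, w1, w2, w11, w12, w22, y1, y2, y3, y0,
      show 2 * s * psi n δ (rot c sn u) = 2 * (s * psi n δ (rot c sn u)) by ring]
    simp only [← hx]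
    have key := eqn_transfer (lam := lam) hρ (by positivity) hcs
      (p1 := d1 z x) (p2 := d2 z x) (q1 := d1 (psi n δ) (rot c sn u))
      (q2 := d2 (psi n δ) (rot c sn u)) (A := d1 (d1 z) x) (B := d2 (d1 z) x) (C := d2 (d2 z) x)
      (T := lap (psi n δ) (rot c sn u)) (G := Real.exp (2 * (s * psi n δ (rot c sn u)))) hd
    exact key

end Vale.Agent.P229.Geom
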