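import Vale.Agent.P229.Jet

/-!
P229: weighted bounds for compositions, and the two top terms of their derivatives.
-/

namespace Vale.Agent.P229

open Set Finset
open scoped ContDiff Topology

variable {E G : Type} [NormedAddCommGroup E] [NormedSpace ℝ E]
  [NormedAddCommGroup G] [NormedSpace ℝ G]
variable {I : Set ℝ} {Ω : Set E}

lemma contDiffOn_iteratedDeriv {f : ℝ → E} (hI : IsOpen I) (hf : ContDiffOn ℝ ∞ f I) (k : ℕ) :
    ContDiffOn ℝ ∞ (iteratedDeriv k f) I := by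
  induction k with
  | zero => simpa using hf
  | succ k ih =>
    rw [iteratedDeriv_succ]
    exact ih.deriv_of_isOpen hI le_rfl

lemma hasDerivAt_iteratedDeriv {f : ℝ → E} (hI : IsOpen I) (hf : ContDiffOn ℝ ∞ f I) (k : ℕ)
    {x : ℝ} (hx : x ∈ I) :
    HasDerivAt (iteratedDeriv k f) (iteratedDeriv (k + 1) f x) x := by
  have h := (contDiffOn_iteratedDeriv hI hf k).contDiffAt (hI.mem_nhds hx)
  have h2 := (h.differentiableAt (by simp)).hasDerivAt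
  rwa [← iteratedDeriv_succ] at h2

lemma hasDerivAt_comp {Φ : E → G} {J : ℝ → E} (hΩ : IsOpen Ω) (hΦ : ContDiffOn ℝ ∞ Φ Ω)
    (hI : IsOpen I) (hJ : ContDiffOn ℝ ∞ J I) (hm : MapsTo J I Ω) {x : ℝ} (hx : x ∈ I) :
    HasDerivAt (fun y => Φ (J y)) (fderiv ℝ Φ (J x) (deriv J x)) x := by
  have h1 := ((hΦ.contDiffAt (hΩ.mem_nhds (hm hx))).differentiableAt (by simp)).hasFDerivAt
  have h2 := hasDerivAt_iteratedDeriv hI hJ 0 hx
  rw [iteratedDeriv_zero, zero_add, iteratedDeriv_one] at h2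
  exact h1.comp_hasDerivAt x h2

lemma comp_bound_aux (C0 Cj : ℝ) (hCj : 0 ≤ Cj) (hΩ : IsOpen Ω) {K : Set E} (hK : IsCompact K)
    (hKΩ : K ⊆ Ω) (i : ℕ) :
    ∀ (G : Type) [NormedAddCommGroup G] [NormedSpace ℝ G] (Φ : E → G), ContDiffOn ℝ ∞ Φ Ω →
    ∃ C : ℝ, 0 ≤ C ∧ ∀ (U : ℕ → ℝ) (L : ℕ) (J : ℝ → E) (I : Set ℝ) (p : ℝ),
      Wt U L C0 → IsOpen I → p ∈ I → ContDiffOn ℝ ∞ J I → MapsTo J I Ω → J p ∈ K →
      Good U L 0 Cj J p →
      ∀ k ≤ i, k ≤ L → ‖iteratedDeriv k (fun x => Φ (J x)) p‖ ≤ C * U k := by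
  induction i with
  | zero =>
    intro G _ _ Φ hΦ
    obtain ⟨C, hC⟩ := hK.exists_bound_of_continuousOn (hΦ.continuousOn.mono hKΩ)
    refine ⟨max C 0, le_max_right _ _, fun U L J I p hU hI hp hJ hm hJK hg k hk hkL => ?_⟩
    obtain rfl : k = 0 := by omega
    rw [iteratedDeriv_zero]
    calc ‖Φ (J p)‖ ≤ max C 0 * 1 := by
          rw [mul_one]; exact (hC _ hJK).trans (le_max_left _ _)
      _ ≤ max C 0 * U 0 := mul_le_mul_of_nonneg_left (hU.one_le 0 hkL) (le_max_right _ _)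
  | succ i ih =>
    intro G _ _ Φ hΦ
    obtain ⟨C1, hC1, h1⟩ := ih G Φ hΦ
    obtain ⟨C2, hC2, h2⟩ := ih (E →L[ℝ] G) (fderiv ℝ Φ) (hΦ.fderiv_of_isOpen hΩ le_rfl)
    set B := ContinuousLinearMap.id ℝ (E →L[ℝ] G)
    refine ⟨max C1 (‖B‖ * 2 ^ (i + 1) * C2 * Cj * C0), le_max_of_le_left hC1, ?_⟩
    intro U L J I p hU hI hp hJ hm hJK hg k hk hkL
    rcases Nat.lt_or_ge k (i + 1) with hlt | hge
    · exact (h1 U L J I p hU hI hp hJ hm hJK hg k (by omega) hkL).trans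
        (mul_le_mul_of_nonneg_right (le_max_left _ _) (hU.pos hkL).le)
    obtain rfl : k = i + 1 := by omega
    have hU' : Wt U (i + 1) C0 :=
      ⟨fun a ha => hU.one_le a (ha.trans hkL), fun a b hab hb => hU.mono a b hab (hb.trans hkL),
        fun a b l ha hb hl hs => hU.mult a b l ha hb (hl.trans hkL) hs⟩
    have hA : Good U (i + 1) 1 C2 (fun x => fderiv ℝ Φ (J x)) p := fun a ha =>
      (h2 U L J I p hU hI hp hJ hm hJK hg a (by omega) (by omega)).trans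
        (mul_le_mul_of_nonneg_left (hU.mono a (1 + a) (by omega) (by omega)) hC2)
    have hJ' : Good U (i + 1) 1 Cj (deriv J) p := fun a ha => hg.deriv a (by omega)
    have hA' : ContDiffOn ℝ ∞ (fun x => fderiv ℝ Φ (J x)) I :=
      (hΦ.fderiv_of_isOpen hΩ le_rfl).comp hJ hm
    have hb := Good.bilin (q := 1) hU' B hI hp hA' (hJ.deriv_of_isOpen hI le_rfl) hC2 hCj hA hJ'
      le_rfl le_rfl (by omega) i (by omega)
    have e : deriv (fun x => Φ (J x)) =ᶠ[𝓝 p] fun x => (B (fderiv ℝ Φ (J x))) (deriv J x) :=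
      Filter.eventuallyEq_of_mem (hI.mem_nhds hp) fun x hx =>
        (hasDerivAt_comp hΩ hΦ hI hJ hm hx).deriv
    rw [iteratedDeriv_succ', e.iteratedDeriv_eq, show i + 1 = 1 + i by omega]
    refine hb.trans (mul_le_mul_of_nonneg_right ?_ (hU.pos (by omega)).le)
    rw [show (1 + i : ℕ) = i + 1 by omega]
    exact le_max_right _ _

/-- Compositions with a fixed smooth map keep the weight zero. -/
theorem comp_bound (L : ℕ) (C0 Cj : ℝ) (hCj : 0 ≤ Cj) (hΩ : IsOpen Ω) {K : Set E}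
    (hK : IsCompact K) (hKΩ : K ⊆ Ω) {Φ : E → G} (hΦ : ContDiffOn ℝ ∞ Φ Ω) :
    ∃ C : ℝ, 0 ≤ C ∧ ∀ (U : ℕ → ℝ) (J : ℝ → E) (I : Set ℝ) (p : ℝ),
      Wt U L C0 → IsOpen I → p ∈ I → ContDiffOn ℝ ∞ J I → MapsTo J I Ω → J p ∈ K →
      Good U L 0 Cj J p → Good U L 0 C (fun x => Φ (J x)) p := by
  obtain ⟨C, hC, h⟩ := comp_bound_aux C0 Cj hCj hΩ hK hKΩ L G Φ hΦ
  refine ⟨C, hC, fun U J I p hU hI hp hJ hm hJK hg i hi => ?_⟩
  rw [Nat.zero_add] at hi ⊢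
  exact h U L J I p hU hI hp hJ hm hJK hg i hi hi

/-- Evaluation of a curve of linear maps on a curve of vectors. -/
lemma Good.apply {E H : Type} [NormedAddCommGroup E] [NormedSpace ℝ E] [NormedAddCommGroup H]
    [NormedSpace ℝ H] {U : ℕ → ℝ} {L r s q : ℕ} {C C' C0 p : ℝ} {I : Set ℝ}
    (hU : Wt U L C0) {f : ℝ → E →L[ℝ] H} {g : ℝ → E}
    (hI : IsOpen I) (hp : p ∈ I) (hf' : ContDiffOn ℝ ∞ f I) (hg' : ContDiffOn ℝ ∞ g I)
    (hC : 0 ≤ C) (hC' : 0 ≤ C') (hf : Good U L r C f p) (hg : Good U L s C' g p)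
    (hrq : r ≤ q) (hsq : s ≤ q) (hrs : r + s ≤ q + 3) :
    Good U L q (2 ^ L * C * C' * C0) (fun x => f x (g x)) p := by
  have h := Good.bilin (q := q) hU (ContinuousLinearMap.id ℝ (E →L[ℝ] H)) hI hp hf' hg' hC hC'
    hf hg hrq hsq hrs
  refine Good.mono_const hU h ?_
  have := hU.C0_pos.le
  have h1 : 0 ≤ 2 ^ L * C * C' * C0 := by positivity
  calc _ = ‖ContinuousLinearMap.id ℝ (E →L[ℝ] H)‖ * (2 ^ L * C * C' * C0) := by ring
    _ ≤ 1 * (2 ^ L * C * C' * C0) :=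
      mul_le_mul_of_nonneg_right ContinuousLinearMap.norm_id_le h1
    _ = _ := one_mul _

/-- A derivative of a composition without its two top terms. -/
noncomputable def topRest (Φ : E → G) (J : ℝ → E) (m : ℕ) (x : ℝ) : G :=
  iteratedDeriv m (fun y => Φ (J y)) x - fderiv ℝ Φ (J x) (iteratedDeriv m J x)
    - (m : ℝ) • fderiv ℝ (fderiv ℝ Φ) (J x) (deriv J x) (iteratedDeriv (m - 1) J x)

/-- The first correction term of the recursion. -/
noncomputable def corrTerm (Φ : E → G) (J : ℝ → E) (m : ℕ) (x : ℝ) : G :=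
  fderiv ℝ (fderiv ℝ (fderiv ℝ Φ)) (J x) (deriv J x) (deriv J x) (iteratedDeriv (m - 1) J x)
    + fderiv ℝ (fderiv ℝ Φ) (J x) (iteratedDeriv 2 J x) (iteratedDeriv (m - 1) J x)

lemma topRest_succ {Φ : E → G} {J : ℝ → E} (hΩ : IsOpen Ω) (hΦ : ContDiffOn ℝ ∞ Φ Ω)
    (hI : IsOpen I) (hJ : ContDiffOn ℝ ∞ J I) (hm : MapsTo J I Ω) {m : ℕ} (hm1 : 1 ≤ m)
    {x : ℝ} (hx : x ∈ I) :
    topRest Φ J (m + 1) x = deriv (topRest Φ J m) x + (m : ℝ) • corrTerm Φ J m x := by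
  have hF1 := hΦ.fderiv_of_isOpen hΩ (m := ∞) le_rfl
  have hF2 := hF1.fderiv_of_isOpen hΩ (m := ∞) le_rfl
  have hc : ContDiffOn ℝ ∞ (fun y => Φ (J y)) I := hΦ.comp hJ hm
  have d0 := hasDerivAt_iteratedDeriv hI hc m hx
  have d1 := (hasDerivAt_comp hΩ hF1 hI hJ hm hx).clm_apply (hasDerivAt_iteratedDeriv hI hJ m hx)
  have dJ : HasDerivAt (deriv J) (iteratedDeriv 2 J x) x := by
    have := hasDerivAt_iteratedDeriv hI hJ 1 hx
    rwa [iteratedDeriv_one] at this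
  have d2 := ((hasDerivAt_comp hΩ hF2 hI hJ hm hx).clm_apply dJ).clm_apply
    (hasDerivAt_iteratedDeriv hI hJ (m - 1) hx)
  have d : HasDerivAt (topRest Φ J m) _ x := (d0.sub d1).sub (d2.const_smul (m : ℝ))
  rw [d.deriv, show m - 1 + 1 = m by omega]
  simp only [topRest, corrTerm, Nat.add_sub_cancel, _root_.add_apply, smul_add]
  push_cast
  rw [add_smul, one_smul]
  abel

lemma topRest_three {Φ : E → G} {J : ℝ → E} (hΩ : IsOpen Ω) (hΦ : ContDiffOn ℝ ∞ Φ Ω)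
    (hI : IsOpen I) (hJ : ContDiffOn ℝ ∞ J I) (hm : MapsTo J I Ω) {x : ℝ} (hx : x ∈ I) :
    topRest Φ J 3 x
      = fderiv ℝ (fderiv ℝ (fderiv ℝ Φ)) (J x) (deriv J x) (deriv J x) (deriv J x) := by
  have hF1 := hΦ.fderiv_of_isOpen hΩ (m := ∞) le_rfl
  have h1 : ∀ y ∈ I, topRest Φ J 1 y
      = -fderiv ℝ (fderiv ℝ Φ) (J y) (deriv J y) (J y) := by
    intro y hy
    simp [topRest, iteratedDeriv_one, (hasDerivAt_comp hΩ hΦ hI hJ hm hy).deriv]
  have dJ : ∀ y ∈ I, HasDerivAt (deriv J) (iteratedDeriv 2 J y) y := fun y hy => by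
    have := hasDerivAt_iteratedDeriv hI hJ 1 hy
    rwa [iteratedDeriv_one] at this
  have h2 : ∀ y ∈ I, topRest Φ J 2 y
      = -fderiv ℝ (fderiv ℝ Φ) (J y) (deriv J y) (deriv J y) := by
    intro y hy
    have e : iteratedDeriv 2 (fun z => Φ (J z)) y
        = fderiv ℝ (fderiv ℝ Φ) (J y) (deriv J y) (deriv J y)
          + fderiv ℝ Φ (J y) (iteratedDeriv 2 J y) := by
      have e1 : deriv (fun z => Φ (J z)) =ᶠ[𝓝 y] fun z => fderiv ℝ Φ (J z) (deriv J z) :=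
        Filter.eventuallyEq_of_mem (hI.mem_nhds hy) fun z hz =>
          (hasDerivAt_comp hΩ hΦ hI hJ hm hz).deriv
      rw [iteratedDeriv_succ, iteratedDeriv_one, e1.deriv_eq]
      exact ((hasDerivAt_comp hΩ hF1 hI hJ hm hy).clm_apply (dJ y hy)).deriv
    simp only [topRest, e, iteratedDeriv_one, show (2 : ℕ) - 1 = 1 from rfl]
    push_cast
    rw [two_smul]
    abel
  have hF2 := hF1.fderiv_of_isOpen hΩ (m := ∞) le_rfl
  have hsym : IsSymmSndFDerivAt ℝ Φ (J x) :=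
    (hΦ.contDiffAt (hΩ.mem_nhds (hm hx))).isSymmSndFDerivAt (by
      rw [minSmoothness_of_isRCLikeNormedField]
      exact WithTop.coe_le_coe.mpr (le_top : (2 : ℕ∞) ≤ ⊤))
  have e2 : topRest Φ J 2 =ᶠ[𝓝 x]
      fun y => -fderiv ℝ (fderiv ℝ Φ) (J y) (deriv J y) (deriv J y) :=
    Filter.eventuallyEq_of_mem (hI.mem_nhds hx) h2
  rw [topRest_succ hΩ hΦ hI hJ hm (m := 2) (by omega) hx, e2.deriv_eq]
  have dd := (((hasDerivAt_comp hΩ hF2 hI hJ hm hx).clm_apply (dJ x hx)).clm_apply (dJ x hx)).neg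
  rw [HasDerivAt.deriv (f := fun y => -fderiv ℝ (fderiv ℝ Φ) (J y) (deriv J y) (deriv J y)) dd]
  simp only [corrTerm, show (2 : ℕ) - 1 = 1 from rfl, iteratedDeriv_one,
    ContinuousLinearMap.add_apply, hsym.eq (deriv J x) (iteratedDeriv 2 J x)]
  push_cast
  rw [two_smul]
  abel

lemma contDiffOn_topRest {Φ : E → G} {J : ℝ → E} (hΩ : IsOpen Ω) (hΦ : ContDiffOn ℝ ∞ Φ Ω)
    (hI : IsOpen I) (hJ : ContDiffOn ℝ ∞ J I) (hm : MapsTo J I Ω) (m : ℕ) :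
    ContDiffOn ℝ ∞ (topRest Φ J m) I := by
  have hF1 := hΦ.fderiv_of_isOpen hΩ (m := ∞) le_rfl
  have hF2 := hF1.fderiv_of_isOpen hΩ (m := ∞) le_rfl
  exact (((contDiffOn_iteratedDeriv hI (hΦ.comp hJ hm) m).sub
      ((hF1.comp hJ hm).clm_apply (contDiffOn_iteratedDeriv hI hJ m))).sub
    ((((hF2.comp hJ hm).clm_apply (hJ.deriv_of_isOpen hI le_rfl)).clm_apply
      (contDiffOn_iteratedDeriv hI hJ (m - 1))).const_smul (m : ℝ)))

/-- The rest after the two top terms has weight `m - 2`. -/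
theorem topRest_good (L : ℕ) (C0 Cj : ℝ) (hC0 : 0 ≤ C0) (hCj : 0 ≤ Cj) (hΩ : IsOpen Ω)
    {K : Set E} (hK : IsCompact K) (hKΩ : K ⊆ Ω) {Φ : E → G} (hΦ : ContDiffOn ℝ ∞ Φ Ω)
    (m : ℕ) (hm3 : 3 ≤ m) :
    ∃ C : ℝ, 0 ≤ C ∧ ∀ (U : ℕ → ℝ) (J : ℝ → E) (I : Set ℝ) (p : ℝ),
      Wt U L C0 → IsOpen I → p ∈ I → ContDiffOn ℝ ∞ J I → MapsTo J I Ω → J p ∈ K →
      Good U L 0 Cj J p → Good U L (m - 2) C (topRest Φ J m) p := by
  have hF1 := hΦ.fderiv_of_isOpen hΩ (m := ∞) le_rfl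
  have hF2 := hF1.fderiv_of_isOpen hΩ (m := ∞) le_rfl
  have hF3 := hF2.fderiv_of_isOpen hΩ (m := ∞) le_rfl
  obtain ⟨C2, hC2, b2⟩ := comp_bound L C0 Cj hCj hΩ hK hKΩ hF2
  obtain ⟨C3, hC3, b3⟩ := comp_bound L C0 Cj hCj hΩ hK hKΩ hF3
  set K3 := 2 ^ L * C3 * Cj * C0
  set K2 := 2 ^ L * K3 * Cj * C0
  set K1 := 2 ^ L * K2 * Cj * C0
  set M2 := 2 ^ L * C2 * Cj * C0
  set M1 := 2 ^ L * M2 * Cj * C0
  have n3 : 0 ≤ K3 := by positivity
  have n2 : 0 ≤ K2 := by positivity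
  have n1 : 0 ≤ K1 := by positivity
  have p2 : 0 ≤ M2 := by positivity
  have p1 : 0 ≤ M1 := by positivity
  induction m, hm3 using Nat.le_induction with
  | base =>
    refine ⟨K1, n1, fun U J I p hU hI hp hJ hm hJK hg => ?_⟩
    have hd := hJ.deriv_of_isOpen hI (m := ∞) le_rfl
    have g3 := Good.apply (q := 1) hU hI hp (hF3.comp hJ hm) hd hC3 hCj
      (b3 U J I p hU hI hp hJ hm hJK hg) hg.deriv (by omega) le_rfl (by omega)
    have g2 := Good.apply (q := 1) hU hI hp ((hF3.comp hJ hm).clm_apply hd) hd n3 hCj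
      g3 hg.deriv le_rfl le_rfl (by omega)
    have g1 := Good.apply (q := 1) hU hI hp (((hF3.comp hJ hm).clm_apply hd).clm_apply hd) hd
      n2 hCj g2 hg.deriv le_rfl le_rfl (by omega)
    exact g1.congr hI hp fun x hx => (topRest_three hΩ hΦ hI hJ hm hx).symm
  | succ m hm ih =>
    obtain ⟨C, hC, hT⟩ := ih
    refine ⟨C + |(m : ℝ)| * (K1 + M1), by positivity, fun U J I p hU hI hp hJ hmp hJK hg => ?_⟩
    have hd := hJ.deriv_of_isOpen hI (m := ∞) le_rfl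
    have h2' := contDiffOn_iteratedDeriv hI hJ 2
    have hk' := contDiffOn_iteratedDeriv hI hJ (m - 1)
    have hk : Good U L (m - 1) Cj (iteratedDeriv (m - 1) J) p := by
      simpa using hg.iterDeriv (m - 1)
    have hj2 : Good U L 2 Cj (iteratedDeriv 2 J) p := by simpa using hg.iterDeriv 2
    have g3 := Good.apply (q := 1) hU hI hp (hF3.comp hJ hmp) hd hC3 hCj
      (b3 U J I p hU hI hp hJ hmp hJK hg) hg.deriv (by omega) le_rfl (by omega)
    have g2 := Good.apply (q := 1) hU hI hp ((hF3.comp hJ hmp).clm_apply hd) hd n3 hCj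
      g3 hg.deriv le_rfl le_rfl (by omega)
    have g1 := Good.apply (q := m - 1) hU hI hp
      (((hF3.comp hJ hmp).clm_apply hd).clm_apply hd) hk' n2 hCj g2 hk (by omega) le_rfl (by omega)
    have e2 := Good.apply (q := 2) hU hI hp (hF2.comp hJ hmp) h2' hC2 hCj
      (b2 U J I p hU hI hp hJ hmp hJK hg) hj2 (by omega) le_rfl (by omega)
    have e1 := Good.apply (q := m - 1) hU hI hp ((hF2.comp hJ hmp).clm_apply h2') hk' p2 hCj
      e2 hk (by omega) le_rfl (by omega)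
    have hc1 : ContDiffOn ℝ ∞ (fun x => fderiv ℝ (fderiv ℝ (fderiv ℝ Φ)) (J x)
        (deriv J x) (deriv J x) (iteratedDeriv (m - 1) J x)) I :=
      (((hF3.comp hJ hmp).clm_apply hd).clm_apply hd).clm_apply hk'
    have hc2 : ContDiffOn ℝ ∞ (fun x => fderiv ℝ (fderiv ℝ Φ) (J x)
        (iteratedDeriv 2 J x) (iteratedDeriv (m - 1) J x)) I :=
      ((hF2.comp hJ hmp).clm_apply h2').clm_apply hk'
    have hs := (g1.add hI hp hc1 hc2 e1).const_smul (m : ℝ)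
    have hd' : Good U L (m - 1) C (deriv (topRest Φ J m)) p := by
      have h := (hT U J I p hU hI hp hJ hmp hJK hg).deriv
      rwa [show m - 2 + 1 = m - 1 by omega] at h
    have hall := hd'.add hI hp
      ((contDiffOn_topRest hΩ hΦ hI hJ hmp m).deriv_of_isOpen hI le_rfl)
      ((hc1.add hc2).const_smul (m : ℝ)) hs
    rw [show m + 1 - 2 = m - 1 by omega]
    exact hall.congr hI hp fun x hx => (topRest_succ hΩ hΦ hI hJ hmp (by omega) hx).symm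

end Vale.Agent.P229
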