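import Vale.Agent.P229.Atom
import Vale.Agent.P229.Atoms
import Vale.Agent.P229.JetComp

/-!
P229: the rest of the level equation, as a formula and as a weighted bound.
-/

namespace Vale.Agent.P229

open Set Filter Finset
open scoped ContDiff Topology

lemma iteratedDeriv_comp_apply {ι : Type} [Fintype ι] {J : ℝ → ι → ℝ} {I : Set ℝ} (hI : IsOpen I)
    (hJ : ContDiffOn ℝ ∞ J I) (i : ℕ) (k : ι) :
    ∀ x ∈ I, iteratedDeriv i J x k = iteratedDeriv i (fun s => J s k) x := by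
  induction i with
  | zero => intro x _; simp
  | succ i ih =>
    intro x hx
    have h := hasDerivAt_pi.mp (hasDerivAt_iteratedDeriv hI hJ i hx) k
    rw [iteratedDeriv_succ (f := fun s => J s k),
      ← (eventuallyEq_of_mem (hI.mem_nhds hx) ih).deriv_eq, h.deriv]

variable {n : ℕ} {δ t lam η K0 : ℝ} {X q : E2 → ℝ}

/-- The part of the square where the denominator is positive. -/
def regW (ψ : E2 → ℝ) (t lam : ℝ) (X q : E2 → ℝ) : Set E2 :=
  box 4 ∩ jet ψ t lam X q ⁻¹' dom10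

lemma isOpen_regW (h : Hodo n δ t lam η K0 X q) : IsOpen (regW (psi n δ) t lam X q) :=
  (isOpen_boxL 4).inter (isOpen_dom10.preimage
    (contDiff_jet (contDiff_psi n δ) h.smoothX h.smoothQ).continuous)

lemma contDiffOn_fderiv_phi10 (h : Hodo n δ t lam η K0 X q) (i : Fin 10) :
    ContDiffOn ℝ ∞ (fun z => fderiv ℝ phi10 (jet (psi n δ) t lam X q z) (Pi.single i 1))
      (regW (psi n δ) t lam X q) :=
  ((contDiffOn_phi10.fderiv_of_isOpen isOpen_dom10 le_rfl).comp
    (contDiff_jet (contDiff_psi n δ) h.smoothX h.smoothQ).contDiffOn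
    fun _ hz => hz.2).clm_apply contDiffOn_const

lemma contDiffOn_gam (h : Hodo n δ t lam η K0 X q) :
    ContDiffOn ℝ ∞ (gam (psi n δ) t lam X q) (regW (psi n δ) t lam X q) :=
  (contDiffOn_fderiv_phi10 h 2).congr fun _ hz => gam_eq hz.2

lemma contDiffOn_bet (h : Hodo n δ t lam η K0 X q) :
    ContDiffOn ℝ ∞ (bet (psi n δ) t lam X q) (regW (psi n δ) t lam X q) :=
  (contDiffOn_fderiv_phi10 h 3).congr fun _ hz => bet_eq hz.2

lemma contDiffOn_cX (h : Hodo n δ t lam η K0 X q) :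
    ContDiffOn ℝ ∞ (cX (psi n δ) t lam X q) (regW (psi n δ) t lam X q) := by
  have hψ := contDiff_psi n δ
  have hp : ContDiff ℝ ∞ fun z : E2 => (X z, z.2) := h.smoothX.prodMk contDiff_snd
  have a : ∀ g : E2 → ℝ, ContDiff ℝ ∞ g →
      ContDiffOn ℝ ∞ (fun z => d1 g (X z, z.2)) (regW (psi n δ) t lam X q) := fun g hg =>
    ((contDiff_d1_iter' hg 1).comp hp).contDiffOn
  exact ((((contDiffOn_fderiv_phi10 h 4).mul (a _ hψ)).add
    ((contDiffOn_fderiv_phi10 h 5).mul (a _ (contDiff_d1_iter' hψ 1)))).add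
    ((contDiffOn_fderiv_phi10 h 6).mul (a _ (contDiff_d2' hψ)))).add
    ((contDiffOn_fderiv_phi10 h 7).mul (a _ (contDiff_lapW hψ))) |>.congr
      fun z hz => cX_eq hψ hz.2

lemma contDiffOn_cq (h : Hodo n δ t lam η K0 X q) :
    ContDiffOn ℝ ∞ (cq (psi n δ) t lam X q) (regW (psi n δ) t lam X q) :=
  (contDiffOn_fderiv_phi10 h 1).congr fun _ hz => cq_eq hz.2

lemma contDiffOn_cm (h : Hodo n δ t lam η K0 X q) (m : ℕ) :
    ContDiffOn ℝ ∞ (cm (psi n δ) t lam X q m) (regW (psi n δ) t lam X q) :=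
  (contDiffOn_const.mul (contDiffOn_d1W (isOpen_regW h) (contDiffOn_gam h))).add (contDiffOn_cX h)

lemma contDiffOn_dm (h : Hodo n δ t lam η K0 X q) (m : ℕ) :
    ContDiffOn ℝ ∞ (dm (psi n δ) t lam X q m) (regW (psi n δ) t lam X q) :=
  (contDiffOn_const.mul (contDiffOn_d1W (isOpen_regW h) (contDiffOn_bet h))).add (contDiffOn_cq h)

lemma contDiffOn_Glev (h : Hodo n δ t lam η K0 X q) (m : ℕ) :
    ContDiffOn ℝ ∞ (Glev (psi n δ) t lam X q m) (regW (psi n δ) t lam X q) := by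
  have a := fun k => (contDiff_d1_iter' h.smoothX k).contDiffOn (s := regW (psi n δ) t lam X q)
  have b := fun k => (contDiff_d1_iter' h.smoothQ k).contDiffOn (s := regW (psi n δ) t lam X q)
  exact (((((contDiff_d2' (contDiff_d1_iter' h.smoothQ m)).contDiffOn).sub
    ((contDiffOn_gam h).mul (a (m + 1)))).sub ((contDiffOn_bet h).mul (b (m + 1)))).sub
    ((contDiffOn_cm h m).mul (a m))).sub ((contDiffOn_dm h m).mul (b m))

/-- An atom along the horizontal line through `(·, y)`. -/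
noncomputable def atomLine (ψ : E2 → ℝ) (X : E2 → ℝ) (k : Fin 4) (y s : ℝ) : ℝ :=
  atom ψ k (X (s, y), y)

/-- The jet along the horizontal line through `(·, y)`. -/
noncomputable def jetLine (ψ : E2 → ℝ) (t lam : ℝ) (X q : E2 → ℝ) (y s : ℝ) : E10 :=
  jet ψ t lam X q (s, y)

lemma contDiff_jetLine (h : Hodo n δ t lam η K0 X q) (y : ℝ) :
    ContDiff ℝ ∞ (jetLine (psi n δ) t lam X q y) :=
  (contDiff_jet (contDiff_psi n δ) h.smoothX h.smoothQ).comp
    (contDiff_id.prodMk contDiff_const)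

lemma line_eq {f : E2 → ℝ} (hf : ContDiff ℝ ∞ f) (i : ℕ) (x y : ℝ) :
    iteratedDeriv i (fun s => f (s, y)) x = (d1^[i]) f (x, y) :=
  iteratedDeriv_line isOpen_univ hf.contDiffOn i (mem_univ _)

lemma jetLine_deriv (h : Hodo n δ t lam η K0 X q) (i : ℕ) (x y : ℝ) :
    iteratedDeriv i (jetLine (psi n δ) t lam X q y) x =
      ![iteratedDeriv i (fun s : ℝ => s) x, (d1^[i]) q (x, y), (d1^[i + 1]) X (x, y),
        (d1^[i + 1]) q (x, y), iteratedDeriv i (atomLine (psi n δ) X 0 y) x,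
        iteratedDeriv i (atomLine (psi n δ) X 1 y) x, iteratedDeriv i (atomLine (psi n δ) X 2 y) x,
        iteratedDeriv i (atomLine (psi n δ) X 3 y) x, iteratedDeriv i (fun _ : ℝ => t) x,
        iteratedDeriv i (fun _ : ℝ => lam) x] := by
  funext k
  rw [iteratedDeriv_comp_apply isOpen_univ (contDiff_jetLine h y).contDiffOn i k x (mem_univ _)]
  fin_cases k
  · rfl
  · exact line_eq h.smoothQ i x y
  · show iteratedDeriv i (fun s => d1 X (s, y)) x = (d1^[i + 1]) X (x, y)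
    rw [line_eq (f := d1 X) (contDiff_d1_iter' h.smoothX 1) i x y, Function.iterate_succ_apply]
  · show iteratedDeriv i (fun s => d1 q (s, y)) x = (d1^[i + 1]) q (x, y)
    rw [line_eq (f := d1 q) (contDiff_d1_iter' h.smoothQ 1) i x y, Function.iterate_succ_apply]
  all_goals rfl

lemma sum_fin10 (f : Fin 10 → ℝ) :
    ∑ i, f i = f 0 + f 1 + f 2 + f 3 + f 4 + f 5 + f 6 + f 7 + f 8 + f 9 := by
  simp only [Fin.sum_univ_succ, Fin.sum_univ_zero, add_zero, add_assoc]
  rfl

lemma glev_formula (h : Hodo n δ t lam η K0 X q) {m : ℕ} (hm : 3 ≤ m) {p y : ℝ}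
    (hz : (p, y) ∈ regW (psi n δ) t lam X q) :
    let j := jet (psi n δ) t lam X q (p, y)
    let D := fderiv ℝ (fderiv ℝ phi10) j (deriv (jetLine (psi n δ) t lam X q y) p)
    let e := fun i : Fin 10 => fderiv ℝ phi10 j (Pi.single i 1)
    let a := fun k i => iteratedDeriv i (atomLine (psi n δ) X k y) p
    let h1 := fun k => d1 (atom (psi n δ) k) (X (p, y), y) * (d1^[m]) X (p, y)
    Glev (psi n δ) t lam X q m (p, y) =
      topRest phi10 (jetLine (psi n δ) t lam X q y) m p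
        + (e 4 * (a 0 m - h1 0) + e 5 * (a 1 m - h1 1) + e 6 * (a 2 m - h1 2)
            + e 7 * (a 3 m - h1 3))
        + (m : ℝ) * (D (Pi.single 1 1) * (d1^[m - 1]) q (p, y)
            + D (Pi.single 4 1) * a 0 (m - 1) + D (Pi.single 5 1) * a 1 (m - 1)
            + D (Pi.single 6 1) * a 2 (m - 1) + D (Pi.single 7 1) * a 3 (m - 1)) := by
  intro j D e a h1
  set W := regW (psi n δ) t lam X q with hW
  have hWo : IsOpen W := isOpen_regW h
  set J := jetLine (psi n δ) t lam X q y with hJd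
  have hJ : ContDiff ℝ ∞ J := contDiff_jetLine h y
  have hmaps : MapsTo J {s : ℝ | (s, y) ∈ W} dom10 := fun s hs => hs.2
  have hIo : IsOpen {s : ℝ | (s, y) ∈ W} := hWo.preimage (by fun_prop)
  -- the left side
  have e1 : (fun z => phi10 (jet (psi n δ) t lam X q z)) = along (rhsF (psi n δ) t lam) X q :=
    funext fun z => (phi10_jet z).symm
  have hq : d2 ((d1^[m]) q) (p, y) = iteratedDeriv m (fun s => phi10 (J s)) p := by
    rw [h.d2_iter_q (isOpen_boxL 4) m hz.1, ← e1]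
    exact (iteratedDeriv_line hWo (contDiffOn_phi10.comp
      (contDiff_jet (contDiff_psi n δ) h.smoothX h.smoothQ).contDiffOn fun _ hu => hu.2) m hz).symm
  have hd : ∀ i : Fin 10, ∀ f : E2 → ℝ,
      (∀ z ∈ W, f z = fderiv ℝ phi10 (jet (psi n δ) t lam X q z) (Pi.single i 1)) →
      d1 f (p, y) = fderiv ℝ (fderiv ℝ phi10) (J p) (deriv J p) (Pi.single i 1) := by
    intro i f hf
    rw [d1_congr (eventuallyEq_of_mem (hWo.mem_nhds hz) hf)]
    have hl := hasDerivAt_line (((contDiffOn_fderiv_phi10 h i).contDiffAt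
      (hWo.mem_nhds hz)).differentiableAt (by simp))
    have hc := ((hasDerivAt_comp isOpen_dom10
      (contDiffOn_phi10.fderiv_of_isOpen isOpen_dom10 (m := ∞) le_rfl) hIo hJ.contDiffOn hmaps
      (x := p) hz).clm_apply (hasDerivAt_const p (Pi.single i (1 : ℝ) : E10)))
    rw [hl.unique hc]
    simp [hJd, jetLine]
  have g2 : d1 (gam (psi n δ) t lam X q) (p, y) = D (Pi.single 2 1) :=
    hd 2 _ fun z hz => gam_eq hz.2
  have g3 : d1 (bet (psi n δ) t lam X q) (p, y) = D (Pi.single 3 1) :=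
    hd 3 _ fun z hz => bet_eq hz.2
  have eJ : J p = j := rfl
  obtain ⟨k, rfl⟩ : ∃ k, m = k + 3 := ⟨m - 3, by omega⟩
  have s0 : ∀ i, 2 ≤ i → iteratedDeriv i (fun s : ℝ => s) p = 0 := by
    intro i hi
    obtain ⟨l, rfl⟩ : ∃ l, i = l + 2 := ⟨i - 2, by omega⟩
    rw [iteratedDeriv_succ', show (deriv fun s : ℝ => s) = fun _ => (1 : ℝ) by
        funext s; exact (hasDerivAt_id' s).deriv, iteratedDeriv_const]
    simp
  have sc : ∀ i, 1 ≤ i → ∀ c : ℝ, iteratedDeriv i (fun _ : ℝ => c) p = 0 := by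
    intro i hi c
    rw [iteratedDeriv_const]
    simp [show i ≠ 0 by omega]
  have c1 := clm_e10 (fderiv ℝ phi10 j) (iteratedDeriv (k + 3) J p)
  have c2 := clm_e10 D (iteratedDeriv (k + 3 - 1) J p)
  rw [jetLine_deriv h] at c1 c2
  simp only [sum_fin10, Matrix.cons_val_zero, Matrix.cons_val_one, Matrix.cons_val,
    s0 (k + 3) (by omega), s0 (k + 3 - 1) (by omega), sc (k + 3) (by omega),
    sc (k + 3 - 1) (by omega), show k + 3 - 1 + 1 = k + 3 by omega] at c1 c2
  simp only [Glev, cm, dm, g2, g3, gam_eq hz.2, bet_eq hz.2, cX_eq (contDiff_psi n δ) hz.2,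
    cq_eq hz.2, hq, topRest, eJ]
  rw [jetLine_deriv h, jetLine_deriv h]
  simp only [show k + 3 - 1 + 1 = k + 3 by omega, s0 (k + 3) (by omega),
    s0 (k + 3 - 1) (by omega), sc (k + 3) (by omega), sc (k + 3 - 1) (by omega)]
  simp only [e, a, h1, D, j, atom, Matrix.cons_val_zero, Matrix.cons_val_one, Matrix.cons_val]
  rw [c1, c2]
  simp only [smul_eq_mul, D, j]
  ring

end Vale.Agent.P229
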