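import Vale.Agent.P229.GlevBound

/-!
P229: weighted bound of the rest of the level equation.
-/

namespace Vale.Agent.P229

open Set Filter Finset
open scoped ContDiff Topology

lemma abs_clm_single (f : E10 →L[ℝ] ℝ) (i : Fin 10) : |f (Pi.single i 1)| ≤ ‖f‖ := by
  have h : ‖(Pi.single i 1 : E10)‖ ≤ 1 := by
    refine (pi_norm_le_iff_of_nonneg zero_le_one).mpr fun k => ?_
    by_cases hk : k = i
    · subst hk; simp
    · simp [Pi.single_eq_of_ne hk]
  calc |f (Pi.single i 1)| ≤ ‖f‖ * ‖(Pi.single i 1 : E10)‖ := by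
        simpa using f.le_opNorm _
    _ ≤ ‖f‖ * 1 := mul_le_mul_of_nonneg_left h (norm_nonneg _)
    _ = ‖f‖ := mul_one _

/-- The chain terms with all derivatives on the atoms. -/
noncomputable def atomMain (ψ : E2 → ℝ) (t lam : ℝ) (X q : E2 → ℝ) (m : ℕ) (z : E2) : ℝ :=
  let e := fun i : Fin 10 => fderiv ℝ phi10 (jet ψ t lam X q z) (Pi.single i 1)
  let h := fun k : Fin 4 => (d1^[m]) (atom ψ k) (X z, z.2)
  d1 X z ^ m * (e 4 * h 0 + e 5 * h 1 + e 6 * h 2 + e 7 * h 3)

/-- The weighted bound. -/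
theorem glev_core (m : ℕ) (hm : 4 ≤ m) (R C0 : ℝ) (hR : 0 ≤ R) (hC0 : 0 ≤ C0) :
    ∃ C : ℝ, 0 ≤ C ∧ ∀ (n : ℕ) (δ t lam η K0 : ℝ) (X q : E2 → ℝ) (U Ub : ℕ → ℝ) (p y : ℝ),
      Hodo n δ t lam η K0 X q → (p, y) ∈ box 4 →
      ‖jet (psi n δ) t lam X q (p, y)‖ ≤ R →
      1 / 2 ≤ 1 + fA (jet (psi n δ) t lam X q (p, y)) * d1 X (p, y) →
      Wt U (m - 2) C0 → Wt Ub (m - 1) C0 → (∀ i ≤ m - 2, Ub i ≤ U i) → U 1 ≤ R →
      (∀ i ≤ m - 1, |(d1^[i]) X (p, y)| ≤ R * Ub i ∧ |(d1^[i]) q (p, y)| ≤ R * Ub i) →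
      (∀ i ≤ m - 2, |(d1^[i + 1]) X (p, y)| ≤ R * U i ∧ |(d1^[i + 1]) q (p, y)| ≤ R * U i) →
      (∀ k : Fin 4, ∀ j ≤ m - 1, |(d1^[j]) (atom (psi n δ) k) (X (p, y), y)| ≤ R * Ub j) →
      |Glev (psi n δ) t lam X q m (p, y) - atomMain (psi n δ) t lam X q m (p, y)|
        ≤ C * (U (m - 2) + Ub (m - 1)) := by
  set K : Set E10 := Metric.closedBall 0 R ∩ {j | 1 / 2 ≤ 1 + fA j * j 2} with hKd
  have hK : IsCompact K := (isCompact_closedBall _ _).inter_right
    (isClosed_le continuous_const (by have := contDiff_fA.continuous; fun_prop))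
  have hKΩ : K ⊆ dom10 := fun j hj => lt_of_lt_of_le (by norm_num : (0:ℝ) < 1 / 2) hj.2
  have hF1 := contDiffOn_phi10.fderiv_of_isOpen isOpen_dom10 (m := ∞) le_rfl
  have hF2 := hF1.fderiv_of_isOpen isOpen_dom10 (m := ∞) le_rfl
  obtain ⟨B1, hB1⟩ := hK.exists_bound_of_continuousOn (hF1.continuousOn.mono hKΩ)
  obtain ⟨B2, hB2⟩ := hK.exists_bound_of_continuousOn (hF2.continuousOn.mono hKΩ)
  set A := atomC (m - 1) C0 R R (m - 1) with hA
  have hA0 : 0 ≤ A := atomC_nonneg _ hC0 hR hR _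
  set Cj := R + 1 + A with hCj
  have hCj0 : 0 ≤ Cj := by positivity
  obtain ⟨CT, hCT, hT⟩ := topRest_good (m - 2) C0 Cj hC0 hCj0 isOpen_dom10 hK hKΩ
    contDiffOn_phi10 m (by omega)
  obtain ⟨CR, hCR, hRest⟩ := atomRest_good (m - 1) C0 R R hC0 hR hR m (by omega)
  set P1 := max B1 0
  set P2 := max B2 0 * (Cj * R)
  refine ⟨CT + 4 * P1 * CR + (m : ℝ) * P2 * (R + 4 * A), by positivity, ?_⟩
  intro n δ t lam η K0 X q U Ub p y h hz hnorm hden hU hUb hUU hU1 hlev hlev' hat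
  have hjK : jet (psi n δ) t lam X q (p, y) ∈ K := by
    refine ⟨by simpa using hnorm, ?_⟩
    show (1:ℝ) / 2 ≤ 1 + fA _ * _
    simpa [jet] using hden
  have hW : (p, y) ∈ regW (psi n δ) t lam X q := ⟨hz, hKΩ hjK⟩
  set J := jetLine (psi n δ) t lam X q y with hJd
  set x := fun s : ℝ => X (s, y) with hxd
  have hx : ContDiff ℝ ∞ x := h.smoothX.comp (contDiff_id.prodMk contDiff_const)
  have hxi : ∀ i, iteratedDeriv i x p = (d1^[i]) X (p, y) := fun i => line_eq h.smoothX i p y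
  have hxg : Good Ub (m - 1) 1 R (deriv x) p := by
    intro i hi
    rw [← iteratedDeriv_succ', hxi, Real.norm_eq_abs, Nat.add_comm 1 i]
    exact (hlev (i + 1) (by omega)).1
  have hg : ∀ k, ContDiff ℝ ∞ fun s : ℝ => atom (psi n δ) k (s, y) := fun k =>
    (contDiff_atom (contDiff_psi n δ) k).comp (contDiff_id.prodMk contDiff_const)
  have hgi : ∀ k j, iteratedDeriv j (fun s : ℝ => atom (psi n δ) k (s, y)) (x p)
      = (d1^[j]) (atom (psi n δ) k) (X (p, y), y) := fun k j =>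
    line_eq (contDiff_atom (contDiff_psi n δ) k) j _ y
  have hgb : ∀ k, ∀ j ≤ m - 1,
      |iteratedDeriv j (fun s : ℝ => atom (psi n δ) k (s, y)) (x p)| ≤ R * Ub j := fun k j hj => by
    rw [hgi]; exact hat k j hj
  have haG : ∀ k, Good Ub (m - 1) 0 A (atomLine (psi n δ) X k y) p := by
    intro k
    have := atom_good hUb (hg k) isOpen_univ (mem_univ p) hx.contDiffOn hR hR (hgb k) hxg 0
    rw [iteratedDeriv_zero] at this
    exact this
  have hai : ∀ k, ∀ i ≤ m - 1, |iteratedDeriv i (atomLine (psi n δ) X k y) p| ≤ A * Ub i := by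
    intro k i hi
    have := haG k i (by omega)
    rwa [Nat.zero_add, Real.norm_eq_abs] at this
  have hJg : Good U (m - 2) 0 Cj J p := by
    intro i hi
    rw [Nat.zero_add] at hi ⊢
    have hUi := hU.one_le i hi
    have hUb' := hUU i hi
    have hUi0 : 0 ≤ U i := by linarith
    refine (pi_norm_le_iff_of_nonneg (mul_nonneg hCj0 hUi0)).mpr fun k => ?_
    rw [hJd, jetLine_deriv h, Real.norm_eq_abs]
    have key : ∀ v : ℝ, |v| ≤ R + 1 → |v| ≤ Cj * U i := fun v hv => by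
      calc |v| ≤ Cj * 1 := by rw [mul_one]; linarith
        _ ≤ Cj * U i := mul_le_mul_of_nonneg_left hUi hCj0
    have key2 : ∀ v : ℝ, |v| ≤ R * U i → |v| ≤ Cj * U i := fun v hv =>
      hv.trans (mul_le_mul_of_nonneg_right (by linarith) hUi0)
    have key3 : ∀ v : ℝ, |v| ≤ R * Ub i → |v| ≤ Cj * U i := fun v hv =>
      key2 v (hv.trans (mul_le_mul_of_nonneg_left hUb' hR))
    have key4 : ∀ k, |iteratedDeriv i (atomLine (psi n δ) X k y) p| ≤ Cj * U i := fun k =>
      ((hai k i (by omega)).trans (mul_le_mul_of_nonneg_left hUb' hA0)).trans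
        (mul_le_mul_of_nonneg_right (by linarith) hUi0)
    have hc : ∀ c : Fin 10, |jet (psi n δ) t lam X q (p, y) c| ≤ R := fun c =>
      (norm_le_pi_norm (jet (psi n δ) t lam X q (p, y)) c).trans hnorm
    fin_cases k
    · refine key _ ?_
      show |iteratedDeriv i (fun s : ℝ => s) p| ≤ R + 1
      rcases i with _ | _ | i
      · rw [iteratedDeriv_zero]
        exact (show |p| ≤ R from hc 0).trans (le_add_of_nonneg_right zero_le_one)
      · simp [hR]
      · rw [iteratedDeriv_succ', show (deriv fun s : ℝ => s) = fun _ => (1 : ℝ) by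
          funext s; exact (hasDerivAt_id' s).deriv, iteratedDeriv_const]
        simp; linarith
    · exact key3 _ (hlev i (by omega)).2
    · exact key2 _ (hlev' i hi).1
    · exact key2 _ (hlev' i hi).2
    · exact key4 0
    · exact key4 1
    · exact key4 2
    · exact key4 3
    · refine key _ ?_
      show |iteratedDeriv i (fun _ : ℝ => t) p| ≤ R + 1
      rw [iteratedDeriv_const]
      split_ifs
      · exact (show |t| ≤ R from hc 8).trans (le_add_of_nonneg_right zero_le_one)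
      · simp; linarith
    · refine key _ ?_
      show |iteratedDeriv i (fun _ : ℝ => lam) p| ≤ R + 1
      rw [iteratedDeriv_const]
      split_ifs
      · exact (show |lam| ≤ R from hc 9).trans (le_add_of_nonneg_right zero_le_one)
      · simp; linarith
  have hWo := isOpen_regW h
  have hT' : |topRest phi10 J m p| ≤ CT * U (m - 2) := by
    have := hT U J {s : ℝ | (s, y) ∈ regW (psi n δ) t lam X q} p hU
      (hWo.preimage (by fun_prop)) hW (contDiff_jetLine h y).contDiffOn (fun s hs => hs.2) hjK hJg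
      0 (by omega)
    simpa using this
  have hRest' : ∀ k, |atomRest (fun s : ℝ => atom (psi n δ) k (s, y)) x m p| ≤ CR * Ub (m - 1) := by
    intro k
    have := hRest Ub _ x univ p hUb (hg k) isOpen_univ (mem_univ p) hx.contDiffOn (hgb k) hxg
      0 (by omega)
    simpa using this
  have hrestEq : ∀ k : Fin 4, iteratedDeriv m (atomLine (psi n δ) X k y) p
      - d1 (atom (psi n δ) k) (X (p, y), y) * (d1^[m]) X (p, y)
      = atomRest (fun s : ℝ => atom (psi n δ) k (s, y)) x m p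
        + d1 X (p, y) ^ m * (d1^[m]) (atom (psi n δ) k) (X (p, y), y) := by
    intro k
    have hd1 : deriv x p = d1 X (p, y) := by
      rw [← iteratedDeriv_one, hxi]; rfl
    rw [atomRest, hgi, hxi, hd1, ← iteratedDeriv_one, hgi]
    show iteratedDeriv m (atomLine (psi n δ) X k y) p - _ = _
    unfold atomLine
    simp only [x, Function.iterate_one]
    ring
  set j := jet (psi n δ) t lam X q (p, y) with hjd
  set D := fderiv ℝ (fderiv ℝ phi10) j (deriv J p) with hDd
  have he : ∀ i, |fderiv ℝ phi10 j (Pi.single i 1)| ≤ P1 := fun i =>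
    (abs_clm_single _ i).trans ((hB1 j hjK).trans (le_max_left _ _))
  have hJ' : ‖deriv J p‖ ≤ Cj * R := by
    have := hJg 1 (by omega)
    rw [iteratedDeriv_one, Nat.zero_add] at this
    exact this.trans (mul_le_mul_of_nonneg_left hU1 hCj0)
  have hDn : ‖D‖ ≤ P2 := (ContinuousLinearMap.le_opNorm _ _).trans
    (mul_le_mul ((hB2 j hjK).trans (le_max_left _ _)) hJ' (norm_nonneg _) (le_max_right _ _))
  have hDs : ∀ i, |D (Pi.single i 1)| ≤ P2 := fun i => (abs_clm_single _ i).trans hDn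
  have ef := glev_formula h (m := m) (by omega) hW
  simp only [← hjd, ← hJd, ← hDd, hrestEq] at ef
  have hUb1 : 0 ≤ Ub (m - 1) := (hUb.pos le_rfl).le
  have hUm : 0 ≤ U (m - 2) := (hU.pos le_rfl).le
  have p1 : ∀ i k, |fderiv ℝ phi10 j (Pi.single i 1) *
      atomRest (fun s : ℝ => atom (psi n δ) k (s, y)) x m p| ≤ P1 * (CR * Ub (m - 1)) := fun i k => by
    rw [abs_mul]; exact mul_le_mul (he i) (hRest' k) (abs_nonneg _) (le_max_right _ _)
  have p2 : ∀ i k, |D (Pi.single i 1) * iteratedDeriv (m - 1) (atomLine (psi n δ) X k y) p|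
      ≤ P2 * (A * Ub (m - 1)) := fun i k => by
    rw [abs_mul]; exact mul_le_mul (hDs i) (hai k _ le_rfl) (abs_nonneg _) (by positivity)
  have p3 : |D (Pi.single 1 1) * (d1^[m - 1]) q (p, y)| ≤ P2 * (R * Ub (m - 1)) := by
    rw [abs_mul]; exact mul_le_mul (hDs 1) (hlev _ le_rfl).2 (abs_nonneg _) (by positivity)
  have hm0 : (0 : ℝ) ≤ m := Nat.cast_nonneg m
  have a1 := p1 4 0; have a2 := p1 5 1; have a3 := p1 6 2; have a4 := p1 7 3
  have b1 := p2 4 0; have b2 := p2 5 1; have b3 := p2 6 2; have b4 := p2 7 3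
  rw [abs_le] at a1 a2 a3 a4 b1 b2 b3 b4 p3 hT'
  rw [ef, atomMain, ← hjd, abs_le]
  dsimp only
  have q1 := mul_le_mul_of_nonneg_left (add_le_add (add_le_add (add_le_add (add_le_add p3.2 b1.2)
    b2.2) b3.2) b4.2) hm0
  have q2 := mul_le_mul_of_nonneg_left (add_le_add (add_le_add (add_le_add (add_le_add p3.1 b1.1)
    b2.1) b3.1) b4.1) hm0
  have r1 : 0 ≤ CT * Ub (m - 1) := by positivity
  have r2 : 0 ≤ 4 * P1 * CR * U (m - 2) := by positivity
  have r3 : 0 ≤ (m : ℝ) * P2 * (R + 4 * A) * U (m - 2) := by positivity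
  constructor <;> nlinarith only [q1, q2, r1, r2, r3, a1.1, a1.2, a2.1, a2.2, a3.1, a3.2, a4.1,
    a4.2, hT'.1, hT'.2]

end Vale.Agent.P229
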