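import Vale.Agent.P229.Hodo.Axis

/-!
P229: every normalised solution gives a solution in hodograph coordinates (`HodoStmt`).
-/

namespace Vale.Agent.P229

open Real Set Filter
open scoped ContDiff Topology

/-- Bounded derivatives of the inverse hodograph keep the derivatives of a small map small. -/
lemma small_after_inverse {X : E2 → ℝ} (hX : ContDiff ℝ ∞ X) {L : E2 → E2 →L[ℝ] ℝ}
    (hL : ContDiff ℝ ∞ L) {ε : ℝ} (hε : 0 ≤ ε) {k : ℕ}
    (hb : ∀ i ≤ k, ∀ z, ‖iteratedFDeriv ℝ i L z‖ ≤ ε)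
    (hXb : ∀ p < k, ∀ z, ‖iteratedFDeriv ℝ (p + 1) X z‖ ≤ 2) {j : ℕ} (hj : j ≤ k) (z : E2) :
    ‖iteratedFDeriv ℝ j (fun w : E2 => L (X w, w.2)) z‖ ≤
      (k.factorial : ℝ) * ε * 4 ^ k := by
  have hψs : ContDiff ℝ ∞ (fun w : E2 => ((X w, w.2) : E2)) := hX.prodMk contDiff_snd
  refine (norm_iteratedFDeriv_comp_le hL hψs (nat_le_infty j) z
    (fun i hi => hb i (hi.trans hj) _) (D := 4) fun i hi1 hi => ?_).trans ?_
  · obtain ⟨p, rfl⟩ := Nat.exists_eq_add_of_le' hi1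
    rw [iteratedFDeriv_prodMk (hX.of_le (nat_le_infty _)).contDiffAt
      contDiff_snd.contDiffAt le_rfl, ContinuousMultilinearMap.opNorm_prod]
    have hsnd : ‖iteratedFDeriv ℝ (p + 1) (fun w : E2 => w.2) z‖ ≤ 1 := by
      rw [← norm_iteratedFDeriv_fderiv]
      have e : fderiv ℝ (fun w : E2 => w.2) = fun _ => ContinuousLinearMap.snd ℝ ℝ ℝ := by
        funext w; exact fderiv_snd
      rw [e]
      rcases Nat.eq_zero_or_pos p with rfl | hp
      · rw [norm_iteratedFDeriv_zero]; exact ContinuousLinearMap.norm_snd_le ℝ ℝ ℝ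
      · rw [iteratedFDeriv_const_of_ne hp.ne']; simp
    refine max_le ((hXb p (by omega) z).trans ?_) (hsnd.trans (one_le_pow₀ (by norm_num)))
    exact le_trans (by norm_num) (le_self_pow₀ (by norm_num : (1 : ℝ) ≤ 4) (by omega))
  · refine mul_le_mul ?_ (pow_le_pow_right₀ (by norm_num) hj) (by positivity) (by positivity)
    exact mul_le_mul_of_nonneg_right (by exact_mod_cast Nat.factorial_le hj) hε

lemma abs_apply_le {L : E2 →L[ℝ] ℝ} {e : ℝ} (h : ‖L‖ ≤ e) {v : E2} (hv : ‖v‖ = 1) :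
    |L v| ≤ e := by
  have := L.le_opNorm v
  rw [hv, mul_one, Real.norm_eq_abs] at this
  linarith

lemma norm_fderiv_le_of_iter {L : E2 → E2 →L[ℝ] ℝ} {e : ℝ} {z : E2}
    (h : ‖iteratedFDeriv ℝ 0 L z‖ ≤ e) : ‖L z‖ ≤ e := by
  rwa [norm_iteratedFDeriv_zero] at h

lemma rhsF_eq {ψ : E2 → ℝ} {t lam p y X q a b : ℝ} (ha : a ≠ 0)
    (hne : a + cA ψ (t * lam ^ 2) p y X q ≠ 0) :
    cA ψ (t * lam ^ 2) p y X q +
        (cQ ψ t lam p y X q + (b + cB ψ (t * lam ^ 2) p y X q) ^ 2) /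
          (a + cA ψ (t * lam ^ 2) p y X q) - b * b * a⁻¹
      = rhsF ψ t lam p y X q a⁻¹ (b * a⁻¹) := by
  simp only [rhsF]
  generalize cA ψ (t * lam ^ 2) p y X q = A at hne ⊢
  generalize cB ψ (t * lam ^ 2) p y X q = Bv
  generalize cQ ψ t lam p y X q = Q
  have h' : 1 + A * a⁻¹ ≠ 0 := by
    rw [show 1 + A * a⁻¹ = (a + A) / a by field_simp]
    exact div_ne_zero hne ha
  field_simp
  ring

/-- The hodograph module of the proof. -/
theorem hodo : HodoStmt := by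
  intro n hn
  obtain ⟨K, η1, hK, hη1, -, hax⟩ := axis_bounds (n := n) (by omega)
  refine ⟨2 * K, by linarith, fun η' hη' => ?_⟩
  obtain ⟨ε, hε⟩ : ∃ ε, ε = min 1 η' / 6144 := ⟨_, rfl⟩
  have hε0 : 0 < ε := by rw [hε]; positivity
  obtain ⟨ηX, hηX, hsX⟩ := small_comp (k := 4) isOpen_jetDom zero_mem_jetDom contDiffOn_phiX
    phiX_zero hε0
  obtain ⟨ηQ, hηQ, hsQ⟩ := small_comp (k := 4) isOpen_jetDom zero_mem_jetDom contDiffOn_phiQ
    phiQ_zero hε0
  refine ⟨min (min ηX ηQ) (min η1 (1 / 100)),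
    lt_min (lt_min hηX hηQ) (lt_min hη1 (by norm_num)), fun δ t lam Z hδ hδ1 ht htη hlam hlamη h => ?_⟩
  obtain ⟨η, hηdef⟩ : ∃ η, η = min (min ηX ηQ) (min η1 (1 / 100)) := ⟨_, rfl⟩
  rw [← hηdef] at htη hlamη h
  have le1 : η ≤ ηX := hηdef ▸ (min_le_left _ _).trans (min_le_left _ _)
  have le2 : η ≤ ηQ := hηdef ▸ (min_le_left _ _).trans (min_le_right _ _)
  have le3 : η ≤ η1 := hηdef ▸ (min_le_right _ _).trans (min_le_left _ _)
  have le4 : η ≤ 1 / 100 := hηdef ▸ (min_le_right _ _).trans (min_le_right _ _)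
  have hη0 : 0 ≤ η := (abs_nonneg _).trans (h.near12 0)
  have hZ := h.smooth
  obtain ⟨hne, hK0⟩ := hax δ t lam η Z hδ hδ1 ht (htη.trans le3) hlam (hlamη.trans le3) le3 h
  obtain ⟨X, q, hX, hq, hroot, hqZ, hDX, hDq, hclose⟩ :=
    exists_inverse hZ (by linarith) h.near11 h.near12 h.grad1
  have hj := contDiff_jetF hZ
  have hjb : ∀ i ≤ 4, ∀ z, ‖iteratedFDeriv ℝ i (jetF Z) z‖ ≤ η :=
    fun i hi z => norm_iter_jetF_le hZ h.near11 h.near12 h.near22 h.high hi z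
  have hmem : ∀ w, jetF Z w ∈ jetDom := fun w => by
    have := (abs_le.1 (h.near11 w)).1
    show -(1 / 2 : ℝ) < d1 (d1 Z) w - 1
    linarith
  have hLX : ContDiff ℝ ∞ fun w => phiX (jetF Z w) := contDiffOn_phiX.comp_contDiff hj hmem
  have hLQ : ContDiff ℝ ∞ fun w => phiQ (jetF Z w) := contDiffOn_phiQ.comp_contDiff hj hmem
  have hbX := hsX (jetF Z) hj fun i hi z => (hjb i hi z).trans le1
  have hbQ := hsQ (jetF Z) hj fun i hi z => (hjb i hi z).trans le2
  have hfac : ((Nat.factorial 4 : ℕ) : ℝ) * ε * 4 ^ 4 = min 1 η' := by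
    rw [hε]; norm_num [Nat.factorial]; ring
  have hSX : ∀ j ≤ 4, ∀ z, ‖iteratedFDeriv ℝ j (fun w : E2 => phiX (jetF Z (X w, w.2))) z‖
      ≤ min 1 η' := fun j hj' z => hfac ▸ small_inverse hX hLX hDX hε0.le hbX
        (ContinuousLinearMap.norm_fst_le ℝ ℝ ℝ) (hfac.trans_le (min_le_left _ _)) j hj' z
  have hXiter : ∀ p ≤ 4, ∀ z, ‖iteratedFDeriv ℝ (p + 1) X z -
      0‖ ≤ 2 ∧ (1 ≤ p → ‖iteratedFDeriv ℝ (p + 1) X z‖ ≤ η') := by
    intro p hp z
    have hsm : ContDiff ℝ p fun w : E2 => phiX (jetF Z (X w, w.2)) :=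
      (hLX.comp (hX.prodMk contDiff_snd)).of_le (nat_le_infty p)
    have e : fderiv ℝ X = (fun _ : E2 => ContinuousLinearMap.fst ℝ ℝ ℝ) +
        fun w : E2 => phiX (jetF Z (X w, w.2)) := funext hDX
    have hs := hSX p hp z
    rw [sub_zero, ← norm_iteratedFDeriv_fderiv, e,
      iteratedFDeriv_add_apply contDiffAt_const hsm.contDiffAt]
    refine ⟨(norm_add_le _ _).trans ?_, fun hp1 => ?_⟩
    · have : ‖iteratedFDeriv ℝ p (fun _ : E2 => ContinuousLinearMap.fst ℝ ℝ ℝ) z‖ ≤ 1 := by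
        rcases Nat.eq_zero_or_pos p with rfl | hp'
        · rw [norm_iteratedFDeriv_zero]; exact ContinuousLinearMap.norm_fst_le ℝ ℝ ℝ
        · rw [iteratedFDeriv_const_of_ne (by omega)]; simp
      linarith [min_le_left (1 : ℝ) η']
    · rw [iteratedFDeriv_const_of_ne (by omega)]
      simpa using hs.trans (min_le_right _ _)
  have hSQ : ∀ j ≤ 4, ∀ z, ‖iteratedFDeriv ℝ j (fun w : E2 => phiQ (jetF Z (X w, w.2))) z‖
      ≤ min 1 η' := fun j hj' z => hfac ▸ small_after_inverse hX hLQ hε0.le hbQ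
        (fun p hp z => by simpa using (hXiter p (by omega) z).1) hj' z
  have ha : ∀ w, (1 : ℝ) + (jetF Z w).1 = d1 (d1 Z) w := fun w => by simp [jetF]
  have vX1 : ∀ z : E2, d1 X z = 1 + phiX (jetF Z (X z, z.2)) (1, 0) := fun z => by
    simp [d1, hDX]
  have w1 : ∀ z : E2, d1 X z = (d1 (d1 Z) (X z, z.2))⁻¹ := fun z => by
    rw [vX1, phiX_apply, ha]; simp
  have wq1 : ∀ z : E2, d1 q z = d2 (d1 Z) (X z, z.2) * (d1 (d1 Z) (X z, z.2))⁻¹ := fun z => by
    simp [d1, hDq, phiQ_apply, jetF]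
  have wq2 : ∀ z : E2, d2 q z = d2 (d2 Z) (X z, z.2) -
      d2 (d1 Z) (X z, z.2) * d2 (d1 Z) (X z, z.2) * (d1 (d1 Z) (X z, z.2))⁻¹ := fun z => by
    simp [d2, hDq, phiQ_apply, jetF, d1]
  have wX2 : ∀ z : E2, d2 X z = -d1 q z := fun z => by
    rw [wq1]; simp [d2, hDX, phiX_apply, jetF, d1]
  have hbox : ∀ z ∈ box 4, ((X z, z.2) : E2) ∈ box 5 ∧ |X z - z.1| ≤ 1 / 10 := by
    intro z hz
    have h4 : ‖z‖ < 4 := max_lt hz.1 hz.2
    have hc := hclose z
    have h5 : ‖((X z, z.2) : E2)‖ < 5 := by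
      have := norm_le_norm_add_norm_sub' ((X z, z.2) : E2) z
      have := mul_le_mul_of_nonneg_right (show 2 * η ≤ 1 / 50 by linarith)
        (norm_nonneg ((X z, z.2) : E2))
      linarith
    refine ⟨⟨(norm_fst_le ((X z, z.2) : E2)).trans_lt h5,
      (norm_snd_le ((X z, z.2) : E2)).trans_lt h5⟩, ?_⟩
    have := (norm_fst_le (((X z, z.2) : E2) - z)).trans hc
    simp only [Prod.fst_sub, Real.norm_eq_abs] at this
    have := mul_le_mul (show 2 * η ≤ 1 / 50 by linarith) h5.le (norm_nonneg _) (by norm_num)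
    linarith
  have hmv : ∀ z : E2, |z.1 - d1 Z (0, z.2) - X z| ≤ η * |X z| := fun z => by
    have := mvt_abs (h := fun s => d1 Z (s, z.2) - s) (h' := fun s => d1 (d1 Z) (s, z.2) - 1)
      (a := 0) (b := X z)
      (fun s _ => (d1_hasDerivAt ((contDiff_d1 hZ).differentiable (by simp)) s z.2).sub
        (hasDerivAt_id s))
      (fun s _ => h.near11 (s, z.2))
    simp only [hroot z, sub_zero] at this
    rwa [sub_right_comm] at this
  have hmq : ∀ z : E2, |q z - d2 Z (0, z.2)| ≤ η * |X z| := fun z => by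
    have := mvt_abs (h := fun s => d2 Z (s, z.2)) (h' := fun s => d1 (d2 Z) (s, z.2))
      (a := 0) (b := X z)
      (fun s _ => d1_hasDerivAt ((contDiff_d2 hZ).differentiable (by simp)) s z.2)
      (fun s _ => by rw [← d2_d1_comm hZ]; exact h.near12 (s, z.2))
    simpa [← hqZ z] using this
  have small0X : ∀ z : E2, ‖phiX (jetF Z (X z, z.2))‖ ≤ η' := fun z =>
    (norm_fderiv_le_of_iter (hSX 0 (by norm_num) z)).trans (min_le_right _ _)
  have small0Q : ∀ z : E2, ‖phiQ (jetF Z (X z, z.2))‖ ≤ η' := fun z =>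
    (norm_fderiv_le_of_iter (hSQ 0 (by norm_num) z)).trans (min_le_right _ _)
  have hy5 : ∀ z ∈ box 4, |d1 Z (0, z.2)| ≤ K * t ∧ |d2 Z (0, z.2)| ≤ K * t :=
    fun z hz => hK0 z.2 (lt_of_lt_of_le hz.2 (by norm_num))
  refine ⟨X, q,
    { smoothX := hX, smoothQ := hq, compat := wX2, eqn := ?_, Xp := ?_, Qp := ?_, Qy := ?_,
      highX := ?_, highQ := ?_, axisX := ?_, axisP := ?_, axisQ := ?_, axisS := fun z hz => (hbox z hz).2 }⟩
  · intro z hz
    have hw := (hbox z hz).1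
    have e := eqn_solve h hw (hne _ hw)
    have hn0 := hne _ hw
    have ha0 : d1 (d1 Z) (X z, z.2) ≠ 0 := by
      have := (abs_le.1 (h.near11 (X z, z.2))).1
      linarith
    simp only [hroot, ← hqZ] at e hn0
    rw [wq2, e]
    show _ = rhsF (psi n δ) t lam z.1 z.2 (X z) (q z) (d1 X z) (d1 q z)
    rw [w1, wq1]
    exact rhsF_eq ha0 hn0
  · intro z
    rw [vX1, add_sub_cancel_left]
    exact abs_apply_le (small0X z) norm_e1
  · intro z
    rw [show d1 q z = phiQ (jetF Z (X z, z.2)) (1, 0) by simp [d1, hDq]]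
    exact abs_apply_le (small0Q z) norm_e1
  · intro z
    rw [show d2 q z = phiQ (jetF Z (X z, z.2)) (0, 1) by simp [d2, hDq]]
    exact abs_apply_le (small0Q z) norm_e2
  · intro k hk2 hk5 z
    obtain ⟨p, rfl⟩ := Nat.exists_eq_add_of_le' (show 1 ≤ k by omega)
    exact (hXiter p (by omega) z).2 (by omega)
  · intro k hk2 hk5 z
    obtain ⟨p, rfl⟩ := Nat.exists_eq_add_of_le' (show 1 ≤ k by omega)
    rw [← norm_iteratedFDeriv_fderiv, show fderiv ℝ q =
      fun w : E2 => phiQ (jetF Z (X w, w.2)) from funext hDq]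
    exact (hSQ p (by omega) z).trans (min_le_right _ _)
  · intro z hz
    have := (hy5 z hz).1
    have := hmv z
    have := abs_sub_abs_le_abs_sub (X z) (z.1 - d1 Z (0, z.2))
    have := abs_sub (z.1) (d1 Z (0, z.2))
    rw [abs_sub_comm (X z)] at *
    have := mul_le_mul_of_nonneg_right le4 (abs_nonneg (X z))
    nlinarith [abs_nonneg (X z)]
  · intro z hz
    have := (hy5 z hz).1
    have := hmv z
    have h1 := abs_sub_abs_le_abs_sub z.1 (d1 Z (0, z.2) + X z)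
    have := abs_add_le (d1 Z (0, z.2)) (X z)
    rw [show z.1 - (d1 Z (0, z.2) + X z) = z.1 - d1 Z (0, z.2) - X z by ring] at h1
    have := mul_le_mul_of_nonneg_right le4 (abs_nonneg (X z))
    nlinarith [abs_nonneg (X z), mul_pos (show (0:ℝ) < K by linarith) ht]
  · intro z hz
    have := (hy5 z hz).2
    have := hmq z
    have := abs_sub_abs_le_abs_sub (q z) (d2 Z (0, z.2))
    have := mul_le_mul_of_nonneg_right le4 (abs_nonneg (X z))
    nlinarith [abs_nonneg (X z), mul_pos (show (0:ℝ) < K by linarith) ht,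
      mul_nonneg (show (0:ℝ) ≤ 2 * K - 1 by linarith) (abs_nonneg (X z))]

end Vale.Agent.P229
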