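import Vale.Agent.P229.Defs

/-!
Interfaces between the modules of P229.  These are only statements.
-/

namespace Vale.Agent.P229

open Real Set
open scoped ContDiff RealInnerProductSpace

/-- Bounds of the profile, uniform in the width of the bump. -/
def PsiBoundStmt : Prop :=
  ∀ n N : ℕ, N ≤ n → ∃ C : ℝ, ∀ δ : ℝ, 0 < δ → δ ≤ 1 →
    ∀ z, ‖iteratedFDeriv ℝ N (psi n δ) z‖ ≤ C

/-- Hodograph: every normalised solution gives a hodograph solution. -/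
def HodoStmt : Prop :=
  ∀ n : ℕ, 8 ≤ n → ∃ K0 : ℝ, 0 < K0 ∧ ∀ η' : ℝ, 0 < η' → ∃ η : ℝ, 0 < η ∧
    ∀ δ t lam : ℝ, ∀ Z : E2 → ℝ, 0 < δ → δ ≤ 1 → 0 < t → t ≤ η → 0 < lam → lam ≤ η →
      NSol n δ t lam η Z → ∃ X q : E2 → ℝ, Hodo n δ t lam η' K0 X q

/-- Bounds of all derivatives left of the slab, independent of the bump. -/
def LeftStmt : Prop :=
  ∀ n : ℕ, 8 ≤ n → ∀ K0 : ℝ, 0 < K0 → ∃ K η : ℝ, 2 * K0 + 1 ≤ K ∧ 0 < η ∧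
    ∀ t0 : ℝ, 0 < t0 → ∃ C δ0 : ℝ, 0 < δ0 ∧
      ∀ δ t lam : ℝ, ∀ X q : E2 → ℝ, 0 < δ → δ ≤ δ0 → t0 ≤ t → t ≤ η → 0 < lam → lam ≤ η →
        Hodo n δ t lam η K0 X q →
          ∀ m ≤ n, ∀ y : ℝ, |y| ≤ 1 / 2 →
            |(d1^[m]) X (-(K * t), y)| ≤ C ∧ |(d1^[m]) q (-(K * t), y)| ≤ C

/-- In the slab the bump creates a jump, so bounded traces on both sides are impossible. -/
def MiddleStmt : Prop :=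
  ∀ n : ℕ, 8 ≤ n → ∀ K0 K : ℝ, 0 < K0 → 2 * K0 + 1 ≤ K → ∃ η : ℝ, 0 < η ∧
    ∀ t0 C δ0 : ℝ, 0 < t0 → 0 < δ0 → ∃ δ : ℝ, 0 < δ ∧ δ ≤ δ0 ∧
      ∀ t lam : ℝ, ∀ X q : E2 → ℝ, t0 ≤ t → t ≤ η → 0 < lam → lam ≤ η →
        Hodo n δ t lam η K0 X q →
          (∀ m ≤ n, ∀ y : ℝ, |y| ≤ 1 / 2 →
            |(d1^[m]) X (-(K * t), y)| ≤ C ∧ |(d1^[m]) q (-(K * t), y)| ≤ C ∧
            |(d1^[m]) X (K * t, y)| ≤ C ∧ |(d1^[m]) q (K * t, y)| ≤ C) → False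

/-- The core: no normalised solution for a suitable width of the bump. -/
def CoreStmt : Prop :=
  ∀ n : ℕ, 8 ≤ n → ∃ η : ℝ, 0 < η ∧ ∀ t0 : ℝ, 0 < t0 → ∃ δ : ℝ, 0 < δ ∧ δ ≤ 1 ∧
    ∀ t lam : ℝ, ∀ Z : E2 → ℝ, t0 ≤ t → t ≤ η → 0 < lam → lam ≤ η → ¬ NSol n δ t lam η Z

/-- Data of a patch: a bounded immersion of the conformal patch, curved at its centre. -/
def PatchSol (n : ℕ) (δ s ρ M : ℝ) (c : E2) (f : E2 → E3) : Prop :=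
  ContDiffOn ℝ ∞ f (Metric.ball c (12 * ρ)) ∧
  (∀ x ∈ Metric.ball c (12 * ρ),
    ⟪d1 f x, d1 f x⟫ = Real.exp (2 * (s * psi n δ ((1 / ρ) • (x - c)))) ∧
    ⟪d1 f x, d2 f x⟫ = 0 ∧
    ⟪d2 f x, d2 f x⟫ = Real.exp (2 * (s * psi n δ ((1 / ρ) • (x - c))))) ∧
  (∀ k : ℕ, 1 ≤ k → k ≤ 6 → ∀ x ∈ Metric.ball c (12 * ρ), ‖iteratedFDeriv ℝ k f x‖ ≤ M) ∧
  NormalAtLeast f c (1 / M)

/-- Geometry: a patch solution gives a normalised solution. -/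
def GeomStmt : Prop :=
  ∀ n : ℕ, 8 ≤ n → ∀ M η : ℝ, 0 < M → 0 < η →
    ∃ ρ0 : ℝ, 0 < ρ0 ∧ ∀ ρ : ℝ, 0 < ρ → ρ ≤ ρ0 →
      ∃ s0 : ℝ, 0 < s0 ∧ ∀ s : ℝ, 0 < s → s ≤ s0 → ∃ t0 : ℝ, 0 < t0 ∧
        ∀ δ : ℝ, 0 < δ → δ ≤ 1 → ∀ c : E2, ∀ f : E2 → E3, PatchSol n δ s ρ M c f →
          ∃ t lam : ℝ, ∃ Z : E2 → ℝ, t0 ≤ t ∧ t ≤ η ∧ 0 < lam ∧ lam ≤ η ∧ NSol n δ t lam η Z

/-- What the construction of the metric consumes. -/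
def NoPatchStmt : Prop :=
  ∀ n : ℕ, 8 ≤ n → ∀ M : ℝ, 0 < M →
    ∃ ρ0 : ℝ, 0 < ρ0 ∧ ∀ ρ : ℝ, 0 < ρ → ρ ≤ ρ0 →
      ∃ s0 : ℝ, 0 < s0 ∧ ∀ s : ℝ, 0 < s → s ≤ s0 → ∃ δ : ℝ, 0 < δ ∧ δ ≤ 1 ∧
        ∀ c : E2, ∀ f : E2 → E3, ¬ PatchSol n δ s ρ M c f

/-- Cone rings: base metric, charts, and the forcing property on the middle circles. -/
def RingStmt : Prop :=
  ∃ E0 F0 G0 : E2 → ℝ, ∃ c : ℕ → ℝ,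
    ContDiff ℝ ∞ E0 ∧ ContDiff ℝ ∞ F0 ∧ ContDiff ℝ ∞ G0 ∧
    (∀ x, 0 < E0 x ∧ F0 x ^ 2 < E0 x * G0 x) ∧
    (∀ k, 1 < c k ∧ c k < 2) ∧
    (∀ k φ, ∀ u : E2, 0 < u.1 → u ∈ ringSet k →
      bil E0 F0 G0 (chart (c k) φ u) (d1 (chart (c k) φ) u) (d1 (chart (c k) φ) u) = 1 ∧
      bil E0 F0 G0 (chart (c k) φ u) (d1 (chart (c k) φ) u) (d2 (chart (c k) φ) u) = 0 ∧
      bil E0 F0 G0 (chart (c k) φ u) (d2 (chart (c k) φ) u) (d2 (chart (c k) φ) u) = 1) ∧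
    (∀ S : E2 → ℝ, ContDiff ℝ ∞ S →
      (∀ k x, sqn x = ringR k ^ 2 → S x = 0 ∧ fderiv ℝ S x = 0) →
      ∀ U : Set E2, IsOpen U → (0 : E2) ∈ U → ∀ f : E2 → E3, ContDiffOn ℝ ∞ f U →
        Isom (fun x => Real.exp (2 * S x) * E0 x) (fun x => Real.exp (2 * S x) * F0 x)
          (fun x => Real.exp (2 * S x) * G0 x) f U →
        ∃ k : ℕ, ∃ φ : ℚ, ∃ a : ℝ, 0 < a ∧ chart (c k) φ (ringR k, 0) ∈ U ∧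
          NormalAtLeast (f ∘ chart (c k) φ) (ringR k, 0) a)

/-- The final statement. -/
def FinalStmt : Prop :=
  ∃ E F G : ℝ × ℝ → ℝ,
    ContDiff ℝ ∞ E ∧ ContDiff ℝ ∞ F ∧ ContDiff ℝ ∞ G ∧
    (∀ x, 0 < E x ∧ F x ^ 2 < E x * G x) ∧
    ∀ U : Set (ℝ × ℝ), IsOpen U → (0 : ℝ × ℝ) ∈ U →
      ¬ ∃ f : ℝ × ℝ → EuclideanSpace ℝ (Fin 3), ContDiffOn ℝ ∞ f U ∧
        ∀ x ∈ U,
          ⟪fderiv ℝ f x (1, 0), fderiv ℝ f x (1, 0)⟫ = E x ∧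
          ⟪fderiv ℝ f x (1, 0), fderiv ℝ f x (0, 1)⟫ = F x ∧
          ⟪fderiv ℝ f x (0, 1), fderiv ℝ f x (0, 1)⟫ = G x

end Vale.Agent.P229
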