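import Mathlib

/-!
P229: bounds for iterated derivatives along a curve, with weights.

`Good U L r C f p` says that the `i`-th derivative of `f` at `p` is at most `C * U (r + i)`
whenever `r + i ≤ L`.  The weights are almost submultiplicative (`Wt`).
-/

namespace Vale.Agent.P229

open Set Finset
open scoped ContDiff Topology

/-- Weights: at least one, monotone, almost submultiplicative. -/
structure Wt (U : ℕ → ℝ) (L : ℕ) (C0 : ℝ) : Prop where
  one_le : ∀ i ≤ L, 1 ≤ U i
  mono : ∀ i j, i ≤ j → j ≤ L → U i ≤ U j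
  mult : ∀ a b l, a ≤ l → b ≤ l → l ≤ L → a + b ≤ l + 3 → U a * U b ≤ C0 * U l

variable {E F G : Type*} [NormedAddCommGroup E] [NormedSpace ℝ E] [NormedAddCommGroup F]
  [NormedSpace ℝ F] [NormedAddCommGroup G] [NormedSpace ℝ G]

/-- Weighted bound of the derivatives of `f` at `p`. -/
def Good (U : ℕ → ℝ) (L r : ℕ) (C : ℝ) (f : ℝ → E) (p : ℝ) : Prop :=
  ∀ i, r + i ≤ L → ‖iteratedDeriv i f p‖ ≤ C * U (r + i)

variable {U : ℕ → ℝ} {L r s q : ℕ} {C C' C0 p : ℝ} {I : Set ℝ}

lemma Wt.pos (hU : Wt U L C0) {i : ℕ} (hi : i ≤ L) : 0 < U i :=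
  lt_of_lt_of_le one_pos (hU.one_le i hi)

lemma Wt.C0_pos (hU : Wt U L C0) : 0 < C0 := by
  have h := hU.mult 0 0 0 le_rfl le_rfl (Nat.zero_le L) (by omega)
  have h1 := hU.pos (Nat.zero_le L)
  nlinarith

lemma Good.mono_const (hU : Wt U L C0) {f : ℝ → E} (hf : Good U L r C f p) (hC : C ≤ C') :
    Good U L r C' f p := fun i hi =>
  (hf i hi).trans (mul_le_mul_of_nonneg_right hC (hU.pos hi).le)

lemma Good.mono (hU : Wt U L C0) {f : ℝ → E} (hC : 0 ≤ C) (hf : Good U L r C f p) (h : r ≤ s) :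
    Good U L s C f p := fun i hi =>
  (hf i (by omega)).trans
    (mul_le_mul_of_nonneg_left (hU.mono _ _ (by omega) hi) hC)

lemma Good.deriv {f : ℝ → E} (hf : Good U L r C f p) : Good U L (r + 1) C (deriv f) p := by
  intro i hi
  have h := hf (i + 1) (by omega)
  rw [iteratedDeriv_succ'] at h
  have e : r + (i + 1) = r + 1 + i := by omega
  rwa [e] at h

lemma Good.iterDeriv {f : ℝ → E} (hf : Good U L r C f p) (k : ℕ) :
    Good U L (r + k) C (iteratedDeriv k f) p := by
  induction k generalizing r f with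
  | zero => simpa using hf
  | succ k ih =>
    have h := ih hf.deriv
    rw [iteratedDeriv_succ']
    have e : r + (k + 1) = r + 1 + k := by omega
    rwa [e]

lemma Good.congr {f g : ℝ → E} (hI : IsOpen I) (hp : p ∈ I) (h : EqOn f g I)
    (hf : Good U L r C f p) : Good U L r C g p := fun i hi => by
  have e : f =ᶠ[𝓝 p] g := Filter.eventuallyEq_of_mem (hI.mem_nhds hp) h
  rw [← e.iteratedDeriv_eq i]
  exact hf i hi

lemma Good.add {f g : ℝ → E} (hI : IsOpen I) (hp : p ∈ I) (hf' : ContDiffOn ℝ ∞ f I)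
    (hg' : ContDiffOn ℝ ∞ g I) (hf : Good U L r C f p) (hg : Good U L r C' g p) :
    Good U L r (C + C') (fun x => f x + g x) p := by
  intro i hi
  have h1 : ContDiffAt ℝ i f p :=
    (hf'.contDiffAt (hI.mem_nhds hp)).of_le (by exact_mod_cast le_top)
  have h2 : ContDiffAt ℝ i g p :=
    (hg'.contDiffAt (hI.mem_nhds hp)).of_le (by exact_mod_cast le_top)
  rw [iteratedDeriv_fun_add h1 h2, add_mul]
  exact (norm_add_le _ _).trans (add_le_add (hf i hi) (hg i hi))

lemma Good.const_smul {f : ℝ → E} (hf : Good U L r C f p) (c : ℝ) :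
    Good U L r (|c| * C) (fun x => c • f x) p := by
  intro i hi
  rw [show (fun x => c • f x) = c • f from rfl, iteratedDeriv_const_smul_field, norm_smul,
    Real.norm_eq_abs, mul_assoc]
  exact mul_le_mul_of_nonneg_left (hf i hi) (abs_nonneg c)

lemma norm_iteratedDeriv_bilinear (B : E →L[ℝ] F →L[ℝ] G) {f : ℝ → E} {g : ℝ → F}
    (hI : IsOpen I) (hp : p ∈ I) (hf : ContDiffOn ℝ ∞ f I) (hg : ContDiffOn ℝ ∞ g I) (i : ℕ) :
    ‖iteratedDeriv i (fun x => B (f x) (g x)) p‖ ≤
      ‖B‖ * ∑ a ∈ Finset.range (i + 1), (i.choose a : ℝ) * ‖iteratedDeriv a f p‖ *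
        ‖iteratedDeriv (i - a) g p‖ := by
  have h := B.norm_iteratedFDerivWithin_le_of_bilinear hf hg hI.uniqueDiffOn hp
    (n := i) (by exact_mod_cast le_top)
  simpa only [norm_iteratedFDerivWithin_eq_norm_iteratedDerivWithin,
    iteratedDerivWithin_of_isOpen hI hp] using h

lemma Good.bilin (hU : Wt U L C0) (B : E →L[ℝ] F →L[ℝ] G) {f : ℝ → E} {g : ℝ → F}
    (hI : IsOpen I) (hp : p ∈ I) (hf' : ContDiffOn ℝ ∞ f I) (hg' : ContDiffOn ℝ ∞ g I)
    (hC : 0 ≤ C) (hC' : 0 ≤ C') (hf : Good U L r C f p) (hg : Good U L s C' g p)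
    (hrq : r ≤ q) (hsq : s ≤ q) (hrs : r + s ≤ q + 3) :
    Good U L q (‖B‖ * 2 ^ L * C * C' * C0) (fun x => B (f x) (g x)) p := by
  intro i hi
  refine (norm_iteratedDeriv_bilinear B hI hp hf' hg' i).trans ?_
  have hq0 := (hU.pos hi).le
  have key : ∑ a ∈ Finset.range (i + 1), (i.choose a : ℝ) * ‖iteratedDeriv a f p‖ *
        ‖iteratedDeriv (i - a) g p‖
      ≤ ∑ a ∈ Finset.range (i + 1), (i.choose a : ℝ) * (C * C' * C0 * U (q + i)) := by
    refine Finset.sum_le_sum fun a ha => ?_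
    have ha' : a ≤ i := Nat.lt_succ_iff.mp (Finset.mem_range.mp ha)
    have h1 := hf a (by omega)
    have h2 := hg (i - a) (by omega)
    have h3 := hU.mult (r + a) (s + (i - a)) (q + i) (by omega) (by omega) hi (by omega)
    have p1 := (hU.pos (i := r + a) (by omega)).le
    rw [mul_assoc]
    refine mul_le_mul_of_nonneg_left ?_ (by positivity)
    calc ‖iteratedDeriv a f p‖ * ‖iteratedDeriv (i - a) g p‖
        ≤ (C * U (r + a)) * (C' * U (s + (i - a))) :=
          mul_le_mul h1 h2 (norm_nonneg _) (mul_nonneg hC p1)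
      _ = C * C' * (U (r + a) * U (s + (i - a))) := by ring
      _ ≤ C * C' * (C0 * U (q + i)) := mul_le_mul_of_nonneg_left h3 (mul_nonneg hC hC')
      _ = C * C' * C0 * U (q + i) := by ring
  have hsum : ∑ a ∈ Finset.range (i + 1), (i.choose a : ℝ) ≤ 2 ^ L := by
    rw [show ∑ a ∈ Finset.range (i + 1), (i.choose a : ℝ) = 2 ^ i by
      exact_mod_cast Nat.sum_range_choose i]
    exact pow_le_pow_right₀ (by norm_num) (by omega)
  have hnn : 0 ≤ C * C' * C0 * U (q + i) := by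
    have := hU.C0_pos.le
    positivity
  calc ‖B‖ * _ ≤ ‖B‖ * (∑ a ∈ Finset.range (i + 1), (i.choose a : ℝ) * (C * C' * C0 * U (q + i))) :=
        mul_le_mul_of_nonneg_left key (ContinuousLinearMap.opNorm_nonneg B)
    _ ≤ ‖B‖ * (2 ^ L * (C * C' * C0 * U (q + i))) := by
        rw [← Finset.sum_mul]
        exact mul_le_mul_of_nonneg_left (mul_le_mul_of_nonneg_right hsum hnn) (ContinuousLinearMap.opNorm_nonneg B)
    _ = ‖B‖ * 2 ^ L * C * C' * C0 * U (q + i) := by ring

end Vale.Agent.P229
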