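import Vale.Agent.P229.Defs

/-!
# P229, left estimates: the cutoffs of one energy step
-/

namespace Vale.Agent.P229

open Real Set
open scoped ContDiff Topology

/-- Smooth step, zero up to `a`, one from `b` on. -/
noncomputable def stepUp (a b x : ℝ) : ℝ := smoothTransition ((x - a) / (b - a))

/-- Symmetric plateau, one on `[-a, a]`, zero outside `(-b, b)`. -/
noncomputable def plateau (a b x : ℝ) : ℝ := stepUp (-b) (-a) x * stepUp (-b) (-a) (-x)

/-- Cutoff of a rectangle: one on `[-a, r] × [-a, a]`, zero outside `(-b, r') × (-b, b)`. -/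
noncomputable def cutRect (a b r r' : ℝ) (z : E2) : ℝ :=
  stepUp (-b) (-a) z.1 * stepUp (-r') (-r) (-z.1) * plateau a b z.2

/-- Cutoff of a rectangle away from the central square. -/
noncomputable def cutOut (a b r r' : ℝ) (z : E2) : ℝ :=
  cutRect a b r r' z * (1 - plateau (8 / 5) (11 / 5) z.1 * plateau (8 / 5) (11 / 5) z.2)

variable {a b r r' x : ℝ}

lemma contDiff_stepUp : ContDiff ℝ ∞ (stepUp a b) :=
  smoothTransition.contDiff.comp ((contDiff_id.sub contDiff_const).div_const _)

lemma stepUp_nonneg : 0 ≤ stepUp a b x := smoothTransition.nonneg _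

lemma stepUp_le_one : stepUp a b x ≤ 1 := smoothTransition.le_one _

lemma stepUp_one (hab : a < b) (h : b ≤ x) : stepUp a b x = 1 :=
  smoothTransition.one_of_one_le ((one_le_div (sub_pos.2 hab)).2 (by linarith))

lemma stepUp_zero (hab : a < b) (h : x ≤ a) : stepUp a b x = 0 :=
  smoothTransition.zero_of_nonpos (div_nonpos_of_nonpos_of_nonneg (by linarith) (by linarith))

lemma contDiff_plateau : ContDiff ℝ ∞ (plateau a b) :=
  contDiff_stepUp.mul (contDiff_stepUp.comp contDiff_neg)

lemma plateau_mem : 0 ≤ plateau a b x ∧ plateau a b x ≤ 1 :=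
  ⟨mul_nonneg stepUp_nonneg stepUp_nonneg, mul_le_one₀ stepUp_le_one stepUp_nonneg stepUp_le_one⟩

lemma plateau_one (hab : a < b) (h : |x| ≤ a) : plateau a b x = 1 := by
  have := abs_le.1 h
  rw [plateau, stepUp_one (by linarith) (by linarith), stepUp_one (by linarith) (by linarith),
    mul_one]

lemma plateau_zero (hab : a < b) (h : b ≤ |x|) : plateau a b x = 0 := by
  rcases le_abs.1 h with h | h
  · rw [plateau, stepUp_zero (x := -x) (by linarith) (by linarith), mul_zero]
  · rw [plateau, stepUp_zero (x := x) (by linarith) (by linarith), zero_mul]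

lemma contDiff_cutRect : ContDiff ℝ ∞ (cutRect a b r r') :=
  ((contDiff_stepUp.comp contDiff_fst).mul (contDiff_stepUp.comp contDiff_fst.neg)).mul
    (contDiff_plateau.comp contDiff_snd)

lemma cutRect_mem (z : E2) : 0 ≤ cutRect a b r r' z ∧ cutRect a b r r' z ≤ 1 :=
  ⟨mul_nonneg (mul_nonneg stepUp_nonneg stepUp_nonneg) plateau_mem.1,
    mul_le_one₀ (mul_le_one₀ stepUp_le_one stepUp_nonneg stepUp_le_one) plateau_mem.1
      plateau_mem.2⟩

lemma cutRect_one (hab : a < b) (hr : r < r') {z : E2} (h : z ∈ Icc (-a) r ×ˢ Icc (-a) a) :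
    cutRect a b r r' z = 1 := by
  obtain ⟨⟨h1, h2⟩, h3, h4⟩ := h
  rw [cutRect, stepUp_one (by linarith) (by linarith), stepUp_one (by linarith) (by linarith),
    plateau_one hab (abs_le.2 ⟨h3, h4⟩), one_mul, mul_one]

lemma cutRect_zero (hab : a < b) (hr : r < r') {z : E2} (h : z ∉ Ioo (-b) r' ×ˢ Ioo (-b) b) :
    cutRect a b r r' z = 0 := by
  by_cases h1 : z.1 ≤ -b
  · rw [cutRect, stepUp_zero (x := z.1) (by linarith) h1, zero_mul, zero_mul]
  by_cases h2 : r' ≤ z.1
  · rw [cutRect, stepUp_zero (x := -z.1) (by linarith) (by linarith), mul_zero, zero_mul]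
  have : b ≤ |z.2| := by
    by_contra h3
    exact h ⟨⟨not_le.1 h1, not_le.1 h2⟩, abs_lt.1 (not_le.1 h3)⟩
  rw [cutRect, plateau_zero hab this, mul_zero]

lemma cutRect_tsupport (hab : a < b) (hr : r < r') :
    tsupport (cutRect a b r r') ⊆ Icc (-b) r' ×ˢ Icc (-b) b := by
  refine closure_minimal (fun z hz => ?_) (isClosed_Icc.prod isClosed_Icc)
  by_contra h
  exact hz (cutRect_zero hab hr fun h' => h (prod_mono Ioo_subset_Icc_self Ioo_subset_Icc_self h'))

lemma cutRect_compact (hab : a < b) (hr : r < r') : HasCompactSupport (cutRect a b r r') :=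
  (isCompact_Icc.prod isCompact_Icc).of_isClosed_subset (isClosed_tsupport _)
    (cutRect_tsupport hab hr)

/-- The gradient vanishes inside. -/
lemma cutRect_fderiv (hab : a < b) (hr : r < r') {z : E2} (h : z ∈ Ioo (-a) r ×ˢ Ioo (-a) a) :
    fderiv ℝ (cutRect a b r r') z = 0 := by
  have he : cutRect a b r r' =ᶠ[𝓝 z] fun _ => 1 :=
    Filter.eventually_of_mem ((isOpen_Ioo.prod isOpen_Ioo).mem_nhds h) fun w hw =>
      cutRect_one hab hr (prod_mono Ioo_subset_Icc_self Ioo_subset_Icc_self hw)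
  rw [he.fderiv_eq, fderiv_fun_const, Pi.zero_apply]

lemma contDiff_cutOut : ContDiff ℝ ∞ (cutOut a b r r') :=
  contDiff_cutRect.mul (contDiff_const.sub
    ((contDiff_plateau.comp contDiff_fst).mul (contDiff_plateau.comp contDiff_snd)))

lemma cutOut_nonneg (z : E2) : 0 ≤ cutOut a b r r' z :=
  mul_nonneg (cutRect_mem z).1 (sub_nonneg.2
    (mul_le_one₀ plateau_mem.2 plateau_mem.1 plateau_mem.2))

lemma cutOut_zero_inner {z : E2} (h1 : |z.1| ≤ 8 / 5) (h2 : |z.2| ≤ 8 / 5) :
    cutOut a b r r' z = 0 := by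
  rw [cutOut, plateau_one (by norm_num) h1, plateau_one (by norm_num) h2]; ring

lemma cutOut_one (hab : a < b) (hr : r < r') {z : E2} (h : z ∈ Icc (-a) r ×ˢ Icc (-a) a)
    (hz : 11 / 5 ≤ |z.1| ∨ 11 / 5 ≤ |z.2|) : cutOut a b r r' z = 1 := by
  rw [cutOut, cutRect_one hab hr h]
  rcases hz with h' | h' <;> rw [plateau_zero (by norm_num) h'] <;> ring

lemma cutOut_tsupport (hab : a < b) (hr : r < r') :
    tsupport (cutOut a b r r') ⊆ Icc (-b) r' ×ˢ Icc (-b) b :=
  (tsupport_mul_subset_left).trans (cutRect_tsupport hab hr)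

lemma cutOut_compact (hab : a < b) (hr : r < r') : HasCompactSupport (cutOut a b r r') :=
  (cutRect_compact hab hr).mul_right

end Vale.Agent.P229
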