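import Vale.Agent.P229.Defs

/-!
P229: coefficients of the differentiated hodograph system.
With `a = d1^[m] X`, `b = d1^[m] q` the level equation reads
`d2 b = gam * d1 a + bet * d1 b + cm m * a + dm m * b + Glev m`.
-/

namespace Vale.Agent.P229

variable (ψ : E2 → ℝ) (t lam : ℝ) (X q : E2 → ℝ)

noncomputable def gam : E2 → ℝ := along (gamF ψ t lam) X q

noncomputable def bet : E2 → ℝ := along (betF ψ t lam) X q

/-- Derivative of `rhsF` in `X`, along the solution. -/
noncomputable def cX : E2 → ℝ :=
  along (fun p y X q v w => deriv (fun s => rhsF ψ t lam p y s q v w) X) X q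

/-- Derivative of `rhsF` in `q`, along the solution. -/
noncomputable def cq : E2 → ℝ :=
  along (fun p y X q v w => deriv (fun s => rhsF ψ t lam p y X s v w) q) X q

noncomputable def cm (m : ℕ) (z : E2) : ℝ := (m : ℝ) * d1 (gam ψ t lam X q) z + cX ψ t lam X q z

noncomputable def dm (m : ℕ) (z : E2) : ℝ := (m : ℝ) * d1 (bet ψ t lam X q) z + cq ψ t lam X q z

/-- The lower order rest of the level equation. -/
noncomputable def Glev (m : ℕ) (z : E2) : ℝ :=
  d2 ((d1^[m]) q) z - gam ψ t lam X q z * (d1^[m + 1]) X z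
    - bet ψ t lam X q z * (d1^[m + 1]) q z
    - cm ψ t lam X q m z * (d1^[m]) X z - dm ψ t lam X q m z * (d1^[m]) q z

/-- Sum of all levels below `m`. -/
noncomputable def lowSum (m : ℕ) (z : E2) : ℝ :=
  ∑ l ∈ Finset.range m, (|(d1^[l]) X z| + |(d1^[l]) q z|)

end Vale.Agent.P229
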