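import Vale.Agent.P229.Interfaces
import Vale.Agent.P229.LevelsDef
import Vale.Agent.P229.LeftAux

/-!
# P229, left estimates: the induction on levels

From an equation bound and one energy step, all levels up to `n` are bounded on the line `p = -K t`.
-/

namespace Vale.Agent.P229

open Real Set MeasureTheory
open scoped ContDiff

/-- Squared size of a level. -/
noncomputable def lev (X q : E2 → ℝ) (l : ℕ) (z : E2) : ℝ :=
  ((d1^[l]) X z) ^ 2 + ((d1^[l]) q z) ^ 2

/-- Half height, and left end, of the `j`-th rectangle. -/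
noncomputable def ra (n j : ℕ) : ℝ := 5 / 2 + ((n : ℝ) + 2 - j) / (2 * ((n : ℝ) + 3))

/-- Right end of the `j`-th rectangle. -/
noncomputable def rp (n : ℕ) (K t : ℝ) (j : ℕ) : ℝ := -((K - ((n : ℝ) + 2 - j)) * t)

/-- The `j`-th rectangle. -/
noncomputable def Lset (n : ℕ) (K t : ℝ) (j : ℕ) : Set E2 :=
  Icc (-ra n j) (rp n K t j) ×ˢ Icc (-ra n j) (ra n j)

/-- The levels up to `j` are square integrable on the `j`-th rectangle. -/
def L2le (n : ℕ) (K t : ℝ) (X q : E2 → ℝ) (j : ℕ) (C : ℝ) : Prop :=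
  ∀ l ≤ j, ∫ z in Lset n K t j, lev X q l z ≤ C

/-- The levels up to `M` are bounded at a point. -/
def SupAt (X q : E2 → ℝ) (M : ℕ) (B : ℝ) (z : E2) : Prop :=
  ∀ l ≤ M, |(d1^[l]) X z| ≤ B ∧ |(d1^[l]) q z| ≤ B

/-- The parameters of the statement. -/
structure Par (n : ℕ) (K0 η t0 δ0 δ t lam : ℝ) (X q : E2 → ℝ) : Prop where
  delta_pos : 0 < δ
  delta_le : δ ≤ δ0
  t_ge : t0 ≤ t
  t_le : t ≤ η
  lam_pos : 0 < lam
  lam_le : lam ≤ η
  hodo : Hodo n δ t lam η K0 X q

/-- The equation bounds `y` derivatives of `q` levels by neighbouring levels. -/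
def EqBound (n : ℕ) (K0 K η t0 δ0 : ℝ) : Prop :=
  ∀ m, 6 ≤ m → m ≤ n + 2 → ∀ B : ℝ, ∃ C : ℝ, ∀ δ t lam : ℝ, ∀ X q : E2 → ℝ,
    Par n K0 η t0 δ0 δ t lam X q → ∀ z ∈ Lset n K t 5, SupAt X q (max 5 (m - 3)) B z →
      |d2 ((d1^[m]) q) z| ≤ C * (1 + lowSum X q (m + 2) z)

/-- One step of the energy estimate. -/
def StepBound (n : ℕ) (K0 K η t0 δ0 : ℝ) : Prop :=
  ∀ j, 5 ≤ j → j ≤ n + 1 → ∀ B : ℝ, ∃ C : ℝ, ∀ δ t lam : ℝ, ∀ X q : E2 → ℝ,
    Par n K0 η t0 δ0 δ t lam X q → L2le n K t X q j B →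
      (∀ z ∈ Lset n K t j, SupAt X q (max 5 (j + 1 - 3)) B z) →
        ∫ z in Lset n K t (j + 1), lev X q (j + 1) z ≤ C

lemma lev_nonneg (X q : E2 → ℝ) (l : ℕ) (z : E2) : 0 ≤ lev X q l z := by
  unfold lev; positivity

lemma continuous_lev {X q : E2 → ℝ} (hX : ContDiff ℝ ∞ X) (hq : ContDiff ℝ ∞ q) (l : ℕ) :
    Continuous (lev X q l) :=
  ((contDiff_iter hX l).continuous.pow 2).add ((contDiff_iter hq l).continuous.pow 2)

lemma iter_eq_iteratedFDeriv {f : E2 → ℝ} (hf : ContDiff ℝ ∞ f) (k : ℕ) :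
    d1^[k] f = fun z => iteratedFDeriv ℝ k f z (fun _ => ((1, 0) : E2)) := by
  induction k with
  | zero => funext z; simp
  | succ k ih =>
    funext z
    have hd : DifferentiableAt ℝ (iteratedFDeriv ℝ k f) z :=
      (hf.differentiable_iteratedFDeriv (by exact_mod_cast ENat.natCast_lt_top k)).differentiableAt
    rw [Function.iterate_succ_apply', ih]
    simp only [d1]
    rw [fderiv_continuousMultilinear_apply_const hd, iteratedFDeriv_succ_apply_left]
    rfl

lemma abs_iter_le {f : E2 → ℝ} (hf : ContDiff ℝ ∞ f) (k : ℕ) (z : E2) :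
    |(d1^[k]) f z| ≤ ‖iteratedFDeriv ℝ k f z‖ := by
  rw [iter_eq_iteratedFDeriv hf k, ← Real.norm_eq_abs]
  refine (ContinuousMultilinearMap.le_opNorm _ _).trans ?_
  simp [Prod.norm_def]

section
variable {n : ℕ} {K0 K η t0 δ0 δ t lam : ℝ} {X q : E2 → ℝ}

lemma ra_mem {j : ℕ} (hj : j ≤ n + 2) : 5 / 2 ≤ ra n j ∧ ra n j ≤ 3 := by
  have h : (j : ℝ) ≤ n + 2 := by exact_mod_cast hj
  have h0 : (0 : ℝ) < 2 * ((n : ℝ) + 3) := by positivity
  have h2 : ((n : ℝ) + 2 - j) / (2 * ((n : ℝ) + 3)) ≤ 1 / 2 := by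
    rw [div_le_iff₀ h0]; linarith [Nat.cast_nonneg (α := ℝ) j]
  have h3 : 0 ≤ ((n : ℝ) + 2 - j) / (2 * ((n : ℝ) + 3)) := div_nonneg (by linarith) h0.le
  unfold ra
  constructor <;> linarith

lemma rp_mem {j : ℕ} (hj : j ≤ n + 2) (hK : (n : ℝ) + 3 ≤ K) (ht : 0 ≤ t) (hKt : K * t ≤ 1) :
    -1 ≤ rp n K t j ∧ rp n K t j ≤ 0 := by
  have h : (j : ℝ) ≤ n + 2 := by exact_mod_cast hj
  have h' := Nat.cast_nonneg (α := ℝ) j
  unfold rp
  constructor <;> nlinarith

lemma rp_top : rp n K t (n + 2) = -(K * t) := by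
  unfold rp; push_cast; ring

lemma ra_anti {i j : ℕ} (h : i ≤ j) : ra n j ≤ ra n i := by
  unfold ra
  have : (i : ℝ) ≤ j := by exact_mod_cast h
  gcongr

lemma rp_anti {i j : ℕ} (h : i ≤ j) (ht : 0 ≤ t) : rp n K t j ≤ rp n K t i := by
  have : (i : ℝ) ≤ j := by exact_mod_cast h
  unfold rp; nlinarith

lemma Lset_anti {i j : ℕ} (h : i ≤ j) (ht : 0 ≤ t) : Lset n K t j ⊆ Lset n K t i :=
  prod_mono (Icc_subset_Icc (neg_le_neg (ra_anti h)) (rp_anti h ht))
    (Icc_subset_Icc (neg_le_neg (ra_anti h)) (ra_anti h))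

lemma Lset_box {j : ℕ} (hj : j ≤ n + 2) (hK : (n : ℝ) + 3 ≤ K) (ht : 0 ≤ t) (hKt : K * t ≤ 1) :
    Lset n K t j ⊆ box 4 := fun z ⟨⟨h1, h2⟩, h3, h4⟩ => by
  have ha := ra_mem hj
  have hp := rp_mem hj hK ht hKt
  exact ⟨abs_lt.2 ⟨by linarith, by linarith⟩, abs_lt.2 ⟨by linarith, by linarith⟩⟩

variable (hP : Par n K0 η t0 δ0 δ t lam X q) (hK0 : 0 < K0) (hK : 2 * K0 + 1 ≤ K)
  (hKn : (n : ℝ) + 3 ≤ K) (hη : η ≤ 1) (hKη : K * η ≤ 1) (ht0 : 0 < t0)
include hP hK0 hK hKn hη hKη ht0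

lemma sup_base {M : ℕ} (hM : M ≤ 5) {z : E2} (hz : z ∈ Lset n K t 5) (hn : 8 ≤ n) :
    SupAt X q M (8 + 8 * K0) z := by
  have ht : 0 ≤ t := le_trans ht0.le hP.t_ge
  have hKt : K * t ≤ 1 := le_trans (mul_le_mul_of_nonneg_left hP.t_le (by linarith)) hKη
  have hb := Lset_box (n := n) (by omega) hKn ht hKt hz
  have hX : |X z| ≤ 4 := by
    have h := hP.hodo.axisS z hb
    have h2 := abs_sub_abs_le_abs_sub (X z) z.1
    have hz1 : |z.1| ≤ 3 := by
      obtain ⟨ha, ha'⟩ := ra_mem (n := n) (j := 5) (by omega)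
      obtain ⟨hp, hp'⟩ := rp_mem (n := n) (j := 5) (by omega) hKn ht hKt
      exact abs_le.2 ⟨by linarith [hz.1.1], by linarith [hz.1.2]⟩
    linarith
  intro l hl
  match l, (le_trans hl hM) with
  | 0, _ =>
    have h := hP.hodo.axisQ z hb
    have h' : K0 * (|X z| + t) ≤ K0 * 5 := mul_le_mul_of_nonneg_left (by linarith [hP.t_le]) hK0.le
    simp only [Function.iterate_zero_apply]
    exact ⟨by linarith, by linarith⟩
  | 1, _ =>
    have h1 := hP.hodo.Xp z
    have h2 := hP.hodo.Qp z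
    simp only [Function.iterate_one]
    exact ⟨by have := abs_sub_abs_le_abs_sub (d1 X z) 1; rw [abs_one] at this; linarith, by linarith⟩
  | k + 2, hk =>
    have h1 := (abs_iter_le hP.hodo.smoothX (k + 2) z).trans (hP.hodo.highX (k + 2) (by omega) hk z)
    have h2 := (abs_iter_le hP.hodo.smoothQ (k + 2) z).trans (hP.hodo.highQ (k + 2) (by omega) hk z)
    exact ⟨by linarith, by linarith⟩

end

/-- The rectangle sup bound in the form used by the induction. -/
lemma sup_of_integrand {n j : ℕ} {K t R : ℝ} {X q f : E2 → ℝ} {C : ℝ} (hj : j ≤ n + 2)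
    (hK : (n : ℝ) + 3 ≤ K) (ht : 0 ≤ t) (hKt : K * t ≤ 1) (hX : ContDiff ℝ ∞ X)
    (hq : ContDiff ℝ ∞ q) (hf : ContDiff ℝ ∞ f) (hR : 0 ≤ R) (hC : L2le n K t X q j C)
    (hb : ∀ w ∈ Lset n K t j, |f w| ≤ R * (1 + ∑ l ∈ Finset.range (j + 1), lev X q l w) ∧
      |d1 f w| ≤ R * (1 + ∑ l ∈ Finset.range (j + 1), lev X q l w) ∧
      |d2 f w| ≤ R * (1 + ∑ l ∈ Finset.range (j + 1), lev X q l w) ∧
      |d2 (d1 f) w| ≤ R * (1 + ∑ l ∈ Finset.range (j + 1), lev X q l w))
    {z : E2} (hz : z ∈ Lset n K t j) :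
    |f z| ≤ 40 * R * (40 + (j + 1) * C) := by
  obtain ⟨ha, ha'⟩ := ra_mem (n := n) hj
  obtain ⟨hp, hp'⟩ := rp_mem hj hK ht hKt
  set T : E2 → ℝ := fun w => 1 + ∑ l ∈ Finset.range (j + 1), lev X q l w with hT
  have hw : 1 ≤ rp n K t j - -ra n j := by linarith
  have hw' : rp n K t j - -ra n j ≤ 3 := by linarith
  have hh : 1 ≤ ra n j - -ra n j := by linarith
  have hh' : ra n j - -ra n j ≤ 6 := by linarith
  have h := rect_sup hf (a := -ra n j) (b := rp n K t j) (c := -ra n j) (d := ra n j)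
    (by linarith) (by linarith) hz.1 hz.2
  have hcomp : IsCompact (Lset n K t j) := isCompact_Icc.prod isCompact_Icc
  have hTc : Continuous T := continuous_const.add
    (continuous_finsetSum _ fun l _ => continuous_lev hX hq l)
  have hint : ∫ w in Lset n K t j, T w ≤ 40 + (j + 1) * C := by
    have hil : ∀ l, IntegrableOn (lev X q l) (Lset n K t j) := fun l =>
      (continuous_lev hX hq l).continuousOn.integrableOn_compact hcomp
    have h1 : IntegrableOn (fun _ : E2 => (1 : ℝ)) (Lset n K t j) :=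
      continuous_const.continuousOn.integrableOn_compact hcomp
    rw [hT, MeasureTheory.integral_add h1
      (integrable_finsetSum _ fun l _ => hil l), integral_finsetSum _ fun l _ => hil l]
    have hs : ∑ l ∈ Finset.range (j + 1), ∫ w in Lset n K t j, lev X q l w ≤ (j + 1) * C := by
      refine (Finset.sum_le_card_nsmul _ _ C fun l hl => hC l ?_).trans_eq (by simp)
      simp at hl; omega
    have hv : volume.real (Lset n K t j) ≤ 40 := by
      rw [Lset, measureReal_def, Measure.volume_eq_prod, Measure.prod_prod, Real.volume_Icc,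
        Real.volume_Icc, ENNReal.toReal_mul, ENNReal.toReal_ofReal (by linarith),
        ENNReal.toReal_ofReal (by linarith)]
      nlinarith
    simpa using add_le_add hv hs
  have hmain : (∫ w in Lset n K t j, (|f w| + (rp n K t j - -ra n j) * |d1 f w|
      + (ra n j - -ra n j) * |d2 f w|
      + (rp n K t j - -ra n j) * (ra n j - -ra n j) * |d2 (d1 f) w|))
      ≤ 28 * R * ∫ w in Lset n K t j, T w := by
    rw [← MeasureTheory.integral_const_mul]
    have c0 := hf.continuous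
    have c1 := (contDiff_d1 hf).continuous
    have c2 := (contDiff_d2 hf).continuous
    have c3 := (contDiff_d2 (contDiff_d1 hf)).continuous
    refine setIntegral_mono_on ((by fun_prop : Continuous _).continuousOn.integrableOn_compact hcomp)
      ((continuous_const.mul hTc).continuousOn.integrableOn_compact hcomp) hcomp.measurableSet
      fun w hw'' => ?_
    obtain ⟨b0, b1, b2, b3⟩ := hb w hw''
    have hT0 : 0 ≤ R * T w := (abs_nonneg _).trans b0
    have e1 := mul_le_mul hw' b1 (abs_nonneg _) (by norm_num)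
    have e2 := mul_le_mul hh' b2 (abs_nonneg _) (by norm_num)
    have e3 := mul_le_mul (mul_le_mul hw' hh' (by linarith) (by norm_num)) b3 (abs_nonneg _)
      (by norm_num)
    change |f w| ≤ R * T w at b0
    simp only [hT] at b0 ⊢
    linarith
  have h1 := mul_le_mul_of_nonneg_left hint (by linarith : (0:ℝ) ≤ 28 * R)
  have h2 : (1:ℝ) * |f z| ≤ (rp n K t j - -ra n j) * (ra n j - -ra n j) * |f z| :=
    mul_le_mul_of_nonneg_right (one_le_mul_of_one_le_of_one_le hw hh) (abs_nonneg _)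
  have hT0 : 0 ≤ ∫ w in Lset n K t j, T w := setIntegral_nonneg hcomp.measurableSet fun w _ =>
    add_nonneg zero_le_one (Finset.sum_nonneg fun l _ => lev_nonneg X q l w)
  have h3 : 28 * R * (40 + (j + 1) * C) ≤ 40 * R * (40 + (j + 1) * C) :=
    mul_le_mul_of_nonneg_right (by linarith) (hT0.trans hint)
  linarith [show (∫ w in Lset n K t j, (|f w| + (rp n K t j - -ra n j) * |d1 f w|
      + (ra n j - -ra n j) * |d2 f w|
      + (rp n K t j - -ra n j) * (ra n j - -ra n j) * |d2 (d1 f) w|)) =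
      ∫ w in Icc (-ra n j) (rp n K t j) ×ˢ Icc (-ra n j) (ra n j), _ from rfl]

lemma abs_le_T {X q : E2 → ℝ} {l j : ℕ} (hl : l ≤ j) (w : E2) :
    |(d1^[l]) X w| + |(d1^[l]) q w| ≤ 2 * (1 + ∑ l ∈ Finset.range (j + 1), lev X q l w) := by
  have h := Finset.single_le_sum (f := fun l => lev X q l w) (fun l _ => lev_nonneg X q l w)
    (Finset.mem_range.2 (Nat.lt_succ_of_le hl))
  simp only [lev] at h ⊢
  have := abs_nonneg ((d1^[l]) X w)
  have := abs_nonneg ((d1^[l]) q w)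
  nlinarith [sq_abs ((d1^[l]) X w), sq_abs ((d1^[l]) q w), sq_nonneg (|(d1^[l]) X w| - 1),
    sq_nonneg (|(d1^[l]) q w| - 1)]

lemma lowSum_le_T {X q : E2 → ℝ} {k j : ℕ} (hk : k ≤ j + 1) (w : E2) :
    lowSum X q k w ≤ 2 * k * (1 + ∑ l ∈ Finset.range (j + 1), lev X q l w) := by
  refine (Finset.sum_le_card_nsmul _ _ _ fun l hl => abs_le_T (j := j) ?_ w).trans_eq ?_
  · simp at hl; omega
  · simp; ring

/-- Sup bounds of the levels two below the square integrable ones. -/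
theorem sup_of_L2 {n : ℕ} {K0 K η t0 δ0 : ℝ} (hn : 8 ≤ n) (hK0 : 0 < K0) (hK : 2 * K0 + 1 ≤ K)
    (hKn : (n : ℝ) + 3 ≤ K) (hη : η ≤ 1) (hKη : K * η ≤ 1) (ht0 : 0 < t0)
    (hE : EqBound n K0 K η t0 δ0) (i : ℕ) :
    ∀ C : ℝ, ∃ B : ℝ, ∀ δ t lam : ℝ, ∀ X q : E2 → ℝ, Par n K0 η t0 δ0 δ t lam X q →
      ∀ j, 5 ≤ j → j ≤ n + 2 → max 5 i ≤ max 5 (j - 2) → L2le n K t X q j C →
        ∀ z ∈ Lset n K t j, SupAt X q (max 5 i) B z := by
  induction i with
  | zero => exact fun C => ⟨8 + 8 * K0, fun δ t lam X q hP j h5 _ _ _ z hz =>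
      sup_base hP hK0 hK hKn hη hKη ht0 le_rfl (Lset_anti h5 (ht0.le.trans hP.t_ge) hz) hn⟩
  | succ i ih =>
    intro C
    obtain ⟨B, hB⟩ := ih C
    rcases Nat.lt_or_ge i 5 with h5i | h5i
    · exact ⟨B, fun δ t lam X q hP j h5 hj hij hC z hz =>
        (show max 5 (i + 1) = max 5 i by omega) ▸ hB δ t lam X q hP j h5 hj (by omega) hC z hz⟩
    by_cases hin : i + 1 ≤ n
    swap
    · exact ⟨B, fun δ t lam X q hP j h5 hj hij => absurd hij (by omega)⟩
    obtain ⟨C1, hC1⟩ := hE (i + 1) (by omega) (by omega) B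
    obtain ⟨C2, hC2⟩ := hE (i + 2) (by omega) (by omega) B
    set R : ℝ := 2 + |C1| * (2 * (n + 5)) + |C2| * (2 * (n + 5)) with hR
    refine ⟨|B| + 40 * R * (40 + ((n : ℝ) + 3) * |C|), fun δ t lam X q hP j h5 hj hij hC z hz => ?_⟩
    have ht : 0 ≤ t := ht0.le.trans hP.t_ge
    have hKt : K * t ≤ 1 := le_trans (mul_le_mul_of_nonneg_left hP.t_le (by linarith)) hKη
    have hij' : i + 3 ≤ j := by omega
    have hX := hP.hodo.smoothX
    have hq := hP.hodo.smoothQ
    have hS := hB δ t lam X q hP j h5 hj (by omega) hC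
    have hBd : 40 * R * (40 + (j + 1) * C) ≤ |B| + 40 * R * (40 + ((n : ℝ) + 3) * |C|) := by
      have hR0 : 0 ≤ R := by positivity
      have : ((j : ℝ) + 1) * C ≤ ((n : ℝ) + 3) * |C| := by
        have : (j : ℝ) ≤ n + 2 := by exact_mod_cast hj
        exact (mul_le_mul_of_nonneg_left (le_abs_self C) (by positivity)).trans
          (mul_le_mul_of_nonneg_right (by linarith) (abs_nonneg C))
      have := abs_nonneg B
      nlinarith
    intro l hl
    rcases Nat.lt_or_ge l (i + 1) with hlt | hge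
    · obtain ⟨a, b⟩ := hS z hz l (by omega)
      have h0 : 0 ≤ 40 * R * (40 + ((n : ℝ) + 3) * |C|) := by positivity
      exact ⟨by linarith [le_abs_self B], by linarith [le_abs_self B]⟩
    obtain rfl : l = i + 1 := by omega
    set T : E2 → ℝ := fun w => 1 + ∑ l ∈ Finset.range (j + 1), lev X q l w with hT
    have hT1 : ∀ w, 1 ≤ T w := fun w =>
      le_add_of_nonneg_right (Finset.sum_nonneg fun l _ => lev_nonneg X q l w)
    have hlev : ∀ w, ∀ l ≤ j, |(d1^[l]) X w| ≤ R * T w ∧ |(d1^[l]) q w| ≤ R * T w := fun w l hl => by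
      have h := abs_le_T (X := X) (q := q) hl w
      have : 2 * T w ≤ R * T w := mul_le_mul_of_nonneg_right 
        (show (2:ℝ) ≤ R by
          have : 0 ≤ |C1| * (2 * (n + 5)) := by positivity
          have : 0 ≤ |C2| * (2 * (n + 5)) := by positivity
          rw [hR]; linarith) (zero_le_one.trans (hT1 w))
      constructor <;> linarith [abs_nonneg ((d1^[l]) X w), abs_nonneg ((d1^[l]) q w)]
    have heq : ∀ m C', |C'| * (2 * (n + 5)) ≤ R → m + 2 ≤ j + 1 → ∀ w,
        C' * (1 + lowSum X q (m + 2) w) ≤ R * T w := fun m C' hC' hm w => by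
      have h := lowSum_le_T (X := X) (q := q) hm w
      have h0 : 0 ≤ lowSum X q (m + 2) w := Finset.sum_nonneg fun l _ => by positivity
      have hm' : ((m + 2 : ℕ) : ℝ) ≤ n + 4 := by exact_mod_cast (by omega : m + 2 ≤ n + 4)
      calc C' * (1 + lowSum X q (m + 2) w) ≤ |C'| * (1 + lowSum X q (m + 2) w) :=
            mul_le_mul_of_nonneg_right (le_abs_self _) (by linarith)
        _ ≤ |C'| * (2 * (n + 5) * T w) := by
            refine mul_le_mul_of_nonneg_left ?_ (abs_nonneg _)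
            have := mul_le_mul_of_nonneg_right (mul_le_mul_of_nonneg_left hm' (by norm_num : (0:ℝ) ≤ 2))
              (by linarith [hT1 w] : 0 ≤ T w)
            simp only [hT] at this hT1 ⊢
            nlinarith [hT1 w]
        _ ≤ R * T w := by rw [← mul_assoc]; exact mul_le_mul_of_nonneg_right hC' (by linarith [hT1 w])
    have hR1 : |C1| * (2 * (n + 5)) ≤ R := by rw [hR]; nlinarith [abs_nonneg C2, Nat.cast_nonneg (α := ℝ) n]
    have hR2 : |C2| * (2 * (n + 5)) ≤ R := by rw [hR]; nlinarith [abs_nonneg C1, Nat.cast_nonneg (α := ℝ) n]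
    constructor
    · refine (sup_of_integrand hj hKn ht hKt hX hq (contDiff_iter hX (i + 1)) (by positivity) hC
        (fun w _ => ⟨(hlev w _ (by omega)).1, ?_, ?_, ?_⟩) hz).trans hBd
      · rw [← Function.iterate_succ_apply' d1]; exact (hlev w _ (by omega)).1
      · rw [d2_iter_compat hX hP.hodo.compat, abs_neg]; exact (hlev w _ (by omega)).2
      · rw [← Function.iterate_succ_apply' d1, d2_iter_compat hX hP.hodo.compat, abs_neg]
        exact (hlev w _ (by omega)).2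
    · refine (sup_of_integrand hj hKn ht hKt hX hq (contDiff_iter hq (i + 1)) (by positivity) hC
        (fun w hw => ⟨(hlev w _ (by omega)).2, ?_, ?_, ?_⟩) hz).trans hBd
      · rw [← Function.iterate_succ_apply' d1]; exact (hlev w _ (by omega)).2
      · exact (hC1 δ t lam X q hP w (Lset_anti h5 ht hw) fun l hl => hS w hw l (by omega)).trans
          (heq _ C1 hR1 (by omega) w)
      · rw [← Function.iterate_succ_apply' d1]
        exact (hC2 δ t lam X q hP w (Lset_anti h5 ht hw) fun l hl => hS w hw l (by omega)).trans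
          (heq _ C2 hR2 (by omega) w)

/-- The left statement from the equation bound and the energy step. -/
theorem leftStmt_of (h : ∀ n : ℕ, 8 ≤ n → ∀ K0 : ℝ, 0 < K0 → ∃ K η : ℝ, 2 * K0 + 1 ≤ K ∧
    (n : ℝ) + 3 ≤ K ∧ 0 < η ∧ η ≤ 1 ∧ K * η ≤ 1 ∧ ∀ t0 : ℝ, 0 < t0 → ∃ δ0 : ℝ, 0 < δ0 ∧
      EqBound n K0 K η t0 δ0 ∧ StepBound n K0 K η t0 δ0) : LeftStmt := by
  intro n hn K0 hK0
  obtain ⟨K, η, hK, hKn, hη0, hη, hKη, h⟩ := h n hn K0 hK0
  refine ⟨K, η, hK, hη0, fun t0 ht0 => ?_⟩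
  obtain ⟨δ0, hδ0, hE, hS⟩ := h t0 ht0
  have main : ∀ j, 5 ≤ j → j ≤ n + 2 → ∃ C, ∀ δ t lam : ℝ, ∀ X q : E2 → ℝ,
      Par n K0 η t0 δ0 δ t lam X q → L2le n K t X q j C := by
    intro j hj
    induction j, hj using Nat.le_induction with
    | base =>
      intro _
      refine ⟨40 * (2 * (8 + 8 * K0) ^ 2), fun δ t lam X q hP l hl => ?_⟩
      have ht : 0 ≤ t := ht0.le.trans hP.t_ge
      have hKt : K * t ≤ 1 := le_trans (mul_le_mul_of_nonneg_left hP.t_le (by linarith)) hKη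
      obtain ⟨ha, ha'⟩ := ra_mem (n := n) (j := 5) (by omega)
      obtain ⟨hp, hp'⟩ := rp_mem (n := n) (j := 5) (by omega) hKn ht hKt
      have hc : IsCompact (Lset n K t 5) := isCompact_Icc.prod isCompact_Icc
      have hb : ∀ z ∈ Lset n K t 5, ‖lev X q l z‖ ≤ 2 * (8 + 8 * K0) ^ 2 := fun z hz => by
        obtain ⟨a, b⟩ := sup_base hP hK0 hK hKn hη hKη ht0 hl hz hn l le_rfl
        rw [Real.norm_eq_abs, abs_of_nonneg (lev_nonneg X q l z), lev]
        have := sq_le_sq' (abs_le.1 a).1 (abs_le.1 a).2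
        have := sq_le_sq' (abs_le.1 b).1 (abs_le.1 b).2
        linarith
      have := norm_setIntegral_le_of_norm_le_const (μ := volume) hc.measure_lt_top hb
      refine (le_abs_self _).trans (this.trans ?_)
      rw [mul_comm (40 : ℝ)]
      refine mul_le_mul_of_nonneg_left ?_ (by positivity)
      rw [Lset, measureReal_def, Measure.volume_eq_prod, Measure.prod_prod, Real.volume_Icc,
        Real.volume_Icc, ENNReal.toReal_mul, ENNReal.toReal_ofReal (by linarith),
        ENNReal.toReal_ofReal (by linarith)]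
      nlinarith
    | succ j hj ih =>
      intro hj2
      obtain ⟨C, hC⟩ := ih (by omega)
      obtain ⟨B, hB⟩ := sup_of_L2 hn hK0 hK hKn hη hKη ht0 hE (max 5 (j + 1 - 3)) C
      obtain ⟨C', hC'⟩ := hS j hj (by omega) (max B C)
      refine ⟨max C' C, fun δ t lam X q hP l hl => ?_⟩
      have ht : 0 ≤ t := ht0.le.trans hP.t_ge
      rcases Nat.lt_or_ge l (j + 1) with hlt | hge
      · refine le_trans ?_ ((hC δ t lam X q hP l (by omega)).trans (le_max_right _ _))
        exact setIntegral_mono_set ((continuous_lev hP.hodo.smoothX hP.hodo.smoothQ l).continuousOn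
          |>.integrableOn_compact (isCompact_Icc.prod isCompact_Icc))
          (Filter.Eventually.of_forall fun z => lev_nonneg X q l z)
          (Lset_anti (Nat.le_succ j) ht).eventuallyLE
      · obtain rfl : l = j + 1 := by omega
        refine (hC' δ t lam X q hP (fun l hl => (hC δ t lam X q hP l hl).trans (le_max_right _ _))
          fun z hz l hl => ?_).trans (le_max_left _ _)
        obtain ⟨a, b⟩ := hB δ t lam X q hP j hj (by omega) (by omega) (hC δ t lam X q hP) z hz l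
          (by omega)
        exact ⟨a.trans (le_max_left _ _), b.trans (le_max_left _ _)⟩
  obtain ⟨C, hC⟩ := main (n + 2) (by omega) le_rfl
  obtain ⟨B, hB⟩ := sup_of_L2 hn hK0 hK hKn hη hKη ht0 hE n C
  refine ⟨B, δ0, hδ0, fun δ t lam X q h1 h2 h3 h4 h5 h6 h7 m hm y hy => ?_⟩
  have hP : Par n K0 η t0 δ0 δ t lam X q := ⟨h1, h2, h3, h4, h5, h6, h7⟩
  have hKt : K * t ≤ 1 := le_trans (mul_le_mul_of_nonneg_left h4 (by linarith)) hKη
  obtain ⟨ha, ha'⟩ := ra_mem (n := n) (j := n + 2) le_rfl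
  have hz : (-(K * t), y) ∈ Lset n K t (n + 2) := by
    have := abs_le.1 hy
    exact ⟨⟨by linarith, rp_top.ge⟩, by constructor <;> linarith⟩
  exact hB δ t lam X q hP (n + 2) (by omega) le_rfl (by omega) (hC δ t lam X q hP) _ hz m (by omega)

end Vale.Agent.P229
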