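import Vale.Agent.P229.LeftInd
import Vale.Agent.P229.LeftCut
import Vale.Agent.P229.LeftHyp
import Vale.Agent.P229.Energy

/-!
# P229, left estimates: one weighted energy step, and the left statement
-/

namespace Vale.Agent.P229

open Real Set MeasureTheory Filter
open scoped ContDiff Topology

/-- What the step uses on the first rectangle. -/
structure Facts (n : ℕ) (K0 K η t0 δ0 C0 : ℝ) : Prop where
  coef : ∀ δ t lam : ℝ, ∀ X q : E2 → ℝ, Par n K0 η t0 δ0 δ t lam X q → ∀ z ∈ Lset n K t 5,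
    ∀ m : ℕ, 1 ≤ m → m ≤ n + 4 → CoeffAt (psi n δ) t lam X q m C0 z
  smooth : ∀ δ t lam : ℝ, ∀ X q : E2 → ℝ, Par n K0 η t0 δ0 δ t lam X q →
    ContDiffOn ℝ 2 (gam (psi n δ) t lam X q) (box 4) ∧
    ContDiffOn ℝ 2 (bet (psi n δ) t lam X q) (box 4) ∧
    ContinuousOn (cX (psi n δ) t lam X q) (box 4) ∧
    ContinuousOn (cq (psi n δ) t lam X q) (box 4)
  glev : ∀ m, 6 ≤ m → ∀ B : ℝ, ∃ C : ℝ, ∀ δ t lam : ℝ, ∀ X q : E2 → ℝ,
    Par n K0 η t0 δ0 δ t lam X q → ∀ z ∈ Lset n K t 5, SupAt X q (max 5 (m - 3)) B z →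
      |Glev (psi n δ) t lam X q m z| ≤ C * (1 + lowSum X q m z)

lemma isOpen_boxS (L : ℝ) : IsOpen (box L) :=
  (isOpen_lt continuous_fst.abs continuous_const).inter (isOpen_lt continuous_snd.abs continuous_const)

lemma eq_of_levels (ψ : E2 → ℝ) (t lam : ℝ) (X q : E2 → ℝ) (m : ℕ) (z : E2) :
    d2 ((d1^[m]) q) z = gam ψ t lam X q z * (d1^[m + 1]) X z
      + bet ψ t lam X q z * (d1^[m + 1]) q z + cm ψ t lam X q m z * (d1^[m]) X z
      + dm ψ t lam X q m z * (d1^[m]) q z + Glev ψ t lam X q m z := by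
  unfold Glev; ring

lemma eqBound_of_facts {n : ℕ} {K0 K η t0 δ0 C0 : ℝ} (hF : Facts n K0 K η t0 δ0 C0) :
    EqBound n K0 K η t0 δ0 := by
  intro m h6 hm B
  obtain ⟨C, hC⟩ := hF.glev m h6 B
  refine ⟨2 * |C0| + |C|, fun δ t lam X q hP z hz hS => ?_⟩
  have h := hF.coef δ t lam X q hP z hz m (by omega) (by omega)
  have hG := hC δ t lam X q hP z hz hS
  have h0 : ∀ k, 0 ≤ lowSum X q k z := fun k => Finset.sum_nonneg fun l _ => by positivity
  have hsum : lowSum X q (m + 2) z = lowSum X q m z + (|(d1^[m]) X z| + |(d1^[m]) q z|)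
      + (|(d1^[m + 1]) X z| + |(d1^[m + 1]) q z|) := by
    simp [lowSum, Finset.sum_range_succ]
  have e : ∀ c x : ℝ, |c| ≤ C0 → |c * x| ≤ |C0| * |x| := fun c x hc => by
    rw [abs_mul]; exact mul_le_mul_of_nonneg_right (hc.trans (le_abs_self _)) (abs_nonneg _)
  have e1 := e _ ((d1^[m + 1]) X z) h.bgam
  have e2 := e _ ((d1^[m + 1]) q z) h.bbet
  have e3 := e _ ((d1^[m]) X z) h.bc
  have e4 := e _ ((d1^[m]) q z) h.bd
  have e5 : |Glev (psi n δ) t lam X q m z| ≤ |C| * (1 + lowSum X q m z) :=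
    hG.trans (mul_le_mul_of_nonneg_right (le_abs_self _) (by linarith [h0 m]))
  rw [eq_of_levels (psi n δ) t lam X q m z, hsum]
  refine (abs_add_le _ _).trans ((add_le_add ((abs_add_le _ _).trans (add_le_add
    ((abs_add_le _ _).trans (add_le_add (abs_add_le _ _) le_rfl)) le_rfl)) le_rfl).trans ?_)
  nlinarith [h0 m, abs_nonneg C0, abs_nonneg C, abs_nonneg ((d1^[m]) X z), abs_nonneg ((d1^[m]) q z),
    abs_nonneg ((d1^[m + 1]) X z), abs_nonneg ((d1^[m + 1]) q z)]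

/-- Bounds of a compactly supported cutoff and of its derivatives. -/
lemma cut_bound {f : E2 → ℝ} (hf : ContDiff ℝ ∞ f) (hs : HasCompactSupport f) :
    ∃ L : ℝ, 0 ≤ L ∧ ∀ z, |f z| ≤ L ∧ |d1 f z| ≤ L ∧ |d2 f z| ≤ L := by
  obtain ⟨a, ha⟩ := hf.continuous.bounded_above_of_compact_support hs
  obtain ⟨b, hb⟩ := (contDiff_d1 hf).continuous.bounded_above_of_compact_support (hs.fderiv_apply ℝ _)
  obtain ⟨c, hc⟩ := (contDiff_d2 hf).continuous.bounded_above_of_compact_support (hs.fderiv_apply ℝ _)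
  refine ⟨|a| + |b| + |c|, by positivity, fun z => ?_⟩
  have h1 := ha z; have h2 := hb z; have h3 := hc z
  rw [Real.norm_eq_abs] at h1 h2 h3
  refine ⟨?_, ?_, ?_⟩ <;>
    linarith [le_abs_self a, le_abs_self b, le_abs_self c, abs_nonneg a, abs_nonneg b, abs_nonneg c]

/-- The energy constant, uniform for `t` between `t0` and `1`. -/
lemma energy_uniform (t0 C0 L : ℝ) (ht0 : 0 < t0) (hC0 : 0 ≤ C0) (hL : 0 ≤ L) :
    ∃ C : ℝ, 0 ≤ C ∧ ∀ t : ℝ, t0 ≤ t → t ≤ 1 → ∃ ν : ℝ, 0 < ν ∧ ν ≤ t ^ 2 ∧ t ^ 2 ≤ 2 * ν ∧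
      ∀ (R : Set E2) (P : ℝ → ℝ) (χ ζ u γ β c d G : E2 → ℝ) (B : ℝ),
      IsOpen R → ContDiff ℝ 1 P → ContDiff ℝ 1 χ → ContDiff ℝ 1 ζ →
      HasCompactSupport χ → HasCompactSupport ζ → tsupport χ ⊆ R → tsupport ζ ⊆ R →
      (∀ z, 0 ≤ χ z ∧ χ z ≤ L ∧ |d1 χ z| ≤ L ∧ |d2 χ z| ≤ L ∧
        |ζ z| ≤ L ∧ |d1 ζ z| ≤ L ∧ |d2 ζ z| ≤ L) →
      ContDiffOn ℝ 2 u R → ContDiffOn ℝ 1 γ R → ContDiffOn ℝ 1 β R → B ^ 2 ≤ ν / 2000 →
      (∀ z ∈ R, z.1 < P z.2 → StepData P χ ζ u γ β c d G ν (t0 / 2) C0 B z) →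
      IntegrableOn (fun z => u z ^ 2 + G z ^ 2) (R ∩ {z | z.1 < P z.2}) →
      Integrable (fun z => χ z * (wgt P z ^ 3 * (-d2 u z + β z * d1 u z / 2) ^ 2
          + wgt P z ^ 4 * d1 u z ^ 2)) ∧
      ∫ z, χ z * (wgt P z ^ 3 * (-d2 u z + β z * d1 u z / 2) ^ 2 + wgt P z ^ 4 * d1 u z ^ 2)
        ≤ C * ∫ z in R ∩ {z | z.1 < P z.2}, (u z ^ 2 + G z ^ 2) := by
  have hνp : ∀ i : ℕ, 0 < t0 ^ 2 * 2 ^ i := fun i => by positivity
  choose Cf hCf0 hCf using fun i : ℕ =>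
    energy_step (t0 ^ 2 * 2 ^ i) (t0 / 2) C0 L (hνp i) (by linarith) hC0 hL
  obtain ⟨N, hN⟩ := pow_unbounded_of_one_lt (1 / t0 ^ 2) (one_lt_two : (1 : ℝ) < 2)
  refine ⟨∑ i ∈ Finset.range (N + 1), Cf i, Finset.sum_nonneg fun i _ => hCf0 i, fun t h1 h2 => ?_⟩
  have ht : 0 < t := ht0.trans_le h1
  have hex : ∃ i : ℕ, t ^ 2 < t0 ^ 2 * 2 ^ (i + 1) := by
    refine ⟨N, ?_⟩
    have h := (div_lt_iff₀ (pow_pos ht0 2)).1 hN
    have : t ^ 2 ≤ 1 := pow_le_one₀ ht.le h2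
    rw [pow_succ (2 : ℝ)]
    nlinarith
  set i := Nat.find hex with hi
  have hiN : i ∈ Finset.range (N + 1) := Finset.mem_range.2 (Nat.lt_succ_of_le (Nat.find_min' hex (by
    have h := (div_lt_iff₀ (pow_pos ht0 2)).1 hN
    have : t ^ 2 ≤ 1 := pow_le_one₀ ht.le h2
    rw [pow_succ (2 : ℝ)]
    nlinarith)))
  have hlo : t0 ^ 2 * 2 ^ i ≤ t ^ 2 := by
    rcases Nat.eq_zero_or_pos i with h | h
    · rw [h, pow_zero, mul_one]; exact pow_le_pow_left₀ ht0.le h1 2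
    · have := Nat.find_min hex (show i - 1 < i by omega)
      rw [show i - 1 + 1 = i by omega, not_lt] at this
      exact this
  have hhi : t ^ 2 ≤ 2 * (t0 ^ 2 * 2 ^ i) := by
    have := Nat.find_spec hex
    rw [← hi, pow_succ (2 : ℝ)] at this
    linarith
  refine ⟨_, hνp i, hlo, hhi, fun R P χ ζ u γ β c d G B a1 a2 a3 a4 a5 a6 a7 a8 a9 a10 a11 a12 a13 a14 a15 => ?_⟩
  obtain ⟨hI, hle⟩ := hCf i R P χ ζ u γ β c d G B a1 a2 a3 a4 a5 a6 a7 a8 a9 a10 a11 a12 a13 a14 a15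
  refine ⟨hI, hle.trans (mul_le_mul_of_nonneg_right ?_ ?_)⟩
  · exact Finset.single_le_sum (f := Cf) (fun j _ => hCf0 j) hiN
  · exact integral_nonneg fun z => by positivity

section
variable {n : ℕ} {K0 K η t0 δ0 C0 δ t lam : ℝ} {X q : E2 → ℝ}

lemma glev_continuousOn (hF : Facts n K0 K η t0 δ0 C0) (hP : Par n K0 η t0 δ0 δ t lam X q) (m : ℕ) :
    ContinuousOn (Glev (psi n δ) t lam X q m) (box 4) := by
  have hX := hP.hodo.smoothX
  have hq := hP.hodo.smoothQ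
  obtain ⟨hgs, hbs, hcXs, hcqs⟩ := hF.smooth δ t lam X q hP
  have c1 : ∀ f : E2 → ℝ, ContDiffOn ℝ 2 f (box 4) → ContinuousOn (d1 f) (box 4) := fun f hf =>
    (contDiffOn_d1 (isOpen_boxS 4) hf).continuousOn
  have cq' : ContinuousOn (fun z => d2 ((d1^[m]) q) z) (box 4) :=
    (contDiff_d2 (contDiff_iter hq _)).continuous.continuousOn
  exact (((cq'.sub (hgs.continuousOn.mul (contDiff_iter hX _).continuous.continuousOn)).sub
    (hbs.continuousOn.mul (contDiff_iter hq _).continuous.continuousOn)).sub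
    (((continuousOn_const.mul (c1 _ hgs)).add hcXs).mul
      (contDiff_iter hX _).continuous.continuousOn)).sub
    (((continuousOn_const.mul (c1 _ hbs)).add hcqs).mul
      (contDiff_iter hq _).continuous.continuousOn)

lemma step_rhs_pt {j : ℕ} {z : E2} {CG : ℝ} {G : E2 → ℝ}
    (hG : |G z| ≤ CG * (1 + lowSum X q (j + 1) z)) :
    ((d1^[j]) X z) ^ 2 + G z ^ 2
      ≤ (1 + CG ^ 2 * (4 * (j + 3))) * (1 + ∑ l ∈ Finset.range (j + 1), lev X q l z) := by
  set T : E2 → ℝ := fun w => 1 + ∑ l ∈ Finset.range (j + 1), lev X q l w with hT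
  have h1 : ((d1^[j]) X z) ^ 2 ≤ T z := by
    have := Finset.single_le_sum (f := fun l => lev X q l z) (fun l _ => lev_nonneg X q l z)
      (Finset.self_mem_range_succ j)
    simp only [hT, lev] at this ⊢
    nlinarith [sq_nonneg ((d1^[j]) q z)]
  have hls : lowSum X q (j + 1) z ^ 2 ≤
      2 * (j + 1) * ∑ l ∈ Finset.range (j + 1), lev X q l z := by
    calc _ ≤ ((j : ℝ) + 1) * ∑ l ∈ Finset.range (j + 1), (|(d1^[l]) X z| + |(d1^[l]) q z|) ^ 2 := by
          refine (sq_sum_le_card_mul_sum_sq).trans_eq ?_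
          simp
      _ ≤ ((j : ℝ) + 1) * ∑ l ∈ Finset.range (j + 1), 2 * lev X q l z := by
          refine mul_le_mul_of_nonneg_left (Finset.sum_le_sum fun l _ => ?_) (by positivity)
          simp only [lev]
          nlinarith [sq_nonneg (|(d1^[l]) X z| - |(d1^[l]) q z|), sq_abs ((d1^[l]) X z),
            sq_abs ((d1^[l]) q z)]
      _ = _ := by rw [← Finset.mul_sum]; ring
  have h0 : 0 ≤ lowSum X q (j + 1) z := Finset.sum_nonneg fun l _ => by positivity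
  have h2 : G z ^ 2 ≤ CG ^ 2 * (4 * (j + 3) * T z) := by
    refine le_trans ?_ (mul_le_mul_of_nonneg_left (a := CG ^ 2)
      (show (1 + lowSum X q (j + 1) z) ^ 2 ≤ 4 * (j + 3) * T z from ?_) (sq_nonneg _))
    · rw [← mul_pow, ← sq_abs (G z)]
      exact pow_le_pow_left₀ (abs_nonneg _) hG 2
    · have hs : 0 ≤ ∑ l ∈ Finset.range (j + 1), lev X q l z :=
        Finset.sum_nonneg fun l _ => lev_nonneg X q l z
      simp only [hT]
      nlinarith [sq_nonneg (lowSum X q (j + 1) z - 1), Nat.cast_nonneg (α := ℝ) j]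
  show _ ≤ _ * T z
  linarith

lemma step_T_int {j : ℕ} {B : ℝ} (hj : j ≤ n + 2) (hKn : (n : ℝ) + 3 ≤ K) (ht : 0 < t)
    (hKt : K * t ≤ 1) (hX : ContDiff ℝ ∞ X) (hq : ContDiff ℝ ∞ q) (hL : L2le n K t X q j B) :
    ∫ z in Lset n K t j, (1 + ∑ l ∈ Finset.range (j + 1), lev X q l z)
      ≤ 40 + ((j : ℝ) + 1) * |B| := by
  have hcomp : IsCompact (Lset n K t j) := isCompact_Icc.prod isCompact_Icc
  obtain ⟨hjL, hjU⟩ := ra_mem (n := n) (j := j) (by omega)
  have hp0' : rp n K t j ≤ 0 := (rp_mem (n := n) (by omega) hKn ht.le hKt).2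
  have hil : ∀ l, IntegrableOn (lev X q l) (Lset n K t j) := fun l =>
    (continuous_lev hX hq l).continuousOn.integrableOn_compact hcomp
  have hi1 : IntegrableOn (fun _ : E2 => (1 : ℝ)) (Lset n K t j) :=
    continuous_const.continuousOn.integrableOn_compact hcomp
  rw [MeasureTheory.integral_add hi1 (integrable_finsetSum _ fun l _ => hil l),
    integral_finsetSum _ fun l _ => hil l]
  have hs : ∑ l ∈ Finset.range (j + 1), ∫ w in Lset n K t j, lev X q l w ≤ ((j : ℝ) + 1) * |B| := by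
    refine (Finset.sum_le_card_nsmul _ _ |B| fun l hl => (hL l ?_).trans (le_abs_self _)).trans_eq
      (by simp)
    simp at hl; omega
  have hv : volume.real (Lset n K t j) ≤ 40 := by
    obtain ⟨hq1, -⟩ := rp_mem (n := n) (j := j) (by omega) hKn ht.le hKt
    rw [Lset, measureReal_def, Measure.volume_eq_prod, Measure.prod_prod, Real.volume_Icc,
      Real.volume_Icc, ENNReal.toReal_mul, ENNReal.toReal_ofReal (by linarith),
      ENNReal.toReal_ofReal (by linarith)]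
    nlinarith
  simpa using add_le_add hv hs

lemma step_data (hKn : (n : ℝ) + 3 ≤ K) (hKt : K * t ≤ 1) (ht0 : 0 < t0)
    (hF : Facts n K0 K η t0 δ0 C0) (hP : Par n K0 η t0 δ0 δ t lam X q) {j : ℕ} (h5 : 5 ≤ j)
    (hj : j ≤ n + 1) {a b b' : ℝ} (hab : a < b) (hbb : b < b') (hba : 11 / 5 ≤ a) {P : ℝ → ℝ}
    (hPmem : ∀ y ∈ Icc (-ra n j) (ra n j), rp n K t (j + 1) + t / 4 ≤ P y ∧ P y ≤ rp n K t j)
    (hPd : ∀ y ∈ Icc (-ra n j) (ra n j),
      HasDerivAt P (-(bet (psi n δ) t lam X q) (P y, y) / 2) y)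
    {ν : ℝ} (hν : 0 < ν) (hνlo : ν ≤ t ^ 2) (hνhi : t ^ 2 ≤ 2 * ν) {z : E2}
    (hzL : z ∈ Lset n K t j) (hzP : z.1 < P z.2) :
    StepData P (cutRect a b (3 / 10) (4 / 10)) (cutOut b b' (4 / 10) (1 / 2)) ((d1^[j]) X)
      (gam (psi n δ) t lam X q) (bet (psi n δ) t lam X q) (cm (psi n δ) t lam X q (j + 1))
      (dm (psi n δ) t lam X q (j + 1)) (Glev (psi n δ) t lam X q (j + 1))
      ν (t0 / 2) C0 (Real.sqrt (ν / 2000)) z := by
  have ht : 0 < t := ht0.trans_le hP.t_ge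
  have hX := hP.hodo.smoothX
  obtain ⟨hgs, hbs, hcXs, hcqs⟩ := hF.smooth δ t lam X q hP
  set β := bet (psi n δ) t lam X q with hβ_def
  set χ := cutRect a b (3 / 10) (4 / 10) with hχ_def
  set u := (d1^[j]) X with hu_def
  have hBc2 : Real.sqrt (ν / 2000) ^ 2 = ν / 2000 := Real.sq_sqrt (by linarith)
  have hWeq : (fun w => -d2 u w) = (d1^[j + 1]) q := by
    funext w; rw [hu_def, d2_iter_compat hX hP.hodo.compat, neg_neg]
  have hd1u : d1 u = (d1^[j + 1]) X := (Function.iterate_succ_apply' d1 j X).symm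
  have hjbox : Lset n K t j ⊆ box 4 := Lset_box (by omega) hKn ht.le hKt
  have hp0' : rp n K t j ≤ 0 := (rp_mem (n := n) (by omega) hKn ht.le hKt).2
  obtain ⟨hjL, hjU⟩ := ra_mem (n := n) (j := j) (by omega)
  have hc := hF.coef δ t lam X q hP z (Lset_anti h5 ht.le hzL) (j + 1) (by omega) (by omega)
  have hy : z.2 ∈ Icc (-ra n j) (ra n j) := hzL.2
  have hPc : (P z.2, z.2) ∈ Lset n K t 5 :=
    Lset_anti h5 ht.le ⟨⟨hzL.1.1.trans hzP.le, (hPmem z.2 hy).2⟩, hy⟩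
  have hPbet := (hF.coef δ t lam X q hP _ hPc 1 le_rfl (by omega)).bbet
  have hzy := (hPmem z.2 hy).2
  refine
    { width := by linarith [hzL.1.1]
      slope := ?_
      gap := ?_
      grad := ?_
      eqn := ?_
      bgam := hc.bgam
      bbet := hc.bbet
      bc := hc.bc
      bd := hc.bd
      bgamp := hc.bgamp
      bbetp := hc.bbetp
      neg := fun _ => hc.neg.trans (by linarith)
      dsq := hc.dsq.trans (by linarith)
      dbet := hc.dbet.trans (by linarith)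
      ell := fun hne => le_trans (by linarith [hP.t_ge]) (hc.ell ?_) }
  · rw [(hPd z.2 hy).deriv, abs_div, abs_neg, abs_two]
    have := abs_nonneg (β (P z.2, z.2))
    linarith
  · refine curve_gap hzP.le (hPd z.2 hy).deriv fun p hp => ?_
    have hpL : (p, z.2) ∈ Lset n K t j := ⟨⟨hzL.1.1.trans hp.1, hp.2.trans hzy⟩, hy⟩
    refine ⟨((hbs.of_le one_le_two).contDiffAt ((isOpen_boxS 4).mem_nhds (hjbox hpL))), ?_⟩
    have h := (hF.coef δ t lam X q hP _ (Lset_anti h5 ht.le hpL) 1 le_rfl (by omega)).bbetp2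
    refine abs_le_of_sq_le_sq ?_ (by positivity)
    rw [mul_pow, hBc2]
    linarith
  · intro hg
    have hsupp : z ∈ tsupport χ := by
      by_contra hn
      have : χ =ᶠ[𝓝 z] fun _ => 0 := by
        rw [← Pi.zero_def]; exact notMem_tsupport_iff_eventuallyEq.1 hn
      simp [d1, d2, this.fderiv_eq] at hg
    have hzb := cutRect_tsupport hab (by norm_num) hsupp
    refine cutOut_one hbb (by norm_num) hzb ?_
    by_contra hin
    rw [not_or, not_le, not_le] at hin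
    have : fderiv ℝ χ z = 0 := cutRect_fderiv hab (by norm_num)
      ⟨⟨by linarith [(abs_lt.1 hin.1).1], by linarith⟩,
        by linarith [(abs_lt.1 hin.2).1], by linarith [(abs_lt.1 hin.2).2]⟩
    simp [d1, d2, this] at hg
  · rw [hWeq, hd1u, ← Function.iterate_succ_apply' d1, ← Function.iterate_succ_apply' d1,
      show -d2 u z = (d1^[j + 1]) q z from congrFun hWeq z]
    exact eq_of_levels (psi n δ) t lam X q (j + 1) z
  · by_contra hin
    rw [not_or, not_le, not_le] at hin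
    exact hne (cutOut_zero_inner hin.1.le hin.2.le)

lemma step_lhs_pt (hC0 : 1 ≤ C0) (ht0 : 0 < t0) (ht1 : t ≤ 1)
    (hP : Par n K0 η t0 δ0 δ t lam X q) {j : ℕ} {χ : E2 → ℝ} {P : ℝ → ℝ} {β : E2 → ℝ} {z : E2}
    (hχ1 : χ z = 1) (hbz : |β z| ≤ C0) (hSw : t0 / 4 ≤ wgt P z) :
    lev X q (j + 1) z ≤ (3 + C0 ^ 2) / (t0 / 4) ^ 4 *
      (χ z * (wgt P z ^ 3 * (-d2 ((d1^[j]) X) z + β z * d1 ((d1^[j]) X) z / 2) ^ 2
        + wgt P z ^ 4 * d1 ((d1^[j]) X) z ^ 2)) := by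
  rw [hχ1, one_mul, d2_iter_compat hP.hodo.smoothX hP.hodo.compat, neg_neg,
    ← Function.iterate_succ_apply' d1 j X, lev]
  set A := (d1^[j + 1]) X z
  set W := (d1^[j + 1]) q z
  set e := W + β z * A / 2 with he
  set s := t0 / 4 with hs
  have hs0 : 0 < s := by positivity
  have hs1 : s ≤ 1 := by linarith [hP.t_ge]
  have h3 : s ^ 4 ≤ wgt P z ^ 3 :=
    (pow_le_pow_of_le_one hs0.le hs1 (by norm_num : 3 ≤ 4)).trans (pow_le_pow_left₀ hs0.le hSw 3)
  have h4 : s ^ 4 ≤ wgt P z ^ 4 := pow_le_pow_left₀ hs0.le hSw 4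
  have hb2 : β z ^ 2 ≤ C0 ^ 2 := by rw [← sq_abs]; exact pow_le_pow_left₀ (abs_nonneg _) hbz 2
  have hW : W ^ 2 ≤ 2 * e ^ 2 + C0 ^ 2 * A ^ 2 / 2 := by
    rw [he]
    nlinarith [sq_nonneg (W + β z * A), mul_le_mul_of_nonneg_right hb2 (sq_nonneg A)]
  rw [div_mul_eq_mul_div, le_div_iff₀ (by positivity)]
  have e1 : (A ^ 2 + W ^ 2) ≤ (3 + C0 ^ 2) * (e ^ 2 + A ^ 2) := by
    nlinarith [mul_nonneg (sq_nonneg C0) (sq_nonneg e), mul_nonneg (sq_nonneg C0) (sq_nonneg A)]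
  have e2 : s ^ 4 * (e ^ 2 + A ^ 2) ≤ wgt P z ^ 3 * e ^ 2 + wgt P z ^ 4 * A ^ 2 := by
    rw [mul_add]
    exact add_le_add (mul_le_mul_of_nonneg_right h3 (sq_nonneg e))
      (mul_le_mul_of_nonneg_right h4 (sq_nonneg A))
  have e3 := mul_le_mul_of_nonneg_right e1 (pow_nonneg hs0.le 4)
  have e4 := mul_le_mul_of_nonneg_left e2 (by positivity : (0:ℝ) ≤ 3 + C0 ^ 2)
  linarith

end

/-- The energy step gives the step bound. -/
theorem stepBound_of_facts {n : ℕ} {K0 K η t0 δ0 C0 : ℝ} (_hK0 : 0 < K0)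
    (_hK : 2 * K0 + 1 ≤ K) (hKn : (n : ℝ) + 3 ≤ K) (hη : η ≤ 1) (hKη : K * η ≤ 1) (ht0 : 0 < t0)
    (hC0 : 1 ≤ C0) (hF : Facts n K0 K η t0 δ0 C0) : StepBound n K0 K η t0 δ0 := by
  intro j h5 hj B
  set a := ra n (j + 1) with ha_def
  set b := (ra n (j + 1) + ra n j) / 2 with hb_def
  set b' := (b + ra n j) / 2 with hb'_def
  obtain ⟨haL, haU⟩ := ra_mem (n := n) (j := j + 1) (by omega)
  obtain ⟨hjL, hjU⟩ := ra_mem (n := n) (j := j) (by omega)
  have hlt : ra n (j + 1) < ra n j := by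
    unfold ra
    push_cast
    gcongr
    linarith
  have hab : a < b := by rw [hb_def]; linarith
  have hbb : b < b' := by rw [hb'_def]; linarith
  have hb'j : b' < ra n j := by rw [hb'_def]; linarith
  set χ := cutRect a b (3 / 10) (4 / 10) with hχ_def
  set ζ := cutOut b b' (4 / 10) (1 / 2) with hζ_def
  have hχc : HasCompactSupport χ := cutRect_compact hab (by norm_num)
  have hζc : HasCompactSupport ζ := cutOut_compact hbb (by norm_num)
  obtain ⟨L1, hL10, hL1⟩ := cut_bound (contDiff_cutRect : ContDiff ℝ ∞ χ) hχc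
  obtain ⟨L2, hL20, hL2⟩ := cut_bound (contDiff_cutOut : ContDiff ℝ ∞ ζ) hζc
  obtain ⟨CE, hCE0, hCE⟩ := energy_uniform t0 C0 (L1 + L2) ht0 (by linarith) (by linarith)
  obtain ⟨CG, hCG⟩ := hF.glev (j + 1) (by omega) B
  set Cr : ℝ := (1 + CG ^ 2 * (4 * (j + 3))) * (40 + ((j : ℝ) + 1) * |B|) with hCr
  refine ⟨(3 + C0 ^ 2) / (t0 / 4) ^ 4 * (CE * Cr), fun δ t lam X q hP hL hS => ?_⟩
  have ht : 0 < t := ht0.trans_le hP.t_ge
  have ht1 : t ≤ 1 := hP.t_le.trans hη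
  have hKt : K * t ≤ 1 := le_trans (mul_le_mul_of_nonneg_left hP.t_le (by linarith)) hKη
  have hX := hP.hodo.smoothX
  have hq := hP.hodo.smoothQ
  obtain ⟨hgs, hbs, hcXs, hcqs⟩ := hF.smooth δ t lam X q hP
  set γ := gam (psi n δ) t lam X q with hγ_def
  set β := bet (psi n δ) t lam X q with hβ_def
  set G := Glev (psi n δ) t lam X q (j + 1) with hG_def
  set u := (d1^[j]) X with hu_def
  obtain ⟨hp1, hp1'⟩ := rp_mem (n := n) (j := j + 1) (by omega) hKn ht.le hKt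
  have hpj : rp n K t j = rp n K t (j + 1) + t := by unfold rp; push_cast; ring
  have hp0' : rp n K t j ≤ 0 := (rp_mem (n := n) (by omega) hKn ht.le hKt).2
  -- the curve
  set p0 := rp n K t (j + 1) + t / 2 with hp0_def
  have hbox5 : Lset n K t 5 ⊆ box 4 := Lset_box (by omega) hKn ht.le hKt
  have hjbox : Lset n K t j ⊆ box 4 := (Lset_anti h5 ht.le).trans hbox5
  have htube : Icc (p0 - t / 4) (p0 + t / 4) ×ˢ Icc (-ra n j) (ra n j) ⊆ Lset n K t j := by
    refine prod_mono (Icc_subset_Icc ?_ ?_) Subset.rfl <;> linarith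
  obtain ⟨P, hPs, hPmem, hPd⟩ := curve_exists (β := β) (O := box 4) (p0 := p0) (r := t / 4)
    (T := ra n j) (L := t / 16) (hbs.of_le one_le_two) (htube.trans hjbox) (by linarith) (by linarith)
    (by linarith) (fun z hz => by
      have := (hF.coef δ t lam X q hP z (Lset_anti h5 ht.le (htube hz)) 1 le_rfl (by omega)).bbet'
      linarith) (by nlinarith)
  set R : Set E2 := Ioo (-ra n j) (7 / 10) ×ˢ Ioo (-ra n j) (ra n j) with hR_def
  have hPb : ∀ y ∈ Icc (-ra n j) (ra n j), rp n K t (j + 1) + t / 4 ≤ P y ∧ P y ≤ rp n K t j := by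
    intro y hy
    obtain ⟨h1, h2⟩ := hPmem y hy
    constructor <;> linarith
  have hreg : R ∩ {z | z.1 < P z.2} ⊆ Lset n K t j := fun z hz => by
    obtain ⟨⟨⟨h1, -⟩, h3, h4⟩, h5'⟩ := hz
    have := (hPb z.2 ⟨h3.le, h4.le⟩).2
    exact ⟨⟨h1.le, le_trans (le_of_lt h5') this⟩, h3.le, h4.le⟩
  have hRbox : R ⊆ box 4 := fun z ⟨⟨h1, h2⟩, h3, h4⟩ =>
    ⟨abs_lt.2 ⟨by linarith, by linarith⟩, abs_lt.2 ⟨by linarith, by linarith⟩⟩
  have hIcc : ∀ {c r : ℝ}, c < ra n j → r < 7 / 10 → Icc (-c) r ×ˢ Icc (-c) c ⊆ R := fun hc hr =>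
    prod_mono (Icc_subset_Ioo (by linarith) hr) (Icc_subset_Ioo (by linarith) hc)
  obtain ⟨ν, hν, hνlo, hνhi, hE⟩ := hCE t hP.t_ge ht1
  set Bc := Real.sqrt (ν / 2000) with hBc
  have hBc2 : Bc ^ 2 = ν / 2000 := Real.sq_sqrt (by linarith)
  have hdata : ∀ z ∈ R, z.1 < P z.2 → StepData P χ ζ u γ β (cm (psi n δ) t lam X q (j + 1))
      (dm (psi n δ) t lam X q (j + 1)) G ν (t0 / 2) C0 Bc z := fun z hz hzP =>
    step_data hKn hKt ht0 hF hP h5 hj hab hbb (by linarith) hPb hPd hν hνlo hνhi (hreg ⟨hz, hzP⟩) hzP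
  -- the right hand side
  have hcomp : IsCompact (Lset n K t j) := isCompact_Icc.prod isCompact_Icc
  have hGc : ContinuousOn G (Lset n K t j) := by
    exact (glev_continuousOn hF hP (j + 1)).mono hjbox
  have hint : IntegrableOn (fun z => u z ^ 2 + G z ^ 2) (Lset n K t j) :=
    ((((contDiff_iter hX j).continuous.continuousOn).pow 2).add (hGc.pow 2)).integrableOn_compact hcomp
  set T : E2 → ℝ := fun w => 1 + ∑ l ∈ Finset.range (j + 1), lev X q l w with hT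
  have hTc : Continuous T :=
    continuous_const.add (continuous_finsetSum _ fun l _ => continuous_lev hX hq l)
  have hpt : ∀ z ∈ Lset n K t j, u z ^ 2 + G z ^ 2 ≤ (1 + CG ^ 2 * (4 * (j + 3))) * T z := by
    intro z hz
    exact step_rhs_pt (hCG δ t lam X q hP z (Lset_anti h5 ht.le hz) (hS z hz))
  have hTint : ∫ z in Lset n K t j, T z ≤ 40 + ((j : ℝ) + 1) * |B| := by
    exact step_T_int (by omega) hKn ht hKt hX hq hL
  have hrhs : ∫ z in R ∩ {z | z.1 < P z.2}, (u z ^ 2 + G z ^ 2) ≤ Cr := by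
    refine (setIntegral_mono_set hint (Filter.Eventually.of_forall fun z => by positivity)
      hreg.eventuallyLE).trans ?_
    refine (setIntegral_mono_on hint ((continuous_const.mul hTc).continuousOn.integrableOn_compact hcomp)
      hcomp.measurableSet hpt).trans ?_
    simp only [Pi.mul_apply]
    rw [MeasureTheory.integral_const_mul]
    exact mul_le_mul_of_nonneg_left hTint (by positivity)
  obtain ⟨hlowI, hlow⟩ := hE R P χ ζ u γ β _ _ G Bc (isOpen_Ioo.prod isOpen_Ioo) hPs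
    (contDiff_cutRect.of_le (by exact_mod_cast le_top)) (contDiff_cutOut.of_le (by exact_mod_cast le_top))
    hχc hζc ((cutRect_tsupport hab (by norm_num)).trans (hIcc (hbb.trans hb'j) (by norm_num)))
    ((cutOut_tsupport hbb (by norm_num)).trans (hIcc hb'j (by norm_num)))
    (fun z => by
      obtain ⟨a1, a2, a3⟩ := (show |χ z| ≤ L1 ∧ |d1 χ z| ≤ L1 ∧ |d2 χ z| ≤ L1 from hL1 z)
      obtain ⟨b1, b2, b3⟩ := (show |ζ z| ≤ L2 ∧ |d1 ζ z| ≤ L2 ∧ |d2 ζ z| ≤ L2 from hL2 z)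
      refine ⟨(cutRect_mem z).1, ?_, ?_, ?_, ?_, ?_, ?_⟩ <;> linarith [le_abs_self (χ z)])
    ((contDiff_iter hX j).of_le (WithTop.coe_le_coe.2 (le_top : (2 : ℕ∞) ≤ ⊤))).contDiffOn
    ((hgs.mono hRbox).of_le one_le_two) ((hbs.mono hRbox).of_le one_le_two)
    hBc2.le hdata (hint.mono_set hreg)
  -- the left hand side
  set k := (3 + C0 ^ 2) / (t0 / 4) ^ 4 with hk
  have hk0 : 0 ≤ k := by positivity
  set low : E2 → ℝ := fun z => χ z * (wgt P z ^ 3 * (-d2 u z + β z * d1 u z / 2) ^ 2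
      + wgt P z ^ 4 * d1 u z ^ 2) with hlow_def
  have hlow0 : ∀ z, 0 ≤ low z := fun z => mul_nonneg (cutRect_mem z).1
    (add_nonneg (mul_nonneg (pow_nonneg (le_max_right _ _) 3) (sq_nonneg _))
      (mul_nonneg (pow_nonneg (le_max_right _ _) 4) (sq_nonneg _)))
  have hsub : Lset n K t (j + 1) ⊆ Lset n K t j := Lset_anti (Nat.le_succ j) ht.le
  have hptL : ∀ z ∈ Lset n K t (j + 1), lev X q (j + 1) z ≤ k * low z := by
    intro z hz
    have hzj := hsub hz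
    have hy : z.2 ∈ Icc (-ra n j) (ra n j) := hzj.2
    exact step_lhs_pt hC0 ht0 ht1 hP
      (cutRect_one hab (by norm_num) ⟨⟨hz.1.1, by linarith [hz.1.2]⟩, hz.2⟩)
      (hF.coef δ t lam X q hP z (Lset_anti h5 ht.le hzj) 1 le_rfl (by omega)).bbet
      (le_trans (by linarith [(hPb z.2 hy).1, hz.1.2, hP.t_ge]) (le_max_left _ _))
  calc ∫ z in Lset n K t (j + 1), lev X q (j + 1) z
      ≤ ∫ z in Lset n K t (j + 1), k * low z :=
        setIntegral_mono_on ((continuous_lev hX hq _).continuousOn.integrableOn_compact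
          (isCompact_Icc.prod isCompact_Icc)) (hlowI.const_mul k).integrableOn
          (isCompact_Icc.prod isCompact_Icc).measurableSet hptL
    _ ≤ ∫ z, k * low z :=
        setIntegral_le_integral (hlowI.const_mul k)
          (Filter.Eventually.of_forall fun z => mul_nonneg hk0 (hlow0 z))
    _ = k * ∫ z, low z := MeasureTheory.integral_const_mul _ _
    _ ≤ k * (CE * Cr) :=
        mul_le_mul_of_nonneg_left (hlow.trans (mul_le_mul_of_nonneg_left hrhs hCE0)) hk0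

/-- The left statement. -/
theorem leftStmt_of_hyps (hC : CoeffStmt) (hS : CoeffSmoothStmt) (hG : LeftGlevStmt) : LeftStmt := by
  refine leftStmt_of fun n hn K0 hK0 => ?_
  obtain ⟨K1, η1, C0, hη1, hC⟩ := hC n hn K0 hK0
  obtain ⟨η2, hη2, hS⟩ := hS n hn K0 hK0
  obtain ⟨η3, hη3, hG⟩ := hG K0 hK0
  set K := |K1| + 2 * K0 + 1 + ((n : ℝ) + 3) with hKd
  have hn' := Nat.cast_nonneg (α := ℝ) n
  have hK1 := abs_nonneg K1
  set η := min (min η1 η2) (min η3 (1 / K)) with hηd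
  have hKp : 1 ≤ K := by linarith
  have hη0 : 0 < η := lt_min (lt_min hη1 hη2) (lt_min hη3 (by positivity))
  have hηK : η ≤ 1 / K := (min_le_right _ _).trans (min_le_right _ _)
  have hKη : K * η ≤ 1 := by rw [mul_comm]; exact (le_div_iff₀ (by linarith)).1 hηK
  have hη1' : η ≤ 1 := hηK.trans ((div_le_one (by linarith)).2 hKp)
  refine ⟨K, η, by linarith, by linarith, hη0, hη1', hKη, fun t0 ht0 => ?_⟩
  refine ⟨min η (t0 / 4), lt_min hη0 (by linarith), ?_⟩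
  have l1 : η ≤ η1 := (min_le_left _ _).trans (min_le_left _ _)
  have l2 : η ≤ η2 := (min_le_left _ _).trans (min_le_right _ _)
  have l3 : η ≤ η3 := (min_le_right _ _).trans (min_le_left _ _)
  have hgeo : ∀ δ t lam : ℝ, ∀ X q : E2 → ℝ, Par n K0 η t0 (min η (t0 / 4)) δ t lam X q →
      ∀ z ∈ Lset n K t 5, z ∈ box 4 ∧ z.1 ≤ -(K1 * t) ∧ 2 * δ ^ 2 < X z ^ 2 := by
    intro δ t lam X q hP z hz
    have ht : 0 < t := ht0.trans_le hP.t_ge
    have hKt : K * t ≤ 1 := le_trans (mul_le_mul_of_nonneg_left hP.t_le (by linarith)) hKη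
    have hb := Lset_box (n := n) (j := 5) (by omega) (by linarith) ht.le hKt hz
    have hz1 : z.1 ≤ -((|K1| + 2 * K0 + 1) * t) := by
      refine hz.1.2.trans ?_
      unfold rp
      rw [hKd]
      push_cast
      nlinarith
    have hK1t : K1 * t ≤ |K1| * t := mul_le_mul_of_nonneg_right (le_abs_self _) ht.le
    have hK0t : 0 ≤ K0 * t := by positivity
    have hK1t' : 0 ≤ |K1| * t := by positivity
    refine ⟨hb, by linarith, ?_⟩
    have h := hP.hodo.axisP z hb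
    have hp : (2 * K0 + 1) * t ≤ |z.1| := le_trans (by linarith) (neg_le_abs z.1)
    have hδ : δ ≤ t / 4 := hP.delta_le.trans ((min_le_right _ _).trans (by linarith [hP.t_ge]))
    have hXt : t / 2 ≤ |X z| := by linarith
    have e1 := pow_le_pow_left₀ (by linarith) hXt 2
    have e2 := pow_le_pow_left₀ hP.delta_pos.le hδ 2
    rw [sq_abs] at e1
    nlinarith [pow_pos ht 2]
  have hd : ∀ δ t lam : ℝ, ∀ X q : E2 → ℝ, Par n K0 η t0 (min η (t0 / 4)) δ t lam X q →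
      δ ≤ η := fun δ t lam X q hP => hP.delta_le.trans (min_le_left _ _)
  have hF : Facts n K0 K η t0 (min η (t0 / 4)) (max C0 1) := by
    refine ⟨fun δ t lam X q hP z hz m h1 h2 => ?_, fun δ t lam X q hP => ?_, fun m hm B => ?_⟩
    · obtain ⟨g1, g2, g3⟩ := hgeo δ t lam X q hP z hz
      have h := hC δ t lam η X q hP.delta_pos ((hd δ t lam X q hP).trans l1) (ht0.trans_le hP.t_ge)
        hP.t_le hP.lam_pos hP.lam_le l1 hP.hodo z g1 g2 g3 m h1 h2
      have hm := le_max_left C0 1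
      exact ⟨h.bgam.trans hm, h.bbet.trans hm, h.bbet', h.bc.trans hm, h.bd.trans hm,
        h.bgamp.trans hm, h.bbetp.trans hm, h.bbetp2, h.neg, h.dsq, h.dbet, h.ell⟩
    · exact hS δ t lam η X q hP.delta_pos ((hd δ t lam X q hP).trans l2) (ht0.trans_le hP.t_ge)
        hP.t_le hP.lam_pos hP.lam_le l2 hP.hodo
    · obtain ⟨C, hC'⟩ := hG m hm B
      refine ⟨C, fun δ t lam X q hP z hz hSup => ?_⟩
      obtain ⟨g1, g2, g3⟩ := hgeo δ t lam X q hP z hz
      exact hC' n hn δ t lam η X q hP.delta_pos ((hd δ t lam X q hP).trans l3)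
        (ht0.trans_le hP.t_ge) (hP.t_le.trans l3) hP.lam_pos (hP.lam_le.trans l3) l3 hP.hodo z g1 g3
        hSup
  exact ⟨eqBound_of_facts hF,
    stepBound_of_facts hK0 (by linarith) (by linarith) hη1' hKη ht0 (le_max_right _ _) hF⟩

end Vale.Agent.P229
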