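import Vale.Agent.P229.GlevCore
import Vale.Agent.P229.LeftHyp
import Vale.Agent.P229.MiddleHyp

/-!
P229: the bounds of the rest of the level equation, left of the slab and inside it.
-/

namespace Vale.Agent.P229

open Set Filter Finset
open scoped ContDiff Topology

lemma jet_bounds (K0 : ℝ) (hK0 : 0 < K0) :
    ∃ η1 R : ℝ, 0 < η1 ∧ η1 ≤ 1 ∧ 1 ≤ R ∧ ∀ n : ℕ, 8 ≤ n → ∀ δ t lam η : ℝ, ∀ X q : E2 → ℝ,
      0 < δ → δ ≤ η1 → 0 < t → t ≤ η1 → 0 < lam → lam ≤ η1 → η ≤ η1 →
      Hodo n δ t lam η K0 X q → ∀ z ∈ box 4,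
        sqn (X z, z.2) < 100 ∧ |d1 X z| ≤ 2 ∧ ‖jet (psi n δ) t lam X q z‖ ≤ R ∧
          1 / 2 ≤ 1 + fA (jet (psi n δ) t lam X q z) * d1 X z := by
  obtain ⟨C, hC, hb⟩ := atom_psi_bound 0
  set R := 10 + 7 * K0 + 2 * C with hR
  have hR1 : 1 ≤ R := by linarith
  refine ⟨1 / (8 * R ^ 2), R, by positivity, ?_, hR1, ?_⟩
  · rw [div_le_one (by positivity)]; nlinarith
  intro n hn δ t lam η X q hδ hδ1 ht ht1 hlam hlam1 hη1 h z hz
  have he : 1 / (8 * R ^ 2) ≤ 1 / 8 := by
    gcongr; nlinarith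
  have hz1 : |z.1| < 4 := hz.1
  have hz2 : |z.2| < 4 := hz.2
  have hX : |X z| ≤ 41 / 10 := by
    calc |X z| = |(X z - z.1) + z.1| := by rw [sub_add_cancel]
      _ ≤ |X z - z.1| + |z.1| := abs_add_le _ _
      _ ≤ 41 / 10 := by linarith [h.axisS z hz]
  have hsq : sqn (X z, z.2) < 100 := by
    show X z ^ 2 + z.2 ^ 2 < 100
    have a : X z ^ 2 ≤ (41 / 10) ^ 2 := sq_le_sq' (abs_le.mp hX).1 (abs_le.mp hX).2
    have b : z.2 ^ 2 ≤ 4 ^ 2 := sq_le_sq' (abs_le.mp hz2.le).1 (abs_le.mp hz2.le).2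
    linarith
  have hq : |q z| ≤ 6 * K0 := (h.axisQ z hz).trans (by nlinarith)
  have hv : |d1 X z| ≤ 2 := by
    have := abs_le.mp (h.Xp z)
    rw [abs_le]; constructor <;> linarith
  have hw : |d1 q z| ≤ 1 := (h.Qp z).trans (by linarith)
  have hat : ∀ k : Fin 4, |atom (psi n δ) k (X z, z.2)| ≤ 2 * C := by
    intro k
    obtain ⟨h1, h2⟩ := hb n δ k (X z, z.2) hδ (by linarith) hsq
    simp only [Function.iterate_zero, id_eq] at h1 h2
    have hle : (if sqn (X z, z.2) ≤ 2 * δ ^ 2 then δ ^ n * Real.sqrt δ / δ ^ (atomOrd k + 0)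
        else 0) ≤ 1 := by
      split_ifs
      · rw [div_le_one (by positivity)]
        calc δ ^ n * Real.sqrt δ ≤ δ ^ n * 1 := by
              gcongr; exact Real.sqrt_le_one.mpr (by linarith)
          _ ≤ δ ^ (atomOrd k + 0) := by
              rw [mul_one]
              exact pow_le_pow_of_le_one hδ.le (by linarith) (by
                fin_cases k <;> simp [atomOrd] <;> omega)
      · norm_num
    have := abs_sub_abs_le_abs_sub (atom (psi n δ) k (X z, z.2)) (atom psi0 k (X z, z.2))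
    nlinarith
  refine ⟨hsq, hv, ?_, ?_⟩
  · refine (pi_norm_le_iff_of_nonneg (by linarith)).mpr fun k => ?_
    rw [Real.norm_eq_abs]
    fin_cases k
    · show |z.1| ≤ R; linarith
    · show |q z| ≤ R; linarith
    · show |d1 X z| ≤ R; linarith
    · show |d1 q z| ≤ R; linarith
    · exact (hat 0).trans (by linarith)
    · exact (hat 1).trans (by linarith)
    · exact (hat 2).trans (by linarith)
    · exact (hat 3).trans (by linarith)
    · show |t| ≤ R; rw [abs_of_pos ht]; linarith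
    · show |lam| ≤ R; rw [abs_of_pos hlam]; linarith
  · set a := -(d1 (psi n δ) (X z, z.2)) * z.1 + d2 (psi n δ) (X z, z.2) * q z with ha
    have e : fA (jet (psi n δ) t lam X q z) = t * lam ^ 2 * a := rfl
    have ha' : |a| ≤ 2 * R ^ 2 := by
      have h1 : |d1 (psi n δ) (X z, z.2)| ≤ 2 * C := hat 1
      have h2 : |d2 (psi n δ) (X z, z.2)| ≤ 2 * C := hat 2
      refine (abs_add_le _ _).trans ?_
      rw [abs_mul, abs_mul, abs_neg]
      have : (2 * C) ≤ R := by linarith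
      calc _ ≤ R * R + R * R := by gcongr <;> linarith
        _ = 2 * R ^ 2 := by ring
    have hμ : t * lam ^ 2 ≤ 1 / (8 * R ^ 2) := by
      calc t * lam ^ 2 ≤ t * 1 := by
            gcongr; nlinarith
        _ ≤ _ := by rw [mul_one]; exact ht1
    have : |fA (jet (psi n δ) t lam X q z) * d1 X z| ≤ 1 / 2 := by
      rw [e, abs_mul, abs_mul, abs_of_nonneg (show 0 ≤ t * lam ^ 2 by positivity)]
      calc t * lam ^ 2 * |a| * |d1 X z| ≤ 1 / (8 * R ^ 2) * (2 * R ^ 2) * 2 := by gcongr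
        _ = 1 / 2 := by field_simp; norm_num
    linarith [(abs_le.mp this).1]

lemma phi10_grad_bound (R : ℝ) :
    ∃ P : ℝ, 0 ≤ P ∧ ∀ j : E10, ‖j‖ ≤ R → 1 / 2 ≤ 1 + fA j * j 2 →
      ∀ i, |fderiv ℝ phi10 j (Pi.single i 1)| ≤ P := by
  have hK : IsCompact (Metric.closedBall (0 : E10) R ∩ {j | 1 / 2 ≤ 1 + fA j * j 2}) :=
    (isCompact_closedBall _ _).inter_right
      (isClosed_le continuous_const (by have := contDiff_fA.continuous; fun_prop))
  obtain ⟨P, hP⟩ := hK.exists_bound_of_continuousOn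
    ((contDiffOn_phi10.fderiv_of_isOpen isOpen_dom10 (m := ∞) le_rfl).continuousOn.mono
      fun j hj => lt_of_lt_of_le (by norm_num : (0:ℝ) < 1 / 2) hj.2)
  exact ⟨max P 0, le_max_right _ _, fun j h1 h2 i => (abs_clm_single _ i).trans
    ((hP j ⟨by simpa using h1, h2⟩).trans (le_max_left _ _))⟩

lemma lowSum_nonneg (X q : E2 → ℝ) (k : ℕ) (z : E2) : 0 ≤ lowSum X q k z :=
  Finset.sum_nonneg fun _ _ => by positivity

lemma lowSum_mono (X q : E2 → ℝ) {a b : ℕ} (h : a ≤ b) (z : E2) :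
    lowSum X q a z ≤ lowSum X q b z :=
  Finset.sum_le_sum_of_subset_of_nonneg (Finset.range_mono h) fun _ _ _ => by positivity

lemma le_lowSum (X q : E2 → ℝ) {i k : ℕ} (h : i < k) (z : E2) :
    |(d1^[i]) X z| ≤ lowSum X q k z ∧ |(d1^[i]) q z| ≤ lowSum X q k z := by
  have := Finset.single_le_sum (f := fun l => |(d1^[l]) X z| + |(d1^[l]) q z|)
    (fun _ _ => by positivity) (Finset.mem_range.mpr h)
  constructor <;> [skip; skip] <;>
    (unfold lowSum; linarith [abs_nonneg ((d1^[i]) X z), abs_nonneg ((d1^[i]) q z)])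

lemma left_wt {B : ℝ} (hB : 0 ≤ B) {X q : E2 → ℝ} {z : E2} {N L sh : ℕ}
    (hlev : ∀ l ≤ N, |(d1^[l]) X z| ≤ B ∧ |(d1^[l]) q z| ≤ B)
    (hN : ∀ a, 2 * a ≤ L + 3 → a + sh ≤ N + 1) :
    Wt (fun i => 1 + lowSum X q (i + sh) z) L (1 + 2 * B * (N + 1)) := by
  have hb : ∀ a, a + sh ≤ N + 1 → 1 + lowSum X q (a + sh) z ≤ 1 + 2 * B * (N + 1) := by
    intro a ha
    have : lowSum X q (N + 1) z ≤ ∑ l ∈ Finset.range (N + 1), (B + B) :=
      Finset.sum_le_sum fun l hl => by
        have := hlev l (Nat.lt_succ_iff.mp (Finset.mem_range.mp hl))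
        linarith
    rw [Finset.sum_const, Finset.card_range, nsmul_eq_mul] at this
    have := lowSum_mono X q ha z
    push_cast at *
    linarith
  refine ⟨fun i _ => by linarith [lowSum_nonneg X q (i + sh) z],
    fun i j hij _ => by linarith [lowSum_mono X q (show i + sh ≤ j + sh by omega) z], ?_⟩
  intro a b l ha hbl hl hab
  have na := lowSum_nonneg X q (a + sh) z
  have nb := lowSum_nonneg X q (b + sh) z
  have ma := lowSum_mono X q (show a + sh ≤ l + sh by omega) z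
  have mb := lowSum_mono X q (show b + sh ≤ l + sh by omega) z
  rcases le_total a b with h | h
  · exact mul_le_mul (hb a (hN a (by omega))) (by linarith) (by linarith) (by positivity)
  · rw [mul_comm (1 + lowSum X q (a + sh) z)]
    exact mul_le_mul (hb b (hN b (by omega))) (by linarith) (by linarith) (by positivity)

/-- The rest left of the slab. -/
theorem left_Glev : LeftGlevStmt := by
  intro K0 hK0
  obtain ⟨η1, R, hη1, hη1', hR, hjet⟩ := jet_bounds K0 hK0
  refine ⟨η1, hη1, fun m hm B => ?_⟩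
  choose A hA0 hA using atom_psi_bound
  set N := max 5 (m - 3) with hN
  set B' := max B 0
  set C0 := 1 + 2 * B' * (N + 1) with hC0
  set As := ∑ j ∈ Finset.range (m + 1), A j
  set R' := R + C0 + As with hR'
  have hAs : 0 ≤ As := Finset.sum_nonneg fun j _ => hA0 j
  have hAj : ∀ j ≤ m, A j ≤ As := fun j hj =>
    Finset.single_le_sum (fun i _ => hA0 i) (Finset.mem_range.mpr (by omega))
  have hC0' : 1 ≤ C0 := by
    have : 0 ≤ 2 * B' * (N + 1) := by positivity
    linarith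
  obtain ⟨C, hC, hcore⟩ := glev_core m (by omega) R' C0 (by positivity) (by positivity)
  obtain ⟨P, hP, hgrad⟩ := phi10_grad_bound R
  refine ⟨2 * C + 2 ^ m * (4 * (P * As)), ?_⟩
  intro n hn δ t lam η X q hδ hδ1 ht ht1 hlam hlam1 hη h z hz hX hlev
  obtain ⟨hsq, hv, hnorm, hden⟩ := hjet n hn δ t lam η X q hδ hδ1 ht ht1 hlam hlam1 hη h z hz
  have hlev' : ∀ l ≤ N, |(d1^[l]) X z| ≤ B' ∧ |(d1^[l]) q z| ≤ B' := fun l hl =>
    ⟨(hlev l hl).1.trans (le_max_left _ _), (hlev l hl).2.trans (le_max_left _ _)⟩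
  have hU : Wt (fun i => 1 + lowSum X q (i + 2) z) (m - 2) C0 :=
    left_wt (le_max_right _ _) hlev' fun a ha => by omega
  have hUb : Wt (fun i => 1 + lowSum X q (i + 1) z) (m - 1) C0 :=
    left_wt (le_max_right _ _) hlev' fun a ha => by omega
  have hatom : ∀ k : Fin 4, ∀ j ≤ m, |(d1^[j]) (atom (psi n δ) k) (X z, z.2)| ≤ As := by
    intro k j hj
    obtain ⟨h1, h2⟩ := hA j n δ k (X z, z.2) hδ (by linarith) hsq
    rw [if_neg (by show ¬ X z ^ 2 + z.2 ^ 2 ≤ 2 * δ ^ 2; nlinarith [sq_nonneg z.2]), mul_zero,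
      abs_nonpos_iff, sub_eq_zero] at h2
    rw [h2]
    exact h1.trans (hAj j hj)
  have hpos : ∀ k, 1 ≤ 1 + lowSum X q k z := fun k => by linarith [lowSum_nonneg X q k z]
  have hR0 : 0 ≤ R' := by positivity
  have hR1 : 1 ≤ R' := by linarith
  obtain ⟨p, y⟩ := z
  have main := hcore n δ t lam η K0 X q _ _ p y h hz (hnorm.trans (by linarith)) hden hU hUb
    (fun i _ => by linarith [lowSum_mono X q (show i + 1 ≤ i + 2 by omega) (p, y)]) (by
      have : lowSum X q 3 (p, y) ≤ ∑ l ∈ Finset.range 3, (B' + B') :=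
        Finset.sum_le_sum fun l hl => by
          have := hlev' l (by have := Finset.mem_range.mp hl; omega)
          linarith
      rw [Finset.sum_const, Finset.card_range, nsmul_eq_mul] at this
      push_cast at this
      have h3 : 2 * B' * 3 ≤ 2 * B' * ((N : ℝ) + 1) := by
        gcongr
        have : (5 : ℝ) ≤ N := by exact_mod_cast le_max_left 5 (m - 3)
        linarith
      show 1 + lowSum X q (1 + 2) (p, y) ≤ R'
      linarith)
    (fun i _ => by
      have := le_lowSum X q (show i < i + 1 by omega) (p, y)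
      have := le_mul_of_one_le_left (by linarith [hpos (i + 1)] : 0 ≤ 1 + lowSum X q (i + 1) (p, y)) hR1
      constructor <;> linarith)
    (fun i _ => by
      have := le_lowSum X q (show i + 1 < i + 2 by omega) (p, y)
      have := le_mul_of_one_le_left (by linarith [hpos (i + 2)] : 0 ≤ 1 + lowSum X q (i + 2) (p, y)) hR1
      constructor <;> linarith)
    (fun k j hj => (hatom k j (by omega)).trans
      ((show As ≤ R' by linarith).trans (le_mul_of_one_le_right hR0 (hpos (j + 1)))))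
  have hmain : |atomMain (psi n δ) t lam X q m (p, y)| ≤ 2 ^ m * (4 * (P * As)) := by
    have he := hgrad _ hnorm (by simpa [jet] using hden)
    rw [atomMain, abs_mul, abs_pow]
    refine mul_le_mul (pow_le_pow_left₀ (abs_nonneg _) hv m) ?_ (abs_nonneg _) (by positivity)
    have t1 : ∀ i k, |fderiv ℝ phi10 (jet (psi n δ) t lam X q (p, y)) (Pi.single i 1) *
        (d1^[m]) (atom (psi n δ) k) (X (p, y), y)| ≤ P * As := fun i k => by
      rw [abs_mul]; exact mul_le_mul (he i) (hatom k m le_rfl) (abs_nonneg _) hP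
    have a1 := abs_le.mp (t1 4 0); have a2 := abs_le.mp (t1 5 1)
    have a3 := abs_le.mp (t1 6 2); have a4 := abs_le.mp (t1 7 3)
    rw [abs_le]; constructor <;> linarith
  simp only [show m - 2 + 2 = m by omega, show m - 1 + 1 = m by omega] at main
  have h1 := abs_sub_abs_le_abs_sub (Glev (psi n δ) t lam X q m (p, y))
    (atomMain (psi n δ) t lam X q m (p, y))
  have h2 : 0 ≤ 2 ^ m * (4 * (P * As)) * lowSum X q m (p, y) :=
    mul_nonneg (by positivity) (lowSum_nonneg _ _ _ _)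
  calc |Glev (psi n δ) t lam X q m (p, y)|
      ≤ C * ((1 + lowSum X q m (p, y)) + (1 + lowSum X q m (p, y)))
        + 2 ^ m * (4 * (P * As)) := by linarith
    _ ≤ (2 * C + 2 ^ m * (4 * (P * As))) * (1 + lowSum X q m (p, y)) := by linarith

lemma bumpW_nonneg {n : ℕ} {δ : ℝ} (hδ : 0 ≤ δ) (X : E2 → ℝ) (k : ℕ) (z : E2) :
    0 ≤ bumpW n δ X k z := by
  unfold bumpW
  split_ifs <;> positivity

lemma bumpW_wt {n : ℕ} (hn : 5 ≤ n) {δ : ℝ} (hδ : 0 < δ) (hδ1 : δ ≤ 1) (X : E2 → ℝ) (z : E2)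
    (L : ℕ) : Wt (fun i => 1 + bumpW n δ X i z) L 4 := by
  have hmono : ∀ a b, a ≤ b → bumpW n δ X a z ≤ bumpW n δ X b z := by
    intro a b hab
    unfold bumpW
    split_ifs
    · exact div_le_div_of_nonneg_left (by positivity) (by positivity)
        (pow_le_pow_of_le_one hδ.le hδ1 (by omega))
    · exact le_rfl
  refine ⟨fun i _ => by linarith [bumpW_nonneg (n := n) hδ.le X i z],
    fun i j hij _ => by linarith [hmono i j hij], ?_⟩
  intro a b l ha hb _ hab
  have na := bumpW_nonneg (n := n) hδ.le X a z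
  have ma := hmono a l ha
  have mb := hmono b l hb
  have hprod : bumpW n δ X a z * bumpW n δ X b z ≤ bumpW n δ X l z := by
    unfold bumpW
    split_ifs
    · rw [div_mul_div_comm, div_le_div_iff₀ (by positivity) (by positivity)]
      have e1 : δ ^ n * Real.sqrt δ ≤ δ ^ 5 := by
        calc δ ^ n * Real.sqrt δ ≤ δ ^ n * 1 := by gcongr; exact Real.sqrt_le_one.mpr hδ1
          _ ≤ δ ^ 5 := by rw [mul_one]; exact pow_le_pow_of_le_one hδ.le hδ1 hn
      have e2 : δ ^ (5 + (l + 2)) ≤ δ ^ (a + 2 + (b + 2)) :=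
        pow_le_pow_of_le_one hδ.le hδ1 (by omega)
      calc δ ^ n * Real.sqrt δ * (δ ^ n * Real.sqrt δ) * δ ^ (l + 2)
          ≤ δ ^ n * Real.sqrt δ * δ ^ 5 * δ ^ (l + 2) := by gcongr
        _ = δ ^ n * Real.sqrt δ * δ ^ (5 + (l + 2)) := by ring
        _ ≤ δ ^ n * Real.sqrt δ * δ ^ (a + 2 + (b + 2)) := by gcongr
        _ = δ ^ n * Real.sqrt δ * (δ ^ (a + 2) * δ ^ (b + 2)) := by ring
    · simp
  nlinarith [bumpW_nonneg (n := n) hδ.le X l z]

/-- The rest in the slab, up to the bump term. -/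
theorem middle_Glev : MidGlevStmt := by
  intro K0 hK0
  obtain ⟨η1, R, hη1, hη1', hR, hjet⟩ := jet_bounds K0 hK0
  refine ⟨η1, hη1, fun n hn m hm hmn B => ?_⟩
  choose A hA0 hA using atom_psi_bound
  set As := ∑ j ∈ Finset.range (m + 1), A j
  set B' := max B 0
  have hAs : 0 ≤ As := Finset.sum_nonneg fun j _ => hA0 j
  have hB' : 0 ≤ B' := le_max_right _ _
  have hAj : ∀ j ≤ m, A j ≤ As := fun j hj =>
    Finset.single_le_sum (fun i _ => hA0 i) (Finset.mem_range.mpr (by omega))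
  set R' := R + 2 * As + B' + 2 with hR'
  obtain ⟨C, hC, hcore⟩ := glev_core m (by omega) R' 4 (by positivity) (by norm_num)
  obtain ⟨P, hP, hgrad⟩ := phi10_grad_bound R
  refine ⟨2 * C + 2 ^ m * (4 * (P * (2 * As))), ?_⟩
  intro δ t lam η X q hδ hδ1 ht ht1 hlam hlam1 hη h z hz hlev
  have hδ1' : δ ≤ 1 := hδ1.trans hη1'
  obtain ⟨hsq, hv, hnorm, hden⟩ := hjet n hn δ t lam η X q hδ hδ1 ht ht1 hlam hlam1 hη h z hz
  have hpow : ∀ e j : ℕ, e ≤ j + 2 → (if sqn (X z, z.2) ≤ 2 * δ ^ 2 then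
      δ ^ n * Real.sqrt δ / δ ^ e else 0) ≤ bumpW n δ X j z := by
    intro e j hej
    unfold bumpW
    split_ifs
    · exact div_le_div_of_nonneg_left (by positivity) (by positivity)
        (pow_le_pow_of_le_one hδ.le hδ1' hej)
    · exact le_rfl
  have hord : ∀ k : Fin 4, atomOrd k ≤ 2 := fun k => by fin_cases k <;> simp [atomOrd]
  have hbw := fun j => bumpW_nonneg (n := n) hδ.le X j z
  have hatom : ∀ k : Fin 4, ∀ j ≤ m,
      |(d1^[j]) (atom (psi n δ) k) (X z, z.2)| ≤ 2 * As * (1 + bumpW n δ X j z) := by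
    intro k j hj
    obtain ⟨h1, h2⟩ := hA j n δ k (X z, z.2) hδ hδ1' hsq
    have h3 := h2.trans (mul_le_mul (hAj j hj) (hpow (atomOrd k + j) j (by linarith [hord k]))
      (by split_ifs <;> positivity) hAs)
    have := abs_sub_abs_le_abs_sub ((d1^[j]) (atom (psi n δ) k) (X z, z.2))
      ((d1^[j]) (atom psi0 k) (X z, z.2))
    nlinarith [hAj j hj, mul_nonneg hAs (hbw j)]
  have hlevB : ∀ i ≤ m - 1, ∀ j, |(d1^[i]) X z| ≤ R' * (1 + bumpW n δ X j z) ∧
      |(d1^[i]) q z| ≤ R' * (1 + bumpW n δ X j z) := by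
    intro i hi j
    obtain ⟨a, b⟩ := hlev i (by omega)
    have : B ≤ R' * (1 + bumpW n δ X j z) :=
      calc B ≤ R' * 1 := by rw [mul_one]; linarith [le_max_left B 0]
        _ ≤ _ := mul_le_mul_of_nonneg_left (by linarith [hbw j]) (by positivity)
    exact ⟨a.trans this, b.trans this⟩
  have hU1 : 1 + bumpW n δ X 1 z ≤ 2 := by
    unfold bumpW
    split_ifs
    · have : δ ^ n * Real.sqrt δ / δ ^ (1 + 2) ≤ 1 := by
        rw [div_le_one (by positivity)]
        calc δ ^ n * Real.sqrt δ ≤ δ ^ n * 1 := by gcongr; exact Real.sqrt_le_one.mpr hδ1'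
          _ ≤ δ ^ (1 + 2) := by rw [mul_one]; exact pow_le_pow_of_le_one hδ.le hδ1' (by omega)
      linarith
    · norm_num
  obtain ⟨p, y⟩ := z
  have main := hcore n δ t lam η K0 X q _ _ p y h hz (hnorm.trans (by linarith)) hden
    (bumpW_wt (by omega) hδ hδ1' X (p, y) (m - 2)) (bumpW_wt (by omega) hδ hδ1' X (p, y) (m - 1))
    (fun i _ => le_rfl) (hU1.trans (by linarith))
    (fun i hi => hlevB i hi i) (fun i hi => hlevB (i + 1) (by omega) i)
    (fun k j hj => (hatom k j (by omega)).trans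
      (mul_le_mul_of_nonneg_right (by linarith) (by linarith [hbw j])))
  set u : E2 := (X (p, y), y) with hu
  have hlap : (d1^[m]) (lap (bumpPart n δ)) u
      = (d1^[m]) (atom (psi n δ) 3) u - (d1^[m]) (atom psi0 3) u := by
    have e : lap (bumpPart n δ) = atom (scaled (δ ^ n * Real.sqrt δ) δ bumpB) 3 := rfl
    rw [d1_iter_atom_psi n δ 3 m hsq, add_sub_cancel_left, e, atom_scaled _ δ contDiff_bumpB,
      d1_iter_scaled _ δ (contDiff_atom contDiff_bumpB 3)]
  have hsmall : ∀ k : Fin 4, atomOrd k ≤ 1 →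
      |(d1^[m]) (atom (psi n δ) k) u| ≤ 2 * As * (1 + bumpW n δ X (m - 1) (p, y)) := by
    intro k hk
    obtain ⟨h1, h2⟩ := hA m n δ k u hδ hδ1' hsq
    have h3 := h2.trans (mul_le_mul (hAj m le_rfl)
      (hpow (atomOrd k + m) (m - 1) (by omega)) (by split_ifs <;> positivity) hAs)
    have := abs_sub_abs_le_abs_sub ((d1^[m]) (atom (psi n δ) k) u) ((d1^[m]) (atom psi0 k) u)
    nlinarith [hAj m le_rfl, mul_nonneg hAs (hbw (m - 1))]
  have hjden : 1 / 2 ≤ 1 + fA (jet (psi n δ) t lam X q (p, y))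
      * jet (psi n δ) t lam X q (p, y) 2 := hden
  have he := hgrad _ hnorm hjden
  have hmc : mainCoef (psi n δ) t lam X q m (p, y)
      = fderiv ℝ phi10 (jet (psi n δ) t lam X q (p, y)) (Pi.single 7 1) * d1 X (p, y) ^ m := by
    rw [phi10_e7 (lt_of_lt_of_le (by norm_num : (0:ℝ) < 1 / 2) hjden)]
    simp [mainCoef, jet, fXi, fA, cA]
  set W := 1 + bumpW n δ X (m - 1) (p, y) with hW
  have hW1 : 1 ≤ W := by linarith [hbw (m - 1)]
  have hdiff : |atomMain (psi n δ) t lam X q m (p, y)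
      - mainCoef (psi n δ) t lam X q m (p, y) * (d1^[m]) (lap (bumpPart n δ)) u|
      ≤ 2 ^ m * (4 * (P * (2 * As * W))) := by
    set e := fun i : Fin 10 => fderiv ℝ phi10 (jet (psi n δ) t lam X q (p, y)) (Pi.single i 1)
    have eq : atomMain (psi n δ) t lam X q m (p, y)
        - mainCoef (psi n δ) t lam X q m (p, y) * (d1^[m]) (lap (bumpPart n δ)) u
        = d1 X (p, y) ^ m * (e 4 * (d1^[m]) (atom (psi n δ) 0) u
          + e 5 * (d1^[m]) (atom (psi n δ) 1) u + e 6 * (d1^[m]) (atom (psi n δ) 2) u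
          + e 7 * (d1^[m]) (atom psi0 3) u) := by
      rw [hmc, hlap, atomMain]
      simp only [e, u]
      ring
    rw [eq, abs_mul, abs_pow]
    refine mul_le_mul (pow_le_pow_left₀ (abs_nonneg _) hv m) ?_ (abs_nonneg _) (by positivity)
    have t1 : ∀ (i : Fin 10) (v : ℝ), |v| ≤ 2 * As * W → |e i * v| ≤ P * (2 * As * W) :=
      fun i v hv' => by rw [abs_mul]; exact mul_le_mul (he i) hv' (abs_nonneg _) hP
    have a1 := abs_le.mp (t1 4 _ (hsmall 0 (by simp [atomOrd])))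
    have a2 := abs_le.mp (t1 5 _ (hsmall 1 (by simp [atomOrd])))
    have a3 := abs_le.mp (t1 6 _ (hsmall 2 (by simp [atomOrd])))
    have h7 : |(d1^[m]) (atom psi0 3) u| ≤ 2 * As * W := by
      refine (hA m n δ 3 u hδ hδ1' hsq).1.trans ?_
      nlinarith [hAj m le_rfl]
    have a4 := abs_le.mp (t1 7 _ h7)
    rw [abs_le]; constructor <;> linarith
  have hWm : 1 + bumpW n δ X (m - 2) (p, y) ≤ W := by
    have := (bumpW_wt (n := n) (by omega) hδ hδ1' X (p, y) m).mono (m - 2) (m - 1) (by omega)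
      (by omega)
    exact this
  have main' : |Glev (psi n δ) t lam X q m (p, y) - atomMain (psi n δ) t lam X q m (p, y)|
      ≤ C * (W + W) :=
    main.trans (mul_le_mul_of_nonneg_left (by linarith) hC)
  calc _ ≤ _ := abs_sub_le _ (atomMain (psi n δ) t lam X q m (p, y)) _
    _ ≤ C * (W + W) + 2 ^ m * (4 * (P * (2 * As * W))) := add_le_add main' hdiff
    _ = (2 * C + 2 ^ m * (4 * (P * (2 * As)))) * W := by ring

/-- The coefficients are smooth on the box. -/
theorem coeff_smooth : CoeffSmoothStmt := by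
  intro n hn K0 hK0
  obtain ⟨η1, R, hη1, _, _, hjet⟩ := jet_bounds K0 hK0
  refine ⟨η1, hη1, fun δ t lam η X q hδ hδ1 ht ht1 hlam hlam1 hη h => ?_⟩
  have hW : box 4 ⊆ regW (psi n δ) t lam X q := fun z hz => by
    obtain ⟨_, _, _, hden⟩ := hjet n hn δ t lam η X q hδ hδ1 ht (ht1.trans hη) hlam
      (hlam1.trans hη) hη h z hz
    exact ⟨hz, lt_of_lt_of_le (by norm_num : (0:ℝ) < 1 / 2) hden⟩
  have h2 : (2 : WithTop ℕ∞) ≤ ∞ := WithTop.coe_le_coe.mpr le_top
  exact ⟨((contDiffOn_gam h).mono hW).of_le h2, ((contDiffOn_bet h).mono hW).of_le h2,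
    ((contDiffOn_cX h).mono hW).continuousOn, ((contDiffOn_cq h).mono hW).continuousOn⟩

end Vale.Agent.P229
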