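import Vale.Agent.P229.Defs
import Vale.Agent.P229.Jet

/-!
P229: coordinate derivatives and derivatives along horizontal lines.
-/

namespace Vale.Agent.P229

open Set Filter
open scoped ContDiff Topology

variable {G : Type*} [NormedAddCommGroup G] [NormedSpace ℝ G]

lemma contDiffOn_d1W {f : E2 → G} {W : Set E2} (hW : IsOpen W) (hf : ContDiffOn ℝ ∞ f W) :
    ContDiffOn ℝ ∞ (d1 f) W :=
  (hf.fderiv_of_isOpen hW le_rfl).clm_apply contDiffOn_const

lemma contDiffOn_d2W {f : E2 → G} {W : Set E2} (hW : IsOpen W) (hf : ContDiffOn ℝ ∞ f W) :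
    ContDiffOn ℝ ∞ (d2 f) W :=
  (hf.fderiv_of_isOpen hW le_rfl).clm_apply contDiffOn_const

lemma contDiffOn_d1_iter {f : E2 → G} {W : Set E2} (hW : IsOpen W) (hf : ContDiffOn ℝ ∞ f W)
    (k : ℕ) : ContDiffOn ℝ ∞ ((d1^[k]) f) W := by
  induction k with
  | zero => simpa using hf
  | succ k ih => rw [Function.iterate_succ_apply']; exact contDiffOn_d1W hW ih

lemma contDiff_d1_iter' {f : E2 → G} (hf : ContDiff ℝ ∞ f) (k : ℕ) :
    ContDiff ℝ ∞ ((d1^[k]) f) :=
  contDiffOn_univ.mp (contDiffOn_d1_iter isOpen_univ hf.contDiffOn k)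

lemma hasDerivAt_line {f : E2 → G} {x y : ℝ} (hf : DifferentiableAt ℝ f (x, y)) :
    HasDerivAt (fun s => f (s, y)) (d1 f (x, y)) x := by
  have h : HasDerivAt (fun s : ℝ => (s, y)) ((1, 0) : E2) x :=
    (hasDerivAt_id x).prodMk (hasDerivAt_const x y)
  exact hf.hasFDerivAt.comp_hasDerivAt x h

lemma d1_congr {f g : E2 → G} {z : E2} (h : f =ᶠ[𝓝 z] g) : d1 f z = d1 g z := by
  rw [d1, d1, h.fderiv_eq]

lemma d2_congr {f g : E2 → G} {z : E2} (h : f =ᶠ[𝓝 z] g) : d2 f z = d2 g z := by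
  rw [d2, d2, h.fderiv_eq]

lemma d1_iter_congr {f g : E2 → G} {W : Set E2} (hW : IsOpen W) (h : EqOn f g W) (k : ℕ) :
    EqOn ((d1^[k]) f) ((d1^[k]) g) W := by
  induction k with
  | zero => simpa using h
  | succ k ih =>
    intro z hz
    rw [Function.iterate_succ_apply', Function.iterate_succ_apply']
    exact d1_congr (eventuallyEq_of_mem (hW.mem_nhds hz) ih)

lemma iteratedDeriv_line {f : E2 → G} {W : Set E2} (hW : IsOpen W) (hf : ContDiffOn ℝ ∞ f W)
    (k : ℕ) : ∀ {x y : ℝ}, (x, y) ∈ W →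
      iteratedDeriv k (fun s => f (s, y)) x = (d1^[k]) f (x, y) := by
  induction k with
  | zero => intro x y _; simp
  | succ k ih =>
    intro x y h
    rw [iteratedDeriv_succ, Function.iterate_succ_apply']
    have hI : IsOpen {s : ℝ | (s, y) ∈ W} := hW.preimage (by fun_prop)
    have e : iteratedDeriv k (fun s => f (s, y)) =ᶠ[𝓝 x] fun s => (d1^[k]) f (s, y) :=
      eventuallyEq_of_mem (hI.mem_nhds h) fun s hs => ih hs
    rw [e.deriv_eq]
    exact (hasDerivAt_line (((contDiffOn_d1_iter hW hf k).contDiffAt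
      (hW.mem_nhds h)).differentiableAt (by simp))).deriv

lemma d2_d1_commOn {f : E2 → G} {W : Set E2} (hW : IsOpen W) (hf : ContDiffOn ℝ ∞ f W) {z : E2}
    (hz : z ∈ W) : d2 (d1 f) z = d1 (d2 f) z := by
  have hs : IsSymmSndFDerivAt ℝ f z :=
    (hf.contDiffAt (hW.mem_nhds hz)).isSymmSndFDerivAt (by
      rw [minSmoothness_of_isRCLikeNormedField]
      exact WithTop.coe_le_coe.mpr (le_top : (2 : ℕ∞) ≤ ⊤))
  have hd : DifferentiableAt ℝ (fderiv ℝ f) z :=
    ((hf.fderiv_of_isOpen hW (m := ∞) le_rfl).contDiffAt (hW.mem_nhds hz)).differentiableAt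
      (by simp)
  unfold d1 d2
  rw [fderiv_clm_apply hd (differentiableAt_const _), fderiv_clm_apply hd (differentiableAt_const _)]
  simp [hs.eq]

lemma d2_d1_iterOn {f : E2 → G} {W : Set E2} (hW : IsOpen W) (hf : ContDiffOn ℝ ∞ f W) (k : ℕ) :
    EqOn (d2 ((d1^[k]) f)) ((d1^[k]) (d2 f)) W := by
  induction k with
  | zero => intro z _; simp
  | succ k ih =>
    intro z hz
    rw [Function.iterate_succ_apply', Function.iterate_succ_apply',
      d2_d1_commOn hW (contDiffOn_d1_iter hW hf k) hz]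
    exact d1_congr (eventuallyEq_of_mem (hW.mem_nhds hz) ih)

lemma Hodo.d2_iter_X {n : ℕ} {δ t lam η K0 : ℝ} {X q : E2 → ℝ}
    (h : Hodo n δ t lam η K0 X q) (k : ℕ) (z : E2) :
    d2 ((d1^[k]) X) z = -(d1^[k + 1]) q z := by
  have hn : ∀ g : E2 → ℝ, ∀ j : ℕ, (d1^[j]) (fun w => -g w) = fun w => -(d1^[j]) g w := by
    intro g j
    induction j with
    | zero => rfl
    | succ j ih =>
      rw [Function.iterate_succ_apply', ih, Function.iterate_succ_apply']
      funext w
      simp [d1, fderiv_fun_neg]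
  rw [d2_d1_iterOn isOpen_univ h.smoothX.contDiffOn k (mem_univ z),
    show d2 X = fun w => -d1 q w from funext h.compat, hn, Function.iterate_succ_apply]

lemma Hodo.d2_iter_q {n : ℕ} {δ t lam η K0 : ℝ} {X q : E2 → ℝ}
    (h : Hodo n δ t lam η K0 X q) (hb : IsOpen (box 4)) (k : ℕ) :
    EqOn (d2 ((d1^[k]) q)) ((d1^[k]) (along (rhsF (psi n δ) t lam) X q)) (box 4) := fun z hz => by
  rw [d2_d1_iterOn isOpen_univ h.smoothQ.contDiffOn k (mem_univ z)]
  exact d1_iter_congr hb h.eqn k hz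

lemma isOpen_boxL (L : ℝ) : IsOpen (box L) := by
  unfold box
  exact (isOpen_lt continuous_fst.abs continuous_const).inter
    (isOpen_lt continuous_snd.abs continuous_const)

end Vale.Agent.P229
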