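import Vale.Agent.P229.MetricPatch

/-!
P229: assembly of the metric from the patches and the rings.
-/

namespace Vale.Agent.P229.Met

open Real Set Filter Topology
open scoped ContDiff RealInnerProductSpace

/-- Data of the `i`-th patch: ring, rotation, size. -/
def idx (i : ℕ) : ℕ × ℚ × ℕ := Denumerable.ofNat (ℕ × ℚ × ℕ) i

/-- Relative distance of the `i`-th patch from its circle. -/
noncomputable def gap (i : ℕ) : ℝ := (1 / 2) ^ (i + 4)

/-- Radius of the circle of the `i`-th patch. -/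
noncomputable def rad (i : ℕ) : ℝ := ringR (idx i).1

/-- Centre of the `i`-th patch in chart coordinates. -/
noncomputable def cen (i : ℕ) : E2 := (rad i * (1 + gap i), 0)

/-- The annulus of the `i`-th patch. -/
def InBand (i : ℕ) (x : E2) : Prop :=
  (rad i * (1 + 7 / 8 * gap i)) ^ 2 ≤ sqn x ∧ sqn x ≤ (rad i * (1 + 9 / 8 * gap i)) ^ 2

theorem ringR_pos (k : ℕ) : 0 < ringR k := pow_pos (by norm_num) k

theorem rad_pos (i : ℕ) : 0 < rad i := ringR_pos _

theorem gap_pos (i : ℕ) : 0 < gap i := pow_pos (by norm_num) _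

theorem gap_le (i : ℕ) : gap i ≤ 1 / 16 := by
  calc gap i ≤ (1 / 2 : ℝ) ^ 4 := pow_le_pow_of_le_one (by norm_num) (by norm_num) (Nat.le_add_left 4 i)
    _ = _ := by norm_num

theorem gap_le_half {i j : ℕ} (h : i < j) : gap j ≤ gap i / 2 := by
  calc gap j ≤ (1 / 2 : ℝ) ^ (i + 5) := pow_le_pow_of_le_one (by norm_num) (by norm_num) (by omega)
    _ = gap i / 2 := by rw [gap, pow_succ]; ring

theorem ringR_le {k l : ℕ} (h : k < l) : ringR l ≤ ringR k / 8 := by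
  calc ringR l ≤ (1 / 8 : ℝ) ^ (k + 1) := pow_le_pow_of_le_one (by norm_num) (by norm_num) (by omega)
    _ = ringR k / 8 := by rw [ringR, pow_succ]; ring

theorem inBand_of_ball {i : ℕ} {ρ : ℝ} {u : E2} (hρ0 : 0 < ρ) (hρ : ρ ≤ rad i * (gap i / 256))
    (hu : u ∈ Metric.closedBall (cen i) (12 * ρ)) :
    InBand i u ∧ 0 < u.1 ∧ u ∈ ringSet (idx i).1 := by
  rw [Metric.mem_closedBall, Prod.dist_eq, max_le_iff, Real.dist_eq, Real.dist_eq, abs_le,
    abs_le] at hu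
  simp only [cen, sub_zero] at hu
  obtain ⟨⟨h1, h2⟩, h3, h4⟩ := hu
  have hR := rad_pos i
  have he := gap_pos i
  have he' := mul_le_mul_of_nonneg_left (gap_le i) hR.le
  have hRe := mul_pos hR he
  have hlo : rad i * (1 + 7 / 8 * gap i) ≤ u.1 := by linarith
  have hpos : 0 < rad i * (1 + 7 / 8 * gap i) := by positivity
  have hu1 : 0 < u.1 := lt_of_lt_of_le hpos hlo
  have hup : u.1 + |u.2| ≤ rad i * (1 + 9 / 8 * gap i) := by
    linarith [abs_le.2 ⟨h3, h4⟩]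
  have hA : (rad i * (1 + 7 / 8 * gap i)) ^ 2 ≤ sqn u :=
    (pow_le_pow_left₀ hpos.le hlo 2).trans (le_add_of_nonneg_right (sq_nonneg _))
  have hB : sqn u ≤ (rad i * (1 + 9 / 8 * gap i)) ^ 2 := by
    refine le_trans ?_ (pow_le_pow_left₀ (by positivity) hup 2)
    rw [sqn, ← sq_abs u.2]
    linarith [mul_nonneg hu1.le (abs_nonneg u.2), add_sq u.1 |u.2|]
  refine ⟨⟨hA, hB⟩, hu1, lt_of_lt_of_le ?_ hA, lt_of_le_of_lt hB ?_⟩
  · refine pow_lt_pow_left₀ ?_ (by positivity [ringR_pos (idx i).1]) two_ne_zero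
    show rad i / 2 < _
    linarith
  · refine pow_lt_pow_left₀ ?_ (by positivity) two_ne_zero
    show _ < 2 * rad i
    linarith

theorem inBand_lt {i j : ℕ} {x : E2} (hij : i < j) (hi : InBand i x) (hj : InBand j x) : False := by
  have hR := rad_pos i
  have hR' := rad_pos j
  have he := gap_pos i
  have he' := gap_pos j
  have h1 := le_of_pow_le_pow_left₀ two_ne_zero (by positivity) (hi.1.trans hj.2)
  have h2 := le_of_pow_le_pow_left₀ two_ne_zero (by positivity) (hj.1.trans hi.2)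
  rcases lt_trichotomy (idx i).1 (idx j).1 with h | h | h
  · have h8 : rad j ≤ rad i / 8 := ringR_le h
    nlinarith [gap_le j]
  · have h8 : rad j = rad i := by rw [rad, rad, h]
    rw [h8] at h1
    nlinarith [gap_le_half hij]
  · have h8 : rad i ≤ rad j / 8 := ringR_le h
    nlinarith [gap_le i]

theorem inBand_unique {i j : ℕ} {x : E2} (hi : InBand i x) (hj : InBand j x) : i = j := by
  rcases lt_trichotomy i j with h | h | h
  · exact (inBand_lt h hi hj).elim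
  · exact h
  · exact (inBand_lt h hj hi).elim

theorem not_inBand_circle {i k : ℕ} {x : E2} (hx : sqn x = ringR k ^ 2) : ¬ InBand i x := by
  rintro ⟨h1, h2⟩
  rw [hx] at h1 h2
  have hR := rad_pos i
  have hk := ringR_pos k
  have he := gap_pos i
  have h1' := le_of_pow_le_pow_left₀ two_ne_zero hk.le h1
  have h2' := le_of_pow_le_pow_left₀ two_ne_zero (by positivity) h2
  rcases lt_trichotomy (idx i).1 k with h | h | h
  · have h8 : ringR k ≤ rad i / 8 := ringR_le h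
    nlinarith
  · subst h
    change rad i * _ ≤ rad i at h1'
    nlinarith
  · have h8 : rad i ≤ ringR k / 8 := ringR_le h
    nlinarith [gap_le i]

theorem inBand_of_patch {i : ℕ} {c φ ρ : ℝ} {x : E2} (hρ0 : 0 < ρ)
    (hρ : ρ ≤ rad i * (gap i / 256)) (hx : x ∈ patchSet c φ ρ (cen i)) : InBand i x := by
  obtain ⟨u, hu, rfl⟩ := hx
  rw [InBand, sqn_chart]
  exact (inBand_of_ball hρ0 hρ (Metric.closedBall_subset_closedBall (by linarith) hu)).1

theorem cen_gt {i : ℕ} {ρ : ℝ} (hρ : ρ ≤ rad i * (gap i / 256)) : 11 * ρ < (cen i).1 := by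
  have h : 0 < rad i * gap i := mul_pos (rad_pos i) (gap_pos i)
  have := rad_pos i
  show 11 * ρ < rad i * (1 + gap i)
  linarith

/-- The `i`-th patch of the exponent. -/
noncomputable def bump (c : ℕ → ℝ) (s δ ρ : ℕ → ℝ) (i : ℕ) (x : E2) : ℝ :=
  s i * sig (i + 8) (δ i) (c (idx i).1) ((idx i).2.1 : ℝ) (ρ i) (cen i) x

theorem exists_data (hN : NoPatchStmt) (hP : PsiBoundStmt) (c : ℕ → ℝ)
    (hc : ∀ k, 1 < c k ∧ c k < 2) :
    ∃ s δ ρ : ℕ → ℝ, ∀ i,
      0 < ρ i ∧ ρ i ≤ rad i * (gap i / 256) ∧ 0 < δ i ∧ δ i ≤ 1 ∧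
      (∀ N ≤ i + 8, ∀ x, ‖iteratedFDeriv ℝ N (bump c s δ ρ i) x‖ ≤ (1 / 2 : ℝ) ^ i) ∧
      ∀ (cc : E2) (f : E2 → E3), ¬ PatchSol (i + 8) (δ i) (s i) (ρ i) (((idx i).2.2 : ℝ) + 1) cc f := by
  have key : ∀ i, ∃ s δ ρ : ℝ,
      0 < ρ ∧ ρ ≤ rad i * (gap i / 256) ∧ 0 < δ ∧ δ ≤ 1 ∧
      (∀ N ≤ i + 8, ∀ x, ‖iteratedFDeriv ℝ N
        (fun y => s * sig (i + 8) δ (c (idx i).1) ((idx i).2.1 : ℝ) ρ (cen i) y) x‖ ≤ (1 / 2 : ℝ) ^ i) ∧
      ∀ (cc : E2) (f : E2 → E3), ¬ PatchSol (i + 8) δ s ρ (((idx i).2.2 : ℝ) + 1) cc f := fun i => by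
    obtain ⟨ρ0, hρ0, h⟩ := hN (i + 8) (Nat.le_add_left 8 i) (((idx i).2.2 : ℝ) + 1) (by positivity)
    set ρ := min ρ0 (rad i * (gap i / 256))
    have hρ : 0 < ρ := lt_min hρ0 (mul_pos (rad_pos i) (div_pos (gap_pos i) (by norm_num)))
    have hρ' : ρ ≤ rad i * (gap i / 256) := min_le_right _ _
    obtain ⟨s0, hs0, h'⟩ := h ρ hρ (min_le_left _ _)
    obtain ⟨C, hC0, hC⟩ := sig_bound hP (n := i + 8) (φ := ((idx i).2.1 : ℝ)) (hc (idx i).1).1
      (hc (idx i).1).2 hρ (cen_gt hρ')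
    set s := min s0 ((1 / 2 : ℝ) ^ i / (C + 1))
    have hs : 0 < s := lt_min hs0 (by positivity)
    obtain ⟨δ, hδ, hδ1, h''⟩ := h' s hs (min_le_left _ _)
    refine ⟨s, δ, ρ, hρ, hρ', hδ, hδ1, fun N hN' x => ?_, h''⟩
    have hd : ContDiffAt ℝ N (sig (i + 8) δ (c (idx i).1) ((idx i).2.1 : ℝ) ρ (cen i)) x :=
      ((contDiff_sig hδ hδ1 (hc _).1 (hc _).2 hρ (cen_gt hρ')).contDiffAt).of_le (mod_cast le_top)
    have e : (fun y => s * sig (i + 8) δ (c (idx i).1) ((idx i).2.1 : ℝ) ρ (cen i) y)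
        = s • sig (i + 8) δ (c (idx i).1) ((idx i).2.1 : ℝ) ρ (cen i) := rfl
    rw [e, iteratedFDeriv_const_smul_apply hd, norm_smul, Real.norm_eq_abs, abs_of_pos hs]
    calc s * ‖iteratedFDeriv ℝ N _ x‖ ≤ s * (C + 1) :=
          mul_le_mul_of_nonneg_left (by linarith [hC δ hδ hδ1 N hN' x]) hs.le
      _ ≤ (1 / 2 : ℝ) ^ i := (le_div_iff₀ (by linarith)).1 (min_le_right _ _)
  choose s δ ρ h using key
  exact ⟨s, δ, ρ, h⟩

theorem contDiffOn_dir {f : E2 → E3} {W : Set E2} (hW : IsOpen W) (hf : ContDiffOn ℝ ∞ f W)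
    (v : E2) : ContDiffOn ℝ ∞ (fun z => fderiv ℝ f z v) W :=
  (hf.fderiv_of_isOpen hW le_rfl).clm_apply contDiffOn_const

theorem eventually_normal {f : E2 → E3} {g : E2 → ℝ} {W : Set E2} {u0 : E2} {a : ℝ}
    (hW : IsOpen W) (hu0 : u0 ∈ W) (hf : ContDiffOn ℝ ∞ f W) (hg : ∀ u ∈ W, 0 < g u)
    (hgc : ContinuousAt g u0)
    (hm : ∀ u ∈ W, ⟪d1 f u, d1 f u⟫ = g u ∧ ⟪d1 f u, d2 f u⟫ = 0 ∧ ⟪d2 f u, d2 f u⟫ = g u)
    (ha : 0 < a) (hN : NormalAtLeast f u0 a) : ∀ᶠ u in 𝓝 u0, NormalAtLeast f u (a / 2) := by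
  obtain ⟨e0, he0, h1, h2, h3⟩ := hN
  have hf1 : ContDiffOn ℝ ∞ (d1 f) W := contDiffOn_dir hW hf (1, 0)
  have hf2 : ContDiffOn ℝ ∞ (d2 f) W := contDiffOn_dir hW hf (0, 1)
  have hc : ∀ {h : E2 → E3}, ContDiffOn ℝ ∞ h W → ContinuousAt h u0 :=
    fun hh => hh.continuousOn.continuousAt (hW.mem_nhds hu0)
  have c1 := hc hf1
  have c2 := hc hf2
  have c11 : ContinuousAt (d1 (d1 f)) u0 := hc (contDiffOn_dir hW hf1 (1, 0))
  have c21 : ContinuousAt (d2 (d1 f)) u0 := hc (contDiffOn_dir hW hf1 (0, 1))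
  have c22 : ContinuousAt (d2 (d2 f)) u0 := hc (contDiffOn_dir hW hf2 (0, 1))
  set w : E2 → E3 := fun u =>
    e0 - (⟪e0, d1 f u⟫ / g u) • d1 f u - (⟪e0, d2 f u⟫ / g u) • d2 f u with hwdef
  have cw : ContinuousAt w u0 :=
    (continuousAt_const.sub (((continuousAt_const.inner c1).div hgc (hg u0 hu0).ne').smul c1)).sub
      (((continuousAt_const.inner c2).div hgc (hg u0 hu0).ne').smul c2)
  have hw0 : w u0 = e0 := by simp [hwdef, h1, h2]
  have hwne : ‖w u0‖ ≠ 0 := by rw [hw0, he0]; norm_num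
  set e : E2 → E3 := fun u => ‖w u‖⁻¹ • w u with hedef
  have ce : ContinuousAt e u0 := (cw.norm.inv₀ hwne).smul cw
  have cΦ : ContinuousAt
      (fun u => |⟪e u, d1 (d1 f) u⟫| + |⟪e u, d2 (d1 f) u⟫| + |⟪e u, d2 (d2 f) u⟫|) u0 :=
    (((ce.inner c11).abs).add (ce.inner c21).abs).add (ce.inner c22).abs
  have hΦ : a / 2 < |⟪e u0, d1 (d1 f) u0⟫| + |⟪e u0, d2 (d1 f) u0⟫| + |⟪e u0, d2 (d2 f) u0⟫| := by
    have : e u0 = e0 := by simp [hedef, hw0, he0]
    rw [this]; linarith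
  filter_upwards [hW.mem_nhds hu0, cw.norm.eventually_ne hwne, cΦ.eventually (lt_mem_nhds hΦ)]
    with u hu hne hlt
  obtain ⟨m11, m12, m22⟩ := hm u hu
  have hgu := (hg u hu).ne'
  have o1 : ⟪w u, d1 f u⟫ = 0 := by
    have m21 : ⟪d2 f u, d1 f u⟫ = 0 := by rw [real_inner_comm]; exact m12
    simp only [hwdef, inner_sub_left, real_inner_smul_left, m11, m21]
    field_simp
    ring
  have o2 : ⟪w u, d2 f u⟫ = 0 := by
    simp only [hwdef, inner_sub_left, real_inner_smul_left, m12, m22]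
    field_simp
    ring
  refine ⟨e u, ?_, ?_, ?_, hlt.le⟩
  · simp only [hedef, norm_smul, norm_inv, norm_norm, inv_mul_cancel₀ hne]
  · simp only [hedef, real_inner_smul_left, o1, mul_zero]
  · simp only [hedef, real_inner_smul_left, o2, mul_zero]

theorem inner_map {E F G : E2 → ℝ} {f : E2 → E3} {x : E2} {t : ℝ}
    (h : ⟪d1 f x, d1 f x⟫ = t * E x ∧ ⟪d1 f x, d2 f x⟫ = t * F x ∧ ⟪d2 f x, d2 f x⟫ = t * G x)
    (v w : E2) : ⟪fderiv ℝ f x v, fderiv ℝ f x w⟫ = t * bil E F G x v w := by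
  obtain ⟨h11, h12, h22⟩ := h
  have e : ∀ p : E2, fderiv ℝ f x p = p.1 • d1 f x + p.2 • d2 f x := fun p => by
    rw [d1, d2, ← map_smul, ← map_smul, ← map_add]
    congr 1
    ext <;> simp
  have h21 : ⟪d2 f x, d1 f x⟫ = t * F x := by rw [real_inner_comm]; exact h12
  rw [e v, e w]
  simp only [inner_add_left, inner_add_right, real_inner_smul_left, real_inner_smul_right,
    h11, h12, h21, h22, bil]
  ring

end Vale.Agent.P229.Met

namespace Vale.Agent.P229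

open Real Set Filter Topology Met
open scoped ContDiff RealInnerProductSpace

/-- Assembly of the metric. -/
theorem finalStmt_of (hN : NoPatchStmt) (hR : RingStmt) (hP : PsiBoundStmt) : FinalStmt := by
  obtain ⟨E0, F0, G0, c, hE0, hF0, hG0, hpd, hc, hiso, hforce⟩ := hR
  obtain ⟨s, δ, ρ, hdat⟩ := exists_data hN hP c hc
  choose hρ hρ' hδ hδ1 hbd hno using hdat
  have hsm : ∀ i, ContDiff ℝ ∞ (bump c s δ ρ i) := fun i =>
    contDiff_const.mul (contDiff_sig (hδ i) (hδ1 i) (hc _).1 (hc _).2 (hρ i) (cen_gt (hρ' i)))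
  have hz : ∀ i x, ¬ InBand i x → bump c s δ ρ i =ᶠ[𝓝 x] fun _ => 0 := fun i x hx => by
    filter_upwards [sig_eventuallyEq_zero (n := i + 8) (hδ i) (hδ1 i) (hc (idx i).1).1
      (hc (idx i).1).2 (hρ i) (cen_gt (hρ' i))
      (fun h => hx (inBand_of_patch (φ := ((idx i).2.1 : ℝ)) (hρ i) (hρ' i) h))] with y hy
    simp [bump, hy]
  set S : E2 → ℝ := fun x => ∑' i, bump c s δ ρ i x with hSdef
  have hgeo : Summable fun i : ℕ => (1 / 2 : ℝ) ^ i := summable_geometric_two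
  have hS : ContDiff ℝ ∞ S := by
    refine contDiff_tsum_of_eventually (v := fun _ i => (1 / 2 : ℝ) ^ i) hsm (fun _ _ => hgeo)
      fun k _ => ?_
    rw [Nat.cofinite_eq_atTop]
    filter_upwards [eventually_ge_atTop k] with i hi x
    exact hbd i k (by omega) x
  have hS0 : ∀ k x, sqn x = ringR k ^ 2 → S x = 0 ∧ fderiv ℝ S x = 0 := fun k x hx => by
    have hv : ∀ i, bump c s δ ρ i =ᶠ[𝓝 x] fun _ => 0 := fun i => hz i x (not_inBand_circle hx)
    have h0 : ∀ i, bump c s δ ρ i x = 0 := fun i => (hv i).eq_of_nhds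
    refine ⟨by simp [hSdef, h0], ?_⟩
    have hd : ∀ i y, ‖fderiv ℝ (bump c s δ ρ i) y‖ ≤ (1 / 2 : ℝ) ^ i := fun i y => by
      rw [← norm_iteratedFDeriv_one]
      exact hbd i 1 (by omega) y
    rw [hSdef, fderiv_tsum_apply hgeo (fun i => (hsm i).differentiable (by norm_num)) hd
      (x₀ := x) (by simp [h0]) x]
    simp [(hv _).fderiv_eq]
  refine ⟨fun x => Real.exp (2 * S x) * E0 x, fun x => Real.exp (2 * S x) * F0 x,
    fun x => Real.exp (2 * S x) * G0 x, ?_, ?_, ?_, fun x => ?_, ?_⟩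
  · exact ((contDiff_const.mul hS).exp).mul hE0
  · exact ((contDiff_const.mul hS).exp).mul hF0
  · exact ((contDiff_const.mul hS).exp).mul hG0
  · obtain ⟨h1, h2⟩ := hpd x
    have he := Real.exp_pos (2 * S x)
    refine ⟨mul_pos he h1, ?_⟩
    have := mul_lt_mul_of_pos_left h2 (pow_pos he 2)
    linarith
  rintro U hU hU0 ⟨f, hf, hfU⟩
  obtain ⟨k, φ, a, ha, hx0, hna⟩ := hforce S hS hS0 U hU hU0 f hf hfU
  set ch := chart (c k) (φ : ℝ)
  set u0 : E2 := (ringR k, 0)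
  set W : Set E2 := ({u : E2 | 0 < u.1} ∩ ringSet k) ∩ ch ⁻¹' U
  have hpos : IsOpen {u : E2 | 0 < u.1} := isOpen_lt continuous_const continuous_fst
  have hring : IsOpen (ringSet k) :=
    (isOpen_lt continuous_const contDiff_sqn.continuous).inter
      (isOpen_lt contDiff_sqn.continuous continuous_const)
  have hch : ∀ u : E2, 0 < u.1 → ContDiffAt ℝ ∞ ch u := fun u hu => contDiffAt_chart _ _ hu
  have hW : IsOpen W := ContinuousOn.isOpen_inter_preimage
    (fun u hu => (hch u hu.1).continuousAt.continuousWithinAt) (hpos.inter hring) hU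
  have hu0 : u0 ∈ W := by
    have := ringR_pos k
    refine ⟨⟨this, ?_, ?_⟩, hx0⟩ <;> simp only [u0, sqn] <;> nlinarith
  have hf' : ContDiffOn ℝ ∞ (f ∘ ch) W :=
    hf.comp (fun u hu => (hch u hu.1.1).contDiffWithinAt) fun u hu => hu.2
  have hmet : ∀ u ∈ W, ⟪d1 (f ∘ ch) u, d1 (f ∘ ch) u⟫ = Real.exp (2 * S (ch u)) ∧
      ⟪d1 (f ∘ ch) u, d2 (f ∘ ch) u⟫ = 0 ∧
      ⟪d2 (f ∘ ch) u, d2 (f ∘ ch) u⟫ = Real.exp (2 * S (ch u)) := fun u hu => by
    have hd : fderiv ℝ (f ∘ ch) u = (fderiv ℝ f (ch u)).comp (fderiv ℝ ch u) :=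
      fderiv_comp u ((hf.contDiffAt (hU.mem_nhds hu.2)).differentiableAt (by norm_num))
        ((hch u hu.1.1).differentiableAt (by norm_num))
    have hm : ∀ v w, ⟪fderiv ℝ f (ch u) v, fderiv ℝ f (ch u) w⟫
        = Real.exp (2 * S (ch u)) * bil E0 F0 G0 (ch u) v w :=
      fun v w => inner_map (hfU (ch u) hu.2) v w
    obtain ⟨b11, b12, b22⟩ := hiso k (φ : ℝ) u hu.1.1 hu.1.2
    simp only [d1, d2, hd, ContinuousLinearMap.comp_apply, hm]
    simp only [d1, d2] at b11 b12 b22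
    exact ⟨by rw [b11, mul_one], by rw [b12, mul_zero], by rw [b22, mul_one]⟩
  have hev : ∀ᶠ u in 𝓝 u0, u ∈ W ∧ NormalAtLeast (f ∘ ch) u (a / 2) :=
    (hW.eventually_mem hu0).and (eventually_normal hW hu0 hf' (fun _ _ => Real.exp_pos _)
      (((contDiff_const.mul hS).exp.continuous.continuousAt).comp (hch u0 hu0.1.1).continuousAt)
      hmet ha hna)
  obtain ⟨r, hr, hball⟩ := Metric.nhds_basis_closedBall.mem_iff.1 hev
  have hbound : ∀ m : ℕ, ∃ B, ∀ u ∈ Metric.closedBall u0 r,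
      ‖iteratedFDeriv ℝ m (f ∘ ch) u‖ ≤ B := fun m => by
    obtain ⟨B, hB⟩ := (isCompact_closedBall u0 r).exists_bound_of_continuousOn
      ((hf'.continuousOn_iteratedFDerivWithin (m := m) (mod_cast le_top) hW.uniqueDiffOn).mono
        fun u hu => (hball hu).1)
    refine ⟨B, fun u hu => ?_⟩
    rw [← iteratedFDerivWithin_of_isOpen m hW (hball hu).1]
    exact hB u hu
  choose B hB using hbound
  have hinj : Function.Injective fun M : ℕ => Denumerable.eqv (ℕ × ℚ × ℕ) (k, φ, M) := fun M M' h => by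
    simpa using congrArg (Prod.snd ∘ Prod.snd) ((Denumerable.eqv (ℕ × ℚ × ℕ)).injective h)
  have hsmall : ∀ᶠ i : ℕ in atTop, 2 * (ringR k * gap i) < r := by
    have : Tendsto (fun i : ℕ => 2 * (ringR k * gap i)) atTop (𝓝 (2 * (ringR k * 0))) := by
      refine tendsto_const_nhds.mul (tendsto_const_nhds.mul ?_)
      exact (tendsto_pow_atTop_nhds_zero_of_lt_one (by norm_num) (by norm_num)).comp
        (tendsto_add_atTop_nat 4)
    exact this.eventually (gt_mem_nhds (by simpa using hr))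
  have hbig : ∀ X : ℝ, ∀ᶠ M : ℕ in atTop, X ≤ (M : ℝ) :=
    fun X => tendsto_natCast_atTop_atTop.eventually (eventually_ge_atTop X)
  have hBev : ∀ᶠ M : ℕ in atTop, ∀ m ∈ Finset.range 7, B m ≤ (M : ℝ) :=
    (Finset.eventually_all _).2 fun m _ => hbig (B m)
  obtain ⟨M, hMr, hMB, hMa⟩ :=
    ((hinj.nat_tendsto_atTop.eventually hsmall).and (hBev.and (hbig (2 / a)))).exists
  generalize hi : Denumerable.eqv (ℕ × ℚ × ℕ) (k, φ, M) = i at hMr
  have hidx : idx i = (k, φ, M) := by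
    rw [← hi]
    exact (Denumerable.eqv (ℕ × ℚ × ℕ)).symm_apply_apply (k, φ, M)
  have hrad : rad i = ringR k := by rw [rad, hidx]
  have hgap := gap_pos i
  have hsub : Metric.ball (cen i) (12 * ρ i) ⊆ Metric.closedBall u0 r := fun u hu => by
    rw [Metric.mem_closedBall]
    refine (dist_triangle u (cen i) u0).trans ?_
    have h1 : dist (cen i) u0 = ringR k * gap i := by
      have := mul_pos (ringR_pos k) hgap
      simp only [cen, u0, hrad, Prod.dist_eq, Real.dist_eq]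
      rw [show ringR k * (1 + gap i) - ringR k = ringR k * gap i by ring, sub_zero, abs_zero,
        abs_of_pos this, max_eq_left this.le]
    have h2 := hρ' i
    rw [hrad] at h2
    have h3 := mul_pos (ringR_pos k) hgap
    linarith [Metric.mem_ball.1 hu]
  have hSval : ∀ u ∈ Metric.ball (cen i) (12 * ρ i),
      S (ch u) = s i * psi (i + 8) (δ i) ((1 / ρ i) • (u - cen i)) := fun u hu => by
    obtain ⟨hband, hu1, -⟩ := inBand_of_ball (hρ i) (hρ' i) (Metric.ball_subset_closedBall hu)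
    have hb' : InBand i (ch u) := by
      simp only [InBand, ch, sqn_chart]
      exact hband
    rw [hSdef]
    simp only
    rw [tsum_eq_single i fun j hj => (hz j (ch u) fun h => hj (inBand_unique h hb')).eq_of_nhds]
    simp only [bump, hidx, ch]
    rw [sig, if_pos (rot1_chart_pos (hc k).1 hu1), chartInv_chart (hc k).1 hu1, one_div]
  have hM1 : (((idx i).2.2 : ℕ) : ℝ) + 1 = (M : ℝ) + 1 := by rw [hidx]
  refine hno i (cen i) (f ∘ ch) ⟨hf'.mono fun u hu => (hball (hsub hu)).1, fun u hu => ?_,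
    fun m _ hm u hu => ?_, ?_⟩
  · obtain ⟨h1, h2, h3⟩ := hmet u (hball (hsub hu)).1
    rw [hSval u hu] at h1 h3
    exact ⟨h1, h2, h3⟩
  · rw [hM1]
    linarith [hB m u (hsub hu), hMB m (Finset.mem_range.2 (by omega))]
  · obtain ⟨e, he1, he2, he3, he4⟩ :=
      (hball (hsub (Metric.mem_ball_self (by linarith [hρ i] : 0 < 12 * ρ i)))).2
    refine ⟨e, he1, he2, he3, le_trans ?_ he4⟩
    rw [hM1, div_le_iff₀ (by positivity)]
    rw [div_le_iff₀ ha] at hMa
    linarith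

end Vale.Agent.P229
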