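import Vale.Agent.P229.Middle.Jump
import Vale.Agent.P229.Interfaces

/-!
# P229: the bump makes bounded traces on both sides of the slab impossible
-/

namespace Vale.Agent.P229

open Real Set Mid
open scoped ContDiff

/-- `MiddleStmt`, from the coefficient facts and the bound of the lower order rests. -/
theorem middleStmt (hCoeff : CoeffMidStmt) (hGlev : MidGlevStmt) : MiddleStmt := by
  intro n hn K0 K hK0 hK
  obtain ⟨ηc, C, hηc, hC, hco⟩ := hCoeff n hn K0 hK0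
  obtain ⟨ηg, hηg, hG⟩ := hGlev K0 hK0
  obtain ⟨c, hc, hline⟩ := bump_line n
  obtain ⟨ξ, hξ, hξc⟩ := hline 0 (by simp)
  obtain ⟨M, hM1, hM, hMl⟩ := prof_bound n
  choose f hf hf' using fun m : ℕ => mainCoef_near n m (by omega) K0 hK0.le one_pos
  set ηm := (Finset.range (n + 1)).inf' Finset.nonempty_range_add_one f with hηm
  have hηm0 : 0 < ηm := (Finset.lt_inf'_iff _).2 fun m _ => hf m
  set u := c / (156 * M) with hu
  have hu0 : 0 < u := by positivity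
  set ε := min 1 u with hε
  have hε0 : 0 < ε := lt_min one_pos hu0
  obtain ⟨ηe, hηe, he⟩ := mainCoef_near n n (by omega) K0 hK0.le hε0
  have hK1 : 1 ≤ K := by linarith
  have hC' : 1 ≤ lvlC n C := by
    unfold lvlC
    nlinarith [(n.cast_nonneg : (0 : ℝ) ≤ n)]
  set C' := lvlC n C with hC'd
  set s := min (u / (12 * C')) (min (1 / (96 * C' * K)) (c / (4 * (2496 * M * C' * K)))) with hs
  have hs0 : 0 < s := by positivity
  set η1 := min (min ηc ηg) (min (min ηm ηe) (min (1 / 4) (min (u / 2) (s ^ 2)))) with hη1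
  refine ⟨η1, by positivity, fun t0 C0 δ0 ht0 hδ0 => ?_⟩
  obtain ⟨⟨hle_c, hle_g⟩, ⟨hle_m, hle_e⟩, hle_4, hle_u, hle_s⟩ :
      (η1 ≤ ηc ∧ η1 ≤ ηg) ∧ (η1 ≤ ηm ∧ η1 ≤ ηe) ∧ η1 ≤ 1 / 4 ∧ η1 ≤ u / 2 ∧ η1 ≤ s ^ 2 := by
    simp only [hη1, min_le_iff, le_refl, true_or, or_true, and_self]
  have hG' : ∀ m, 5 ≤ m → m ≤ n → ∀ B : ℝ, ∃ C' : ℝ, ∀ δ t lam η : ℝ, ∀ X q : E2 → ℝ,
      0 < δ → δ ≤ η1 → 0 < t → t ≤ η1 → 0 < lam → lam ≤ η1 → η ≤ η1 →
      Hodo n δ t lam η K0 X q →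
        ∀ z ∈ box 4, (∀ l < m, |(d1^[l]) X z| ≤ B ∧ |(d1^[l]) q z| ≤ B) →
          |Glev (psi n δ) t lam X q m z
              - mainCoef (psi n δ) t lam X q m z * (d1^[m]) (lap (bumpPart n δ)) (X z, z.2)|
            ≤ C' * (1 + bumpW n δ X (m - 1) z) := fun m h5 hm B => by
    obtain ⟨C', hC'⟩ := hG n hn m h5 hm B
    exact ⟨C', fun δ t lam η X q a1 a2 a3 a4 a5 a6 a7 a8 => hC' δ t lam η X q a1
      (a2.trans hle_g) a3 (a4.trans hle_g) a5 (a6.trans hle_g) (a7.trans hle_g) a8⟩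
  have hco' : ∀ m ≤ n, ∀ δ t lam η : ℝ, ∀ X q : E2 → ℝ, 0 < δ → δ ≤ 1 → 0 < t → t ≤ η →
      0 < lam → lam ≤ η → η ≤ η1 → Hodo n δ t lam η K0 X q → ∀ L : ℝ, L ≤ 1 / 8 →
        ∀ z ∈ slab L, |mainCoef (psi n δ) t lam X q m z + t| ≤ t := by
    intro m hm δ t lam η X q a1 a2 a3 a4 a5 a6 a7 a8 L hL z hz
    have hmf : ηm ≤ f m := Finset.inf'_le f (Finset.mem_range.2 (by omega))
    have := hf' m δ t lam η X q a1 a2 a3 a4 a5 a6 (a7.trans (hle_m.trans hmf)) a8 L hL z hz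
    rwa [one_mul] at this
  obtain ⟨B, hB⟩ := levels_bound n K0 K C C0 t0 ht0 hK0 hG' hco' n (by omega) le_rfl
  obtain ⟨A', hA'⟩ := hG' n (by omega) le_rfl B
  set A := max A' 0 with hA
  have hA0 : 0 ≤ A := le_max_right _ _
  set W := 6 * |C0| + 34 * A with hW
  have hW0 : 0 ≤ W := by positivity
  set δ := min (min δ0 η1) (min (min 1 (t0 / 32)) ((c * t0 / (4 * (W + 1))) ^ 2)) with hδ
  obtain ⟨⟨hδ_0, hδ_η⟩, ⟨hδ_1, hδ_t⟩, hδ_W⟩ :
      (δ ≤ δ0 ∧ δ ≤ η1) ∧ (δ ≤ 1 ∧ δ ≤ t0 / 32) ∧ δ ≤ (c * t0 / (4 * (W + 1))) ^ 2 := by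
    simp only [hδ, min_le_iff, le_refl, true_or, or_true, and_self]
  have hδpos : 0 < δ := by positivity
  refine ⟨δ, hδpos, hδ_0, fun t lam X q ht ht1 hlam hlam1 hh htr => ?_⟩
  have htp : 0 < t := ht0.trans_le ht
  have hts : Real.sqrt t ≤ s :=
    (Real.sqrt_le_sqrt (ht1.trans hle_s)).trans (le_of_eq (Real.sqrt_sq hs0.le))
  have hts1 : Real.sqrt t ≤ u / (12 * C') := hts.trans (min_le_left _ _)
  have hts2 : Real.sqrt t ≤ 1 / (96 * C' * K) :=
    hts.trans ((min_le_right _ _).trans (min_le_left _ _))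
  have hts3 : Real.sqrt t ≤ c / (4 * (2496 * M * C' * K)) :=
    hts.trans ((min_le_right _ _).trans (min_le_right _ _))
  have S : Slab n K0 K C C0 t0 η1 δ t lam X q :=
    { hodo := hh
      delta_pos := hδpos
      delta_one := hδ_1
      t0_pos := ht0
      t_ge := ht
      t_le := ht1
      lam_pos := hlam
      lam_le := hlam1
      eta_le := hle_4
      K0pos := hK0
      Kge := hK
      Cone := hC
      small := by
        rw [le_div_iff₀ (by positivity)] at hts2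
        rw [← hC'd]; linarith
      coeff := hco δ t lam η1 X q hδpos (hδ_η.trans hle_c) htp ht1 hlam hlam1 hle_c hh
      trace := htr }
  obtain ⟨-, -, -, -, -, -, -, h8, -⟩ := S.facts
  refine jump_false S (A := A) (ε := ε) (M := M) (c := c) hA0 hξ hξc hM hMl hε0.le
    (min_le_left _ _) (fun z hz => ?_) (fun z hz => ?_) ?_ ?_ hδ_t ?_
  · obtain ⟨w0, w1⟩ := bumpW_le (n := n) (k := n - 1) (X := X) (by omega) hδpos hδ_1 z
    refine (hA' δ t lam η1 X q hδpos hδ_η htp ht1 hlam hlam1 le_rfl hh z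
      (slab_box (by linarith) (region_subset S.charData hz))
      (hB δ t lam η1 X q S hδ_η le_rfl z hz)).trans ?_
    exact (mul_le_mul_of_nonneg_right (le_max_left A' 0) (by linarith)).trans
      (mul_le_mul_of_nonneg_left (by linarith) hA0)
  · exact he δ t lam η1 X q hδpos hδ_1 htp ht1 hlam hlam1 hle_e hh (K * t) (by linarith) z hz
  · rw [le_div_iff₀ (by positivity)] at hts3
    rw [← hC'd]; linarith
  · rw [le_div_iff₀ (by positivity)] at hts1
    rw [← hC'd]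
    have h1 : ε + 2 * η1 + 12 * C' * Real.sqrt t ≤ 3 * u := by
      have : ε ≤ u := min_le_right _ _
      linarith
    calc 13 * M * (ε + 2 * η1 + 12 * C' * Real.sqrt t) ≤ 13 * M * (3 * u) :=
          mul_le_mul_of_nonneg_left h1 (by positivity)
      _ = c / 4 := by rw [hu]; field_simp; ring
  · have hsd : 0 < Real.sqrt δ := Real.sqrt_pos.2 hδpos
    have h1 : Real.sqrt δ ≤ c * t0 / (4 * (W + 1)) :=
      (Real.sqrt_le_sqrt hδ_W).trans (le_of_eq (Real.sqrt_sq (by positivity)))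
    rw [Real.sqrt_div_self, ← hW, ← div_eq_mul_inv, ← mul_div_assoc, lt_div_iff₀ hsd]
    rw [le_div_iff₀ (by positivity)] at h1
    have : 0 < c * t0 := by positivity
    linarith [mul_comm W (Real.sqrt δ)]

end Vale.Agent.P229
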