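import Mathlib

/-!
# P229: a periodic frame cannot turn by a non-integer amount
-/

namespace Vale.Agent.P229

/-- If a pair of periodic vector functions rotates with constant speed `c`, then `c` is an integer
or the first function vanishes. -/
theorem periodic_rotation {V : Type*} [NormedAddCommGroup V] [InnerProductSpace ℝ V]
    (T N : ℝ → V) (c : ℝ)
    (hT : ∀ s, HasDerivAt T (-c • N s) s) (hN : ∀ s, HasDerivAt N (c • T s) s)
    (hT2 : T (2 * Real.pi) = T 0) (hN2 : N (2 * Real.pi) = N 0)
    (hc : ∀ k : ℤ, c ≠ k) : T 0 = 0 := by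
  set A : ℝ → V := fun s => Real.cos (c * s) • T s + Real.sin (c * s) • N s with hA
  set B : ℝ → V := fun s => Real.cos (c * s) • N s - Real.sin (c * s) • T s with hB
  have hcs : ∀ s, HasDerivAt (fun x => c * x) c s := fun s => by
    simpa using (hasDerivAt_id s).const_mul c
  have dA : ∀ s, HasDerivAt A 0 s := fun s => by
    have h := ((hcs s).cos.smul (hT s)).add ((hcs s).sin.smul (hN s))
    simp only [hA]
    refine h.congr_deriv ?_
    module
  have dB : ∀ s, HasDerivAt B 0 s := fun s => by
    have h := ((hcs s).cos.smul (hN s)).sub ((hcs s).sin.smul (hT s))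
    simp only [hB]
    refine h.congr_deriv ?_
    module
  have cA := is_const_of_deriv_eq_zero (fun s => (dA s).differentiableAt) (fun s => (dA s).deriv)
    (2 * Real.pi) 0
  have cB := is_const_of_deriv_eq_zero (fun s => (dB s).differentiableAt) (fun s => (dB s).deriv)
    (2 * Real.pi) 0
  simp only [hA, hB, hT2, hN2, mul_zero, Real.cos_zero, Real.sin_zero, one_smul, zero_smul,
    add_zero, sub_zero] at cA cB
  set a := Real.cos (c * (2 * Real.pi)) with ha
  set b := Real.sin (c * (2 * Real.pi)) with hb
  have hab : a ^ 2 + b ^ 2 = 1 := Real.cos_sq_add_sin_sq _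
  have key : (2 - 2 * a) • T 0 = 0 := by
    calc (2 - 2 * a) • T 0
        = ((a ^ 2 + b ^ 2) - 2 * a + 1) • T 0 := by rw [hab]; ring_nf
      _ = (a - 1) • ((a • T 0 + b • N 0) - T 0)
            - b • ((a • N 0 - b • T 0) - N 0) := by module
      _ = 0 := by rw [cA, cB]; simp
  rcases smul_eq_zero.1 key with h | h
  · exfalso
    obtain ⟨k, hk⟩ := (Real.cos_eq_one_iff (c * (2 * Real.pi))).1 (by linarith)
    exact hc k (mul_right_cancel₀ Real.two_pi_pos.ne' hk.symm)
  · exact h

end Vale.Agent.P229
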