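import Vale.Agent.P229.Interfaces
import Vale.Agent.P229.Turning

/-!
P229: the cone rings and the forcing property of their middle circles.
-/

namespace Vale.Agent.P229

open Real Set Filter
open scoped ContDiff RealInnerProductSpace Topology

namespace Ring

/-- Radial profile of one ring in the scaled variable `u = sqn x / R ^ 2`. -/
noncomputable def chi (u : ℝ) : ℝ :=
  Real.smoothTransition (8 * u - 1) * Real.smoothTransition ((6 - u) / 2)

/-- A positive denominator equal to `u` for `1 / 4 ≤ u`. -/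
noncomputable def den (u : ℝ) : ℝ := u + Real.smoothTransition (1 - 4 * u)

lemma den_pos {u : ℝ} (hu : 0 ≤ u) : 0 < den u := by
  rcases hu.eq_or_lt with h | h
  · subst h
    simp [den]
  · exact add_pos_of_pos_of_nonneg h (Real.smoothTransition.nonneg _)

lemma chi_nonneg (u : ℝ) : 0 ≤ chi u :=
  mul_nonneg (Real.smoothTransition.nonneg _) (Real.smoothTransition.nonneg _)

lemma sqn_nonneg (x : E2) : 0 ≤ sqn x := by unfold sqn; positivity

lemma sqn_contDiff {n : WithTop ℕ∞} : ContDiff ℝ n sqn :=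
  (contDiff_fst.pow 2).add (contDiff_snd.pow 2)

lemma ringR_pos (k : ℕ) : 0 < ringR k := by unfold ringR; positivity

/-- The unscaled correction of ring `k`. -/
noncomputable def pk (k : ℕ) (x : E2) : ℝ :=
  chi (sqn x / ringR k ^ 2) / (ringR k ^ 2 * den (sqn x / ringR k ^ 2))

lemma pk_nonneg (k : ℕ) (x : E2) : 0 ≤ pk k x := by
  have := den_pos (div_nonneg (sqn_nonneg x) (sq_nonneg (ringR k)))
  exact div_nonneg (chi_nonneg _) (mul_nonneg (sq_nonneg _) this.le)

lemma pk_contDiff (k : ℕ) : ContDiff ℝ ∞ (pk k) := by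
  have hst : ContDiff ℝ ∞ Real.smoothTransition := Real.smoothTransition.contDiff
  have hu : ContDiff ℝ ∞ (fun x : E2 => sqn x / ringR k ^ 2) := sqn_contDiff.div_const _
  unfold pk chi den
  refine ContDiff.div ?_ ?_ ?_
  · exact (hst.comp ((contDiff_const.mul hu).sub contDiff_const)).mul
      (hst.comp ((contDiff_const.sub hu).div_const _))
  · exact contDiff_const.mul (hu.add (hst.comp (contDiff_const.sub (contDiff_const.mul hu))))
  · intro x
    exact (mul_pos (pow_pos (ringR_pos k) 2)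
      (den_pos (div_nonneg (sqn_nonneg x) (sq_nonneg (ringR k))))).ne'

lemma pk_support (k : ℕ) : HasCompactSupport (pk k) := by
  refine HasCompactSupport.intro (isCompact_closedBall (0 : E2) (3 * ringR k)) fun x hx => ?_
  have hR := ringR_pos k
  have hx' : 3 * ringR k < ‖x‖ := by simpa [Metric.mem_closedBall, dist_zero_right] using hx
  have h1 : ‖x‖ ^ 2 ≤ sqn x := by
    rw [Prod.norm_def]
    rcases max_choice ‖x.1‖ ‖x.2‖ with h | h <;> rw [h, Real.norm_eq_abs, sq_abs] <;>
      unfold sqn <;> nlinarith [sq_nonneg x.1, sq_nonneg x.2]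
  have h2 : 6 ≤ sqn x / ringR k ^ 2 := by
    rw [le_div_iff₀ (by positivity)]
    nlinarith
  simp only [pk, chi]
  rw [Real.smoothTransition.zero_of_nonpos (x := (6 - sqn x / ringR k ^ 2) / 2) (by linarith)]
  simp

lemma pk_bound (k i : ℕ) : ∃ C : ℝ, 0 ≤ C ∧ ∀ x, ‖iteratedFDeriv ℝ i (pk k) x‖ ≤ C := by
  have hc : Continuous (iteratedFDeriv ℝ i (pk k)) :=
    (pk_contDiff k).continuous_iteratedFDeriv (by exact_mod_cast le_top)
  obtain ⟨C, hC⟩ :=
    ((pk_support k).iteratedFDeriv i).exists_bound_of_continuous hc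
  exact ⟨max C 0, le_max_right _ _, fun x => (hC x).trans (le_max_left _ _)⟩

noncomputable def cst (k i : ℕ) : ℝ := (pk_bound k i).choose

lemma cst_nonneg (k i : ℕ) : 0 ≤ cst k i := (pk_bound k i).choose_spec.1

lemma cst_spec (k i : ℕ) (x : E2) : ‖iteratedFDeriv ℝ i (pk k) x‖ ≤ cst k i :=
  (pk_bound k i).choose_spec.2 x

/-- Defect of ring `k`: so small that the sum of the rings is smooth at the origin. -/
noncomputable def ek (k : ℕ) : ℝ :=
  (1 / 2) ^ k / (1 + ∑ i ∈ Finset.range (k + 1), cst k i)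

lemma ek_den (k : ℕ) : 1 ≤ 1 + ∑ i ∈ Finset.range (k + 1), cst k i :=
  le_add_of_nonneg_right (Finset.sum_nonneg fun i _ => cst_nonneg k i)

lemma ek_pos (k : ℕ) : 0 < ek k :=
  div_pos (by positivity) (lt_of_lt_of_le one_pos (ek_den k))

lemma ek_le (k : ℕ) : ek k ≤ 1 :=
  (div_le_self (by positivity) (ek_den k)).trans (pow_le_one₀ (by norm_num) (by norm_num))

lemma ek_cst {k i : ℕ} (h : i ≤ k) : ek k * cst k i ≤ (1 / 2) ^ k := by
  have h1 : cst k i ≤ 1 + ∑ j ∈ Finset.range (k + 1), cst k j := by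
    have := Finset.single_le_sum (f := fun j => cst k j) (fun j _ => cst_nonneg k j)
      (Finset.mem_range.2 (Nat.lt_succ_of_le h))
    linarith
  have h0 := lt_of_lt_of_le one_pos (ek_den k)
  calc ek k * cst k i ≤ ek k * (1 + ∑ j ∈ Finset.range (k + 1), cst k j) :=
        mul_le_mul_of_nonneg_left h1 (ek_pos k).le
    _ = (1 / 2) ^ k := div_mul_cancel₀ _ h0.ne'

/-- Parameter of cone `k`. -/
noncomputable def cpar (k : ℕ) : ℝ := Real.sqrt (1 + ek k)

lemma cpar_bounds (k : ℕ) : 1 < cpar k ∧ cpar k < 2 := by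
  have h1 := ek_pos k
  have h2 := ek_le k
  refine ⟨?_, ?_⟩
  · exact Real.lt_sqrt_of_sq_lt (by linarith)
  · exact (Real.sqrt_lt' two_pos).2 (by linarith)

lemma cpar_sq (k : ℕ) : cpar k ^ 2 = 1 + ek k :=
  Real.sq_sqrt (by linarith [ek_pos k])

/-- The total correction. -/
noncomputable def Phi (x : E2) : ℝ := ∑' k, ek k * pk k x

lemma Phi_contDiff : ContDiff ℝ ∞ Phi := by
  refine contDiff_tsum (N := ⊤) (v := fun i k => ek k * cst k i) (fun k => ?_) (fun i _ => ?_)
    (fun i k x _ => ?_)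
  · exact contDiff_const.mul (pk_contDiff k)
  · have hg : Summable (fun k : ℕ => ((1 / 2 : ℝ)) ^ k) :=
      summable_geometric_of_lt_one (by norm_num) (by norm_num)
    refine (summable_nat_add_iff i).1 ?_
    refine Summable.of_nonneg_of_le (fun k => mul_nonneg (ek_pos _).le (cst_nonneg _ _))
      (fun k => ek_cst (Nat.le_add_left i k)) ?_
    exact (summable_nat_add_iff i).2 hg
  · have hk : (fun x => ek k * pk k x) = ek k • pk k := rfl
    rw [hk, iteratedFDeriv_const_smul_apply ((pk_contDiff k).contDiffAt.of_le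
      (by exact_mod_cast le_top)), norm_smul, Real.norm_eq_abs, abs_of_pos (ek_pos k)]
    exact mul_le_mul_of_nonneg_left (cst_spec k i x) (ek_pos k).le

lemma Phi_nonneg (x : E2) : 0 ≤ Phi x :=
  tsum_nonneg fun k => mul_nonneg (ek_pos k).le (pk_nonneg k x)

lemma ringR_step {j k : ℕ} (h : j < k) : 8 * ringR k ≤ ringR j := by
  obtain ⟨d, rfl⟩ := Nat.exists_eq_add_of_lt h
  have e : ringR (j + d + 1) = ringR j * (1 / 8) ^ d * (1 / 8) := by
    simp [ringR, pow_add]
  have : ((1 : ℝ) / 8) ^ d ≤ 1 := pow_le_one₀ (by norm_num) (by norm_num)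
  nlinarith [ringR_pos j]

lemma Phi_ring {k : ℕ} {x : E2} (hx : x ∈ ringSet k) : Phi x * sqn x = cpar k ^ 2 - 1 := by
  obtain ⟨hlo, hhi⟩ := hx
  have hR := ringR_pos k
  have hs : 0 < sqn x := lt_of_le_of_lt (sq_nonneg _) hlo
  have h1 : Phi x = ek k * pk k x := by
    refine tsum_eq_single k fun j hj => ?_
    have hRj := ringR_pos j
    have hz : chi (sqn x / ringR j ^ 2) = 0 := by
      rcases lt_or_gt_of_ne hj with h | h
      · have hs' := ringR_step h
        have : sqn x / ringR j ^ 2 ≤ 1 / 8 := by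
          rw [div_le_iff₀ (by positivity)]; nlinarith
        simp [chi, Real.smoothTransition.zero_of_nonpos
          (x := 8 * (sqn x / ringR j ^ 2) - 1) (by linarith)]
      · have hs' := ringR_step h
        have : 6 ≤ sqn x / ringR j ^ 2 := by
          rw [le_div_iff₀ (by positivity)]; nlinarith
        simp [chi, Real.smoothTransition.zero_of_nonpos
          (x := (6 - sqn x / ringR j ^ 2) / 2) (by linarith)]
    simp [pk, hz]
  have hu1 : 1 / 4 ≤ sqn x / ringR k ^ 2 := by
    rw [le_div_iff₀ (by positivity)]; nlinarith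
  have hu2 : sqn x / ringR k ^ 2 ≤ 4 := by
    rw [div_le_iff₀ (by positivity)]; nlinarith
  have hp : pk k x = 1 / sqn x := by
    simp only [pk, chi, den]
    rw [Real.smoothTransition.one_of_one_le (by linarith),
      Real.smoothTransition.one_of_one_le (by linarith),
      Real.smoothTransition.zero_of_nonpos (x := 1 - 4 * (sqn x / ringR k ^ 2)) (by linarith),
      one_mul, add_zero, mul_div_cancel₀ _ (by positivity)]
  rw [h1, hp, cpar_sq]
  field_simp
  ring

noncomputable def E0 (x : E2) : ℝ := 1 + Phi x * x.2 ^ 2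
noncomputable def F0 (x : E2) : ℝ := -(Phi x * x.1 * x.2)
noncomputable def G0 (x : E2) : ℝ := 1 + Phi x * x.1 ^ 2

/-! The chart. -/

noncomputable def ang (c φ : ℝ) (u : E2) : ℝ := φ + Real.arctan (u.2 / u.1) / c

lemma chart_fderiv (c φ : ℝ) (u : E2) (hu : 0 < u.1) (v : E2) :
    fderiv ℝ (chart c φ) u v =
      ((u.1 * v.1 + u.2 * v.2) / √(sqn u) * Real.cos (ang c φ u)
          - √(sqn u) * Real.sin (ang c φ u) * ((u.1 * v.2 - u.2 * v.1) / sqn u / c),
       (u.1 * v.1 + u.2 * v.2) / √(sqn u) * Real.sin (ang c φ u)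
          + √(sqn u) * Real.cos (ang c φ u) * ((u.1 * v.2 - u.2 * v.1) / sqn u / c)) := by
  have hs : 0 < sqn u := by unfold sqn; positivity
  have h1 : HasFDerivAt (fun w : E2 => w.1) (ContinuousLinearMap.fst ℝ ℝ ℝ) u := hasFDerivAt_fst
  have h2 : HasFDerivAt (fun w : E2 => w.2) (ContinuousLinearMap.snd ℝ ℝ ℝ) u := hasFDerivAt_snd
  have hq : HasFDerivAt sqn
      ((2 * u.1) • ContinuousLinearMap.fst ℝ ℝ ℝ + (2 * u.2) • ContinuousLinearMap.snd ℝ ℝ ℝ) u := by
    have := (h1.mul h1).add (h2.mul h2)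
    have e : sqn = fun w : E2 => w.1 * w.1 + w.2 * w.2 := by funext w; simp [sqn]; ring
    rw [e]
    refine this.congr_fderiv ?_
    module
  have hr := (Real.hasDerivAt_sqrt hs.ne').comp_hasFDerivAt u hq
  have hiv := (hasDerivAt_inv hu.ne').comp_hasFDerivAt u h1
  have hat := (Real.hasDerivAt_arctan (u.2 * u.1⁻¹)).comp_hasFDerivAt u (h2.mul hiv)
  have ha : HasFDerivAt (fun w : E2 => φ + Real.arctan (w.2 * w.1⁻¹) * c⁻¹) _ u :=
    (hat.mul_const c⁻¹).const_add φ
  have hch : HasFDerivAt (fun w : E2 =>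
      (√(sqn w) * Real.cos (φ + Real.arctan (w.2 * w.1⁻¹) * c⁻¹),
       √(sqn w) * Real.sin (φ + Real.arctan (w.2 * w.1⁻¹) * c⁻¹))) _ u :=
    (hr.mul ha.cos).prodMk (hr.mul ha.sin)
  have e : chart c φ = fun w : E2 =>
      (√(sqn w) * Real.cos (φ + Real.arctan (w.2 * w.1⁻¹) * c⁻¹),
       √(sqn w) * Real.sin (φ + Real.arctan (w.2 * w.1⁻¹) * c⁻¹)) := by
    funext w; simp [chart, div_eq_mul_inv]
  rw [e, hch.fderiv]
  have hang : ang c φ u = φ + Real.arctan (u.2 * u.1⁻¹) * c⁻¹ := by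
    simp [ang, div_eq_mul_inv]
  have hden : 1 + (u.2 * u.1⁻¹) ^ 2 = sqn u / u.1 ^ 2 := by
    unfold sqn; field_simp
  have hu0 := hu.ne'
  have hq0 := hs.ne'
  have hr0 : √(sqn u) ≠ 0 := (Real.sqrt_pos.2 hs).ne'
  simp only [hang, Function.comp_apply, ContinuousLinearMap.prod_apply,
    add_apply, FunLike.coe_smul, Pi.smul_apply,
    ContinuousLinearMap.coe_fst', ContinuousLinearMap.coe_snd', smul_eq_mul, hden]
  refine Prod.ext ?_ ?_ <;> simp only <;> field_simp <;> ring

lemma chart_eq (c φ : ℝ) (u : E2) :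
    chart c φ u = (√(sqn u) * Real.cos (ang c φ u), √(sqn u) * Real.sin (ang c φ u)) := rfl

lemma sqn_chart (c φ : ℝ) (u : E2) : sqn (chart c φ u) = sqn u := by
  have h := Real.sq_sqrt (sqn_nonneg u)
  have h2 := Real.cos_sq_add_sin_sq (ang c φ u)
  rw [chart_eq]
  show (√(sqn u) * _) ^ 2 + (√(sqn u) * _) ^ 2 = _
  linear_combination (√(sqn u)) ^ 2 * h2 + h

/-- The chart is isometric from the Euclidean plane to the ring. -/
lemma bil_chart (k : ℕ) (φ : ℝ) (u : E2) (hu : 0 < u.1) (hk : u ∈ ringSet k) (v w : E2) :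
    bil E0 F0 G0 (chart (cpar k) φ u) (fderiv ℝ (chart (cpar k) φ) u v)
      (fderiv ℝ (chart (cpar k) φ) u w) = v.1 * w.1 + v.2 * w.2 := by
  have hs : 0 < sqn u := by unfold sqn; positivity
  have hx : chart (cpar k) φ u ∈ ringSet k := by
    have := hk
    simpa [ringSet, sqn_chart] using this
  have hP := Phi_ring hx
  rw [sqn_chart] at hP
  have hc : 0 < cpar k := one_pos.trans (cpar_bounds k).1
  rw [chart_fderiv _ _ u hu v, chart_fderiv _ _ u hu w]
  simp only [bil, E0, F0, G0]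
  generalize Phi (chart (cpar k) φ u) = P at hP ⊢
  rw [chart_eq]
  simp only
  have hcs := Real.cos_sq_add_sin_sq (ang (cpar k) φ u)
  have hr := Real.sq_sqrt hs.le
  generalize Real.cos (ang (cpar k) φ u) = C at hcs ⊢
  generalize Real.sin (ang (cpar k) φ u) = Sn at hcs ⊢
  set r := √(sqn u) with hrdef
  have hr0 : 0 < r := Real.sqrt_pos.2 hs
  have hn : v.1 * w.1 + v.2 * w.2 =
      ((u.1 * v.1 + u.2 * v.2) * (u.1 * w.1 + u.2 * w.2)
        + (u.1 * v.2 - u.2 * v.1) * (u.1 * w.2 - u.2 * w.1)) / sqn u := by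
    rw [eq_div_iff hs.ne']; unfold sqn; ring
  rw [hn]
  rw [← hr]
  rw [← hr] at hP
  generalize (u.1 * v.1 + u.2 * v.2) = a1
  generalize (u.1 * w.1 + u.2 * w.2) = a2
  generalize (u.1 * v.2 - u.2 * v.1) = b1
  generalize (u.1 * w.2 - u.2 * w.1) = b2
  have key : (1 + P * r ^ 2) = cpar k ^ 2 := by linarith
  calc _ = (C ^ 2 + Sn ^ 2) * (a1 * a2 / r ^ 2) +
        (C ^ 2 + Sn ^ 2) * (1 + P * r ^ 2 * (C ^ 2 + Sn ^ 2)) *
          (b1 * b2 / (r ^ 2 * cpar k ^ 2)) := by field_simp; ring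
    _ = a1 * a2 / r ^ 2 + b1 * b2 / r ^ 2 := by rw [hcs]; simp only [one_mul, mul_one]; rw [key]; field_simp
    _ = _ := by ring

/-! The forcing property. -/

lemma inner_fderiv (f : E2 → E3) (E F G : E2 → ℝ) (U : Set E2) (hI : Isom E F G f U)
    {x : E2} (hx : x ∈ U) (a b : E2) :
    ⟪fderiv ℝ f x a, fderiv ℝ f x b⟫ = bil E F G x a b := by
  obtain ⟨h11, h12, h22⟩ := hI x hx
  have he : ∀ v : E2, fderiv ℝ f x v = v.1 • d1 f x + v.2 • d2 f x := fun v => by
    have : v = v.1 • ((1 : ℝ), (0 : ℝ)) + v.2 • ((0 : ℝ), (1 : ℝ)) := by simp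
    conv_lhs => rw [this]
    rw [map_add, map_smul, map_smul]
    rfl
  have h21 : ⟪d2 f x, d1 f x⟫ = F x := by rw [real_inner_comm]; exact h12
  rw [he a, he b]
  simp only [inner_add_left, inner_add_right, real_inner_smul_left, real_inner_smul_right,
    h11, h12, h21, h22, bil]
  ring

lemma exists_normal (h1 h2 : E3) : ∃ e : E3, ‖e‖ = 1 ∧ ⟪e, h1⟫ = 0 ∧ ⟪e, h2⟫ = 0 := by
  set K := Submodule.span ℝ (range ![h1, h2]) with hK
  have hd : Module.finrank ℝ K ≤ 2 := by
    exact le_of_le_of_eq (finrank_range_le_card (R := ℝ) ![h1, h2]) (by simp)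
  have hne : Kᗮ ≠ ⊥ := by
    intro h
    have h3 := K.finrank_add_finrank_orthogonal
    rw [h, finrank_bot, finrank_euclideanSpace_fin] at h3
    omega
  obtain ⟨v, hv, hv0⟩ := Kᗮ.ne_bot_iff.1 hne
  have hm : ∀ i : Fin 2, ⟪v, ![h1, h2] i⟫ = 0 := fun i => by
    rw [real_inner_comm]
    exact Submodule.inner_right_of_mem_orthogonal (Submodule.subset_span (mem_range_self i)) hv
  refine ⟨‖v‖⁻¹ • v, norm_smul_inv_norm hv0, ?_, ?_⟩ <;> rw [real_inner_smul_left]
  · rw [show ⟪v, h1⟫ = 0 from hm 0, mul_zero]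
  · rw [show ⟪v, h2⟫ = 0 from hm 1, mul_zero]

lemma eq_zero_of_inner {h1 h2 e v : E3} (n1 : ‖h1‖ = 1) (n2 : ‖h2‖ = 1) (ne : ‖e‖ = 1)
    (o12 : ⟪h1, h2⟫ = 0) (oe1 : ⟪e, h1⟫ = 0) (oe2 : ⟪e, h2⟫ = 0)
    (v1 : ⟪h1, v⟫ = 0) (v2 : ⟪h2, v⟫ = 0) (ve : ⟪e, v⟫ = 0) : v = 0 := by
  have hon : Orthonormal ℝ ![h1, h2, e] := by
    have o21 : ⟪h2, h1⟫ = 0 := by rw [real_inner_comm]; exact o12
    have o1e : ⟪h1, e⟫ = 0 := by rw [real_inner_comm]; exact oe1
    have o2e : ⟪h2, e⟫ = 0 := by rw [real_inner_comm]; exact oe2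
    refine ⟨fun i => by fin_cases i <;> simpa, fun i j hij => ?_⟩
    fin_cases i <;> fin_cases j <;> simp_all
  let b := basisOfOrthonormalOfCardEqFinrank hon (by simp)
  refine b.ext_elem_iff.2 fun i => ?_
  have hb : (⇑b : Fin 3 → E3) = ![h1, h2, e] := coe_basisOfOrthonormalOfCardEqFinrank hon _
  let ob := b.toOrthonormalBasis (by rw [hb]; exact hon)
  have : ∀ i, b.repr v i = ⟪b i, v⟫ := fun i => by
    have := ob.repr_apply_apply v i
    simpa [ob] using this
  rw [this, hb, map_zero]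
  fin_cases i <;> simpa

/-- Leibniz rule for a coordinate of the metric. -/
lemma inner_rule {F G : E2 → E3} {a : E2 → ℝ} {z : E2} (hF : DifferentiableAt ℝ F z)
    (hG : DifferentiableAt ℝ G z) (he : (fun u => ⟪F u, G u⟫) =ᶠ[𝓝 z] a)
    (ha : fderiv ℝ a z = 0) (v : E2) :
    ⟪fderiv ℝ F z v, G z⟫ + ⟪F z, fderiv ℝ G z v⟫ = 0 := by
  have h := (fderiv_inner_apply ℝ hF hG v).symm
  rw [he.fderiv_eq, ha] at h
  simpa [add_comm] using h

lemma chart_smooth (c φ : ℝ) {u : E2} (hu : 0 < u.1) :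
    ContDiffAt ℝ ∞ (chart c φ) u := by
  have hs : 0 < sqn u := by unfold sqn; positivity
  have hr : ContDiffAt ℝ ∞ (fun w : E2 => √(sqn w)) u := sqn_contDiff.contDiffAt.sqrt hs.ne'
  have ha : ContDiffAt ℝ ∞ (ang c φ) u :=
    contDiffAt_const.add
      ((Real.contDiff_arctan.contDiffAt.comp u
        (contDiffAt_snd.div contDiffAt_fst hu.ne')).div_const c)
  exact (hr.mul ha.cos).prodMk (hr.mul ha.sin)

lemma circle_chart (c : ℝ) {R : ℝ} (hR : 0 < R) {φ s : ℝ} (hs : s ∈ Ioo (-(π / 2)) (π / 2)) :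
    ang c φ (R * Real.cos s, R * Real.sin s) = φ + s / c ∧
      √(sqn (R * Real.cos s, R * Real.sin s)) = R := by
  refine ⟨?_, ?_⟩
  · simp only [ang]
    rw [mul_div_mul_left _ _ hR.ne', ← Real.tan_eq_sin_div_cos, Real.arctan_tan hs.1 hs.2]
  · have : sqn (R * Real.cos s, R * Real.sin s) = R ^ 2 := by
      show (R * Real.cos s) ^ 2 + (R * Real.sin s) ^ 2 = R ^ 2
      linear_combination R ^ 2 * Real.cos_sq_add_sin_sq s
    rw [this, Real.sqrt_sq hR.le]

theorem forcing (S : E2 → ℝ) (hS : ContDiff ℝ ∞ S)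
    (hS0 : ∀ k x, sqn x = ringR k ^ 2 → S x = 0 ∧ fderiv ℝ S x = 0)
    (U : Set E2) (hU : IsOpen U) (h0 : (0 : E2) ∈ U) (f : E2 → E3)
    (hf : ContDiffOn ℝ ∞ f U)
    (hI : Isom (fun x => Real.exp (2 * S x) * E0 x) (fun x => Real.exp (2 * S x) * F0 x)
          (fun x => Real.exp (2 * S x) * G0 x) f U) :
    ∃ k : ℕ, ∃ φ : ℚ, ∃ a : ℝ, 0 < a ∧ chart (cpar k) φ (ringR k, 0) ∈ U ∧
      NormalAtLeast (f ∘ chart (cpar k) φ) (ringR k, 0) a := by
  obtain ⟨ρ, hρ, hρU⟩ := Metric.isOpen_iff.1 hU 0 h0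
  obtain ⟨k, hk⟩ := exists_pow_lt_of_lt_one hρ (show (1 / 8 : ℝ) < 1 by norm_num)
  refine ⟨k, ?_⟩
  set R := ringR k with hRdef
  have hR : 0 < R := ringR_pos k
  have hRρ : R < ρ := hk
  set c := cpar k with hcdef
  obtain ⟨hc1, hc2⟩ := cpar_bounds k
  have hc : 0 < c := one_pos.trans hc1
  have hmem : ∀ a : ℝ, (R * Real.cos a, R * Real.sin a) ∈ U := fun a => by
    refine hρU ?_
    rw [Metric.mem_ball, dist_zero_right, Prod.norm_def, Real.norm_eq_abs, Real.norm_eq_abs]
    refine lt_of_le_of_lt (max_le ?_ ?_) hRρ <;> rw [abs_mul, abs_of_pos hR]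
    · exact mul_le_of_le_one_right hR.le (Real.abs_cos_le_one a)
    · exact mul_le_of_le_one_right hR.le (Real.abs_sin_le_one a)
  set p : ℝ → E2 := fun a => (R * Real.cos a, R * Real.sin a) with hpdef
  set T : ℝ → E3 := fun a => fderiv ℝ f (p a) (-Real.sin a / c, Real.cos a / c) with hTdef
  set N : ℝ → E3 := fun a => fderiv ℝ f (p a) (Real.cos a, Real.sin a) with hNdef
  have hp : ContDiff ℝ 1 p :=
    (contDiff_const.mul Real.contDiff_cos).prodMk (contDiff_const.mul Real.contDiff_sin)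
  have hDf : ContDiff ℝ 1 (fun a => fderiv ℝ f (p a)) :=
    (hf.fderiv_of_isOpen hU (m := 1) (WithTop.coe_le_coe.2 le_top)).comp_contDiff hp hmem
  have hT : ContDiff ℝ 1 T :=
    hDf.clm_apply ((Real.contDiff_sin.neg.div_const c).prodMk (Real.contDiff_cos.div_const c))
  have hN : ContDiff ℝ 1 N := hDf.clm_apply (Real.contDiff_cos.prodMk Real.contDiff_sin)
  by_contra hno
  push Not at hno
  -- the basic identities at a rational angle
  have hrat : ∀ q : ℚ, deriv T q = -c • N q ∧ deriv N q = c • T q := by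
    intro q
    set z : E2 := (R, 0) with hz
    have hz1 : 0 < z.1 := hR
    have hang : ang c q z = q := by simp [ang, hz]
    have hsz : √(sqn z) = R := by simp [sqn, hz, Real.sqrt_sq hR.le]
    have hcz : chart c q z = p q := by rw [chart_eq, hang, hsz]
    have hzring : z ∈ ringSet k := by
      simp only [ringSet, mem_ofPred_eq, sqn, hz, ← hRdef]
      constructor <;> nlinarith
    have hcont : ContinuousAt (chart c q) z := (chart_smooth c q hz1).continuousAt
    have hev : ∀ᶠ u in 𝓝 z, 0 < u.1 ∧ u ∈ ringSet k ∧ chart c q u ∈ U := by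
      refine Filter.Eventually.and ?_ (Filter.Eventually.and ?_ ?_)
      · exact (continuous_fst.tendsto z).eventually_const_lt hz1
      · refine IsOpen.mem_nhds ?_ hzring
        have hc : Continuous sqn := (sqn_contDiff (n := 0)).continuous
        exact (isOpen_lt continuous_const hc).inter (isOpen_lt hc continuous_const)
      · exact hcont.eventually_mem (hU.mem_nhds (hcz ▸ hmem q))
    set h := f ∘ chart c q with hhdef
    have hfd : ∀ᶠ u in 𝓝 z, ∀ v, fderiv ℝ h u v =
        fderiv ℝ f (chart c q u) (fderiv ℝ (chart c q) u v) := by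
      filter_upwards [hev] with u hu v
      rw [hhdef, fderiv_comp u ((hf.contDiffAt (hU.mem_nhds hu.2.2)).differentiableAt (by simp))
        ((chart_smooth c q hu.1).differentiableAt (by simp))]
      rfl
    have hmet : ∀ v w : E2, (fun u => ⟪fderiv ℝ h u v, fderiv ℝ h u w⟫) =ᶠ[𝓝 z]
        fun u => Real.exp (2 * S (chart c q u)) * (v.1 * w.1 + v.2 * w.2) := by
      intro v w
      filter_upwards [hev, hfd] with u hu hfu
      rw [hfu, hfu, inner_fderiv f _ _ _ U hI hu.2.2, ← bil_chart k q u hu.1 hu.2.1 v w]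
      simp only [bil, hcdef]
      ring
    have hsq : sqn (p q) = R ^ 2 := by
      rw [← hcz, sqn_chart]; simp [sqn, hz]
    obtain ⟨hS1, hS2⟩ := hS0 k (p q) hsq
    have hdexp : ∀ v w : E2,
        fderiv ℝ (fun u => Real.exp (2 * S (chart c q u)) * (v.1 * w.1 + v.2 * w.2)) z = 0 := by
      intro v w
      have hSd : HasFDerivAt S (0 : E2 →L[ℝ] ℝ) (chart c q z) := by
        rw [hcz, ← hS2]; exact (hS.differentiable (by simp) _).hasFDerivAt
      have h1 := (hSd.comp z ((chart_smooth c q hz1).differentiableAt (by simp)).hasFDerivAt)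
      have h2 := ((h1.const_mul 2).exp.mul_const (v.1 * w.1 + v.2 * w.2))
      refine (h2.congr_fderiv ?_).fderiv
      simp
    have hh : ContDiffAt ℝ 2 h z :=
      (((hf.contDiffAt (hU.mem_nhds (hcz ▸ hmem q))).comp z (chart_smooth c q hz1))).of_le
        (WithTop.coe_le_coe.2 le_top)
    have hdh : ∀ v : E2, DifferentiableAt ℝ (fun u => fderiv ℝ h u v) z := fun v =>
      (((hh.fderiv_right (m := 1) (by norm_num)).differentiableAt (by simp)).clm_apply
        (differentiableAt_const v))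
    have hrule := fun v w d : E2 => inner_rule (hdh v) (hdh w) (hmet v w) (hdexp v w) d
    have hval : ∀ v w : E2, ⟪fderiv ℝ h z v, fderiv ℝ h z w⟫ = v.1 * w.1 + v.2 * w.2 := fun v w => by
      have := (hmet v w).eq_of_nhds
      rw [this, hcz, hS1]; simp
    have hsym : fderiv ℝ (fun u => fderiv ℝ h u (0, 1)) z (1, 0) = d2 (d1 h) z := by
      have hd := (hh.fderiv_right (m := 1) (by norm_num)).differentiableAt (by simp)
      show _ = fderiv ℝ (fun u => fderiv ℝ h u (1, 0)) z (0, 1)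
      rw [fderiv_clm_apply hd (differentiableAt_const _),
        fderiv_clm_apply hd (differentiableAt_const _)]
      simpa using hh.isSymmSndFDerivAt (by simp) (1, 0) (0, 1)
    obtain ⟨e, he1, he2, he3⟩ := exists_normal (d1 h z) (d2 h z)
    set A := |⟪e, d1 (d1 h) z⟫| + |⟪e, d2 (d1 h) z⟫| + |⟪e, d2 (d2 h) z⟫| with hA
    have hA0 : A ≤ 0 := by
      by_contra hlt
      exact hno q A (not_le.1 hlt) (show chart c q z ∈ U from hcz ▸ hmem q)
        ⟨e, he1, he2, he3, le_refl _⟩
    have hb := abs_nonneg ⟪e, d1 (d1 h) z⟫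
    have hb2 := abs_nonneg ⟪e, d2 (d1 h) z⟫
    have hb3 := abs_nonneg ⟪e, d2 (d2 h) z⟫
    have e12 : ⟪e, d2 (d1 h) z⟫ = 0 := abs_nonpos_iff.1 (by linarith)
    have e22 : ⟪e, d2 (d2 h) z⟫ = 0 := abs_nonpos_iff.1 (by linarith)
    have n1 : ‖d1 h z‖ = 1 := by
      have := hval (1, 0) (1, 0)
      rw [← sq_eq_sq₀ (norm_nonneg _) zero_le_one, ← real_inner_self_eq_norm_sq]
      simpa [d1] using this
    have n2 : ‖d2 h z‖ = 1 := by
      have := hval (0, 1) (0, 1)
      rw [← sq_eq_sq₀ (norm_nonneg _) zero_le_one, ← real_inner_self_eq_norm_sq]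
      simpa [d2] using this
    have o12 : ⟪d1 h z, d2 h z⟫ = 0 := by
      have := hval (1, 0) (0, 1)
      simpa [d1, d2] using this
    have a1 : ⟪d2 (d1 h) z, d1 h z⟫ = 0 := by
      have := hrule (1, 0) (1, 0) (0, 1)
      rw [real_inner_comm (fderiv ℝ (fun u => fderiv ℝ h u (1, 0)) z (0, 1))] at this
      have e : d2 (d1 h) z = fderiv ℝ (fun u => fderiv ℝ h u (1, 0)) z (0, 1) := rfl
      rw [e]; show ⟪_, fderiv ℝ h z (1, 0)⟫ = 0
      linarith
    have a2 : ⟪d2 (d1 h) z, d2 h z⟫ = 0 := by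
      have := hrule (0, 1) (0, 1) (1, 0)
      rw [hsym] at this
      rw [real_inner_comm (d2 (d1 h) z) (fderiv ℝ h z (0, 1))] at this
      show ⟪_, fderiv ℝ h z (0, 1)⟫ = 0
      linarith
    have a3 : ⟪d2 (d2 h) z, d2 h z⟫ = 0 := by
      have := hrule (0, 1) (0, 1) (0, 1)
      rw [real_inner_comm (fderiv ℝ (fun u => fderiv ℝ h u (0, 1)) z (0, 1))] at this
      have e : d2 (d2 h) z = fderiv ℝ (fun u => fderiv ℝ h u (0, 1)) z (0, 1) := rfl
      rw [e]; show ⟪_, fderiv ℝ h z (0, 1)⟫ = 0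
      linarith
    have a4 : ⟪d2 (d2 h) z, d1 h z⟫ = 0 := by
      have := hrule (1, 0) (0, 1) (0, 1)
      have e1 : fderiv ℝ (fun u => fderiv ℝ h u (1, 0)) z (0, 1) = d2 (d1 h) z := rfl
      have e2 : fderiv ℝ (fun u => fderiv ℝ h u (0, 1)) z (0, 1) = d2 (d2 h) z := rfl
      rw [e1, e2, show fderiv ℝ h z (0, 1) = d2 h z from rfl, a2,
        show fderiv ℝ h z (1, 0) = d1 h z from rfl, zero_add] at this
      rw [real_inner_comm]; exact this
    have z12 : d2 (d1 h) z = 0 := eq_zero_of_inner n1 n2 he1 o12 he2 he3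
      (by rw [real_inner_comm]; exact a1) (by rw [real_inner_comm]; exact a2) e12
    have z22 : d2 (d2 h) z = 0 := eq_zero_of_inner n1 n2 he1 o12 he2 he3
      (by rw [real_inner_comm]; exact a4) (by rw [real_inner_comm]; exact a3) e22
    -- along the circle
    set u : ℝ → E2 := fun s => (R * Real.cos s, R * Real.sin s) with hudef
    have hu0 : u 0 = z := by simp [hudef, hz]
    have hdu : HasDerivAt u (0, R) 0 := by
      have := ((Real.hasDerivAt_cos 0).const_mul R).prodMk ((Real.hasDerivAt_sin 0).const_mul R)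
      simpa using this
    have hD : ∀ v : E2, HasDerivAt (fun s => fderiv ℝ h (u s) v)
        (fderiv ℝ (fun w => fderiv ℝ h w v) z (0, R)) 0 := fun v =>
      (hdh v).hasFDerivAt.comp_hasDerivAt_of_eq 0 hdu hu0.symm
    have hR2 : ∀ v : E2, fderiv ℝ (fun w => fderiv ℝ h w v) z (0, R) =
        R • fderiv ℝ (fun w => fderiv ℝ h w v) z (0, 1) := fun v => by
      rw [← map_smul]; simp
    have hevs : ∀ᶠ s in 𝓝 (0 : ℝ), ∀ x y : ℝ,
        x • fderiv ℝ h (u s) (1, 0) + y • fderiv ℝ h (u s) (0, 1) =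
          fderiv ℝ f (p (q + s / c))
            ((x * Real.cos s + y * Real.sin s) * Real.cos (q + s / c)
                - Real.sin (q + s / c) * ((y * Real.cos s - x * Real.sin s) / c),
             (x * Real.cos s + y * Real.sin s) * Real.sin (q + s / c)
                + Real.cos (q + s / c) * ((y * Real.cos s - x * Real.sin s) / c)) := by
      have hcu : Tendsto u (𝓝 0) (𝓝 z) := hu0 ▸ hdu.continuousAt.tendsto
      filter_upwards [hcu.eventually (hev.and hfd),
        Ioo_mem_nhds (neg_lt_zero.2 pi_div_two_pos) pi_div_two_pos] with s hs hsI x y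
      obtain ⟨⟨hs1, hs2, hs3⟩, hsf⟩ := hs
      obtain ⟨ha, hr⟩ := circle_chart c hR (φ := (q : ℝ)) hsI
      rw [← map_smul, ← map_smul, ← map_add, hsf, chart_fderiv c q (u s) hs1]
      have hpt : chart c q (u s) = p (q + s / c) := by
        show chart c q (R * Real.cos s, R * Real.sin s) = _
        rw [chart_eq, ha, hr]
      have hq2 : sqn (u s) = R ^ 2 := by
        show (R * Real.cos s) ^ 2 + (R * Real.sin s) ^ 2 = R ^ 2
        linear_combination R ^ 2 * Real.cos_sq_add_sin_sq s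
      rw [hpt]
      congr 1
      simp only [hq2, Real.sqrt_sq hR.le]
      simp only [hudef, Prod.smul_mk, Prod.mk_add_mk, smul_eq_mul, mul_one, mul_zero, add_zero,
        zero_add, ha]
      refine Prod.ext ?_ ?_ <;> simp only <;> field_simp <;> ring
    have hlin : HasDerivAt (fun s : ℝ => (q : ℝ) + s / c) (1 / c) 0 :=
      ((hasDerivAt_id (0 : ℝ)).div_const c).const_add _
    have hdiv : (fun s : ℝ => (q : ℝ) + s / c) 0 = q := by simp
    refine ⟨?_, ?_⟩
    · have e : (fun s => T (q + s / c)) =ᶠ[𝓝 0] fun s =>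
          (-Real.sin s) • fderiv ℝ h (u s) (1, 0) + Real.cos s • fderiv ℝ h (u s) (0, 1) := by
        filter_upwards [hevs] with s hs
        rw [hs, hTdef]
        simp only
        congr 1
        have := Real.cos_sq_add_sin_sq s
        generalize (q : ℝ) + s / c = a
        refine Prod.ext ?_ ?_ <;> simp only <;> field_simp
        · linear_combination Real.sin a * this
        · linear_combination -Real.cos a * this
      have hL := ((hT.differentiable (by simp)) (q : ℝ)).hasDerivAt.scomp_of_eq 0 hlin hdiv.symm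
      have hRt := ((Real.hasDerivAt_sin 0).neg.smul (hD (1, 0))).add
        ((Real.hasDerivAt_cos 0).smul (hD (0, 1)))
      have := (hL.congr_of_eventuallyEq e.symm).unique hRt
      simp only [hR2, hu0, Real.sin_zero, Real.cos_zero, neg_zero, zero_smul, one_smul, zero_add,
        neg_smul] at this
      rw [show fderiv ℝ (fun w => fderiv ℝ h w (0, 1)) z (0, 1) = 0 from z22] at this
      have hN1 : fderiv ℝ h z (1, 0) = N q := by
        rw [hfd.self_of_nhds, chart_fderiv c q z hz1, hcz, hang, hsz, hNdef]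
        congr 1
        simp [hz, hR.ne']
      rw [hN1] at this
      have h2 := congrArg (c • ·) this
      simpa [smul_smul, hc.ne'] using h2
    · have e : (fun s => N (q + s / c)) =ᶠ[𝓝 0] fun s =>
          Real.cos s • fderiv ℝ h (u s) (1, 0) + Real.sin s • fderiv ℝ h (u s) (0, 1) := by
        filter_upwards [hevs] with s hs
        rw [hs, hNdef]
        simp only
        congr 1
        have := Real.cos_sq_add_sin_sq s
        generalize (q : ℝ) + s / c = a
        refine Prod.ext ?_ ?_ <;> simp only <;> field_simp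
        · linear_combination -c * Real.cos a * this
        · linear_combination -c * Real.sin a * this
      have hL := ((hN.differentiable (by simp)) (q : ℝ)).hasDerivAt.scomp_of_eq 0 hlin hdiv.symm
      have hRt := ((Real.hasDerivAt_cos 0).smul (hD (1, 0))).add
        ((Real.hasDerivAt_sin 0).smul (hD (0, 1)))
      have := (hL.congr_of_eventuallyEq e.symm).unique hRt
      simp only [hR2, hu0, Real.sin_zero, Real.cos_zero, neg_zero, zero_smul, one_smul, zero_add,
        add_zero] at this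
      rw [show fderiv ℝ (fun w => fderiv ℝ h w (1, 0)) z (0, 1) = 0 from z12] at this
      have hT1 : fderiv ℝ h z (0, 1) = T q := by
        rw [hfd.self_of_nhds, chart_fderiv c q z hz1, hcz, hang, hsz, hTdef]
        congr 1
        simp only [hz, sqn]
        refine Prod.ext ?_ ?_ <;> simp only <;> field_simp <;> ring
      rw [hT1] at this
      have h2 := congrArg (c • ·) this
      simpa [smul_smul, hc.ne'] using h2
  -- extend by continuity and turn once around
  have cT : (fun a => deriv T a) = fun a => -c • N a :=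
    Rat.denseRange_cast.equalizer (g := fun a => deriv T a) (hT.continuous_deriv le_rfl)
      (hN.continuous.const_smul (-c))
      (funext fun q => (hrat q).1)
  have cN : (fun a => deriv N a) = fun a => c • T a :=
    Rat.denseRange_cast.equalizer (g := fun a => deriv N a) (hN.continuous_deriv le_rfl)
      (hT.continuous.const_smul c)
      (funext fun q => (hrat q).2)
  have hzero := periodic_rotation T N c
    (fun s => by rw [← congrFun cT s]; exact (hT.differentiable (by simp) s).hasDerivAt)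
    (fun s => by rw [← congrFun cN s]; exact (hN.differentiable (by simp) s).hasDerivAt)
    (by simp [hTdef, hpdef]) (by simp [hNdef, hpdef])
    (fun j hj => by
      rw [← hcdef, hj] at hc1 hc2
      have h1 : (1 : ℤ) < j := by exact_mod_cast hc1
      have h2 : j < (2 : ℤ) := by exact_mod_cast hc2
      omega)
  have hone : ⟪T 0, T 0⟫ = 1 := by
    have hring : ((R, 0) : E2) ∈ ringSet k := by
      simp only [ringSet, mem_ofPred_eq, sqn, ← hRdef]
      constructor <;> nlinarith
    have hb := bil_chart k 0 (R, 0) hR hring (0, 1) (0, 1)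
    have hp0 : p 0 = (R, 0) := by simp [hpdef]
    have hd : fderiv ℝ (chart c 0) (R, 0) (0, 1) = (0, 1 / c) := by
      rw [chart_fderiv c 0 (R, 0) hR]
      simp [ang, sqn, Real.sqrt_sq hR.le]
      field_simp
    have hch : chart c 0 (R, 0) = (R, 0) := by
      simp [chart, sqn, Real.sqrt_sq hR.le]
    rw [← hcdef] at hb
    rw [hd, hch] at hb
    have hsR := (hS0 k (R, 0) (by simp [sqn, ← hRdef])).1
    have hT0 : T 0 = fderiv ℝ f (R, 0) (0, 1 / c) := by simp [hTdef, hp0]
    rw [hT0, inner_fderiv f _ _ _ U hI (hp0 ▸ hmem 0)]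
    simp only [bil] at hb ⊢
    rw [hsR]
    simpa using hb
  rw [hzero] at hone
  simp at hone

theorem ringStmt : RingStmt := by
  refine ⟨E0, F0, G0, cpar, ?_, ?_, ?_, fun x => ?_, cpar_bounds, fun k φ u hu hk => ?_, forcing⟩
  · exact contDiff_const.add (Phi_contDiff.mul (contDiff_snd.pow 2))
  · exact ((Phi_contDiff.mul contDiff_fst).mul contDiff_snd).neg
  · exact contDiff_const.add (Phi_contDiff.mul (contDiff_fst.pow 2))
  · have := Phi_nonneg x
    refine ⟨by unfold E0; positivity, ?_⟩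
    unfold E0 F0 G0
    nlinarith [mul_nonneg this (sq_nonneg x.1), mul_nonneg this (sq_nonneg x.2)]
  · refine ⟨?_, ?_, ?_⟩
    · simpa [d1] using bil_chart k φ u hu hk (1, 0) (1, 0)
    · simpa [d1, d2] using bil_chart k φ u hu hk (1, 0) (0, 1)
    · simpa [d2] using bil_chart k φ u hu hk (0, 1) (0, 1)

end Ring

end Vale.Agent.P229
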