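import Vale.Agent.P229.Core
import Vale.Agent.P229.Geom
import Vale.Agent.P229.Hodo
import Vale.Agent.P229.LeftStep
import Vale.Agent.P229.Levels
import Vale.Agent.P229.CoeffMid
import Vale.Agent.P229.Middle
import Vale.Agent.P229.Ring
import Vale.Agent.P229.Metric

/-!
P229: assembly of the counterexample.
-/

namespace Vale.Agent.P229

open scoped ContDiff RealInnerProductSpace

/-- A smooth metric without local smooth isometric immersions into three-space. -/
theorem final : FinalStmt :=
  finalStmt_of
    (noPatch_of Geom.geomStmt
      (coreStmt_of hodo (leftStmt_of_hyps coeff_left coeff_smooth left_Glev)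
        (middleStmt coeff_mid middle_Glev)))
    Ring.ringStmt psiBound

end Vale.Agent.P229
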