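import Vale.Agent.P229.Interfaces

/-!
P229: one patch of the conformal exponent, transported by a cone chart.
-/

namespace Vale.Agent.P229.Met

open Real Set Filter Topology
open scoped ContDiff

/-- First coordinate after rotating back by `φ`. -/
noncomputable def rot1 (φ : ℝ) (x : E2) : ℝ := x.1 * cos φ + x.2 * sin φ

/-- Second coordinate after rotating back by `φ`. -/
noncomputable def rot2 (φ : ℝ) (x : E2) : ℝ := -x.1 * sin φ + x.2 * cos φ

/-- Inverse of the cone chart on the sector `0 < rot1 φ x`. -/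
noncomputable def chartInv (c φ : ℝ) (x : E2) : E2 :=
  (√(sqn x) * cos (c * arctan (rot2 φ x / rot1 φ x)),
   √(sqn x) * sin (c * arctan (rot2 φ x / rot1 φ x)))

/-- The patch in the coordinates of the plane. -/
noncomputable def sig (n : ℕ) (δ c φ ρ : ℝ) (a x : E2) : ℝ :=
  if 0 < rot1 φ x then psi n δ (ρ⁻¹ • (chartInv c φ x - a)) else 0

theorem sqn_nonneg (z : E2) : 0 ≤ sqn z := add_nonneg (sq_nonneg _) (sq_nonneg _)

theorem sqn_pos_of_fst {z : E2} (h : 0 < z.1) : 0 < sqn z :=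
  add_pos_of_pos_of_nonneg (pow_pos h 2) (sq_nonneg _)

theorem sqn_rot (φ : ℝ) (x : E2) : rot1 φ x ^ 2 + rot2 φ x ^ 2 = sqn x := by
  simp only [rot1, rot2, sqn]
  linear_combination (x.1 ^ 2 + x.2 ^ 2) * cos_sq_add_sin_sq φ

theorem polar_arctan {a b : ℝ} (ha : 0 < a) :
    √(a ^ 2 + b ^ 2) * cos (arctan (b / a)) = a ∧ √(a ^ 2 + b ^ 2) * sin (arctan (b / a)) = b := by
  have h : √(a ^ 2 + b ^ 2) = a * √(1 + (b / a) ^ 2) := by
    rw [← Real.sqrt_sq ha.le, ← Real.sqrt_mul (sq_nonneg a)]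
    congr 1
    rw [Real.sqrt_sq ha.le]; field_simp
  have hp : 0 < √(1 + (b / a) ^ 2) := Real.sqrt_pos.2 (by positivity)
  rw [h, cos_arctan, sin_arctan]
  constructor
  · field_simp
  · field_simp

theorem sqn_chart (c φ : ℝ) (u : E2) : sqn (chart c φ u) = sqn u := by
  simp only [chart, sqn]
  rw [mul_pow, mul_pow, ← mul_add, cos_sq_add_sin_sq, mul_one,
    Real.sq_sqrt (add_nonneg (sq_nonneg _) (sq_nonneg _))]

theorem rot_chart (c φ : ℝ) (u : E2) :
    rot1 φ (chart c φ u) = √(sqn u) * cos (arctan (u.2 / u.1) / c) ∧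
      rot2 φ (chart c φ u) = √(sqn u) * sin (arctan (u.2 / u.1) / c) := by
  simp only [rot1, rot2, chart, cos_add, sin_add]
  constructor
  · linear_combination (√(sqn u) * cos (arctan (u.2 / u.1) / c)) * cos_sq_add_sin_sq φ
  · linear_combination (√(sqn u) * sin (arctan (u.2 / u.1) / c)) * cos_sq_add_sin_sq φ

theorem angle_mem {c : ℝ} (hc : 1 < c) (v : ℝ) :
    arctan v / c ∈ Ioo (-(π / 2)) (π / 2) := by
  have h1 := neg_pi_div_two_lt_arctan v
  have h2 := arctan_lt_pi_div_two v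
  have hc0 : 0 < c := by linarith
  constructor
  · rw [lt_div_iff₀ hc0]; nlinarith [Real.pi_pos]
  · rw [div_lt_iff₀ hc0]; nlinarith [Real.pi_pos]

theorem rot1_chart_pos {c φ : ℝ} (hc : 1 < c) {u : E2} (hu : 0 < u.1) :
    0 < rot1 φ (chart c φ u) := by
  rw [(rot_chart c φ u).1]
  exact mul_pos (Real.sqrt_pos.2 (sqn_pos_of_fst hu)) (cos_pos_of_mem_Ioo (angle_mem hc _))

theorem chartInv_chart {c φ : ℝ} (hc : 1 < c) {u : E2} (hu : 0 < u.1) :
    chartInv c φ (chart c φ u) = u := by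
  have hs : √(sqn u) ≠ 0 := (Real.sqrt_pos.2 (sqn_pos_of_fst hu)).ne'
  have hm := angle_mem hc (u.2 / u.1)
  have ha : arctan (rot2 φ (chart c φ u) / rot1 φ (chart c φ u)) = arctan (u.2 / u.1) / c := by
    rw [(rot_chart c φ u).1, (rot_chart c φ u).2, mul_div_mul_left _ _ hs, ← tan_eq_sin_div_cos,
      arctan_tan hm.1 hm.2]
  have hcne : c ≠ 0 := by linarith
  simp only [chartInv, ha, sqn_chart, mul_div_cancel₀ _ hcne]
  exact Prod.ext (polar_arctan hu).1 (polar_arctan hu).2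

theorem chart_chartInv {c φ : ℝ} (hc : 1 < c) (hc2 : c < 2) {x : E2} (hx : 0 < rot1 φ x)
    (hu : 0 < (chartInv c φ x).1) : chart c φ (chartInv c φ x) = x := by
  set θ := arctan (rot2 φ x / rot1 φ x) with hθ
  have hsx : 0 < sqn x := by rw [← sqn_rot φ]; positivity
  have hcos : 0 < cos (c * θ) := (mul_pos_iff_of_pos_left (Real.sqrt_pos.2 hsx)).1 hu
  have h1 := neg_pi_div_two_lt_arctan (rot2 φ x / rot1 φ x)
  have h2 := arctan_lt_pi_div_two (rot2 φ x / rot1 φ x)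
  have hm : c * θ ∈ Ioo (-(π / 2)) (π / 2) := by
    constructor
    · by_contra hle
      push Not at hle
      have := cos_nonpos_of_pi_div_two_le_of_le (x := -(c * θ)) (by linarith) (by nlinarith [Real.pi_pos])
      rw [cos_neg] at this
      linarith
    · by_contra hle
      push Not at hle
      have := cos_nonpos_of_pi_div_two_le_of_le (x := c * θ) hle (by nlinarith [Real.pi_pos])
      linarith
  have hq : (chartInv c φ x).2 / (chartInv c φ x).1 = tan (c * θ) := by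
    simp only [chartInv]
    rw [mul_div_mul_left _ _ (Real.sqrt_pos.2 hsx).ne', ← tan_eq_sin_div_cos]
  have hn : sqn (chartInv c φ x) = sqn x := by
    rw [chartInv, sqn]
    simp only [mul_pow]
    rw [← mul_add, cos_sq_add_sin_sq, mul_one, Real.sq_sqrt hsx.le]
  have ha : arctan ((chartInv c φ x).2 / (chartInv c φ x).1) / c = θ := by
    rw [hq, arctan_tan hm.1 hm.2, mul_div_cancel_left₀ _ (by linarith : c ≠ 0)]
  have hp := polar_arctan (b := rot2 φ x) hx
  rw [sqn_rot, ← hθ] at hp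
  clear_value θ
  simp only [chart, hn, ha, cos_add, sin_add]
  refine Prod.ext ?_ ?_
  · show _ = x.1
    have e1 := hp.1
    have e2 := hp.2
    simp only [rot1, rot2] at e1 e2
    linear_combination cos φ * e1 - sin φ * e2 + x.1 * cos_sq_add_sin_sq φ
  · show _ = x.2
    have e1 := hp.1
    have e2 := hp.2
    simp only [rot1, rot2] at e1 e2
    linear_combination sin φ * e1 + cos φ * e2 + x.2 * cos_sq_add_sin_sq φ

theorem contDiff_sqn : ContDiff ℝ ∞ (sqn : E2 → ℝ) := by unfold sqn; fun_prop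

theorem contDiff_rot1 (φ : ℝ) : ContDiff ℝ ∞ (rot1 φ) := by unfold rot1; fun_prop

theorem contDiff_rot2 (φ : ℝ) : ContDiff ℝ ∞ (rot2 φ) := by unfold rot2; fun_prop

theorem isOpen_sector (φ : ℝ) : IsOpen {x : E2 | 0 < rot1 φ x} :=
  isOpen_lt continuous_const (contDiff_rot1 φ).continuous

theorem contDiffAt_chartInv (c : ℝ) {φ : ℝ} {x : E2} (hx : 0 < rot1 φ x) :
    ContDiffAt ℝ ∞ (chartInv c φ) x := by
  have hs : sqn x ≠ 0 := by rw [← sqn_rot φ]; positivity
  have h1 : ContDiffAt ℝ ∞ (fun y => √(sqn y)) x := contDiff_sqn.contDiffAt.sqrt hs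
  have h2 : ContDiffAt ℝ ∞ (fun y => c * arctan (rot2 φ y / rot1 φ y)) x :=
    contDiffAt_const.mul (((contDiff_rot2 φ).contDiffAt.div (contDiff_rot1 φ).contDiffAt hx.ne').arctan)
  unfold chartInv
  exact (h1.mul h2.cos).prodMk (h1.mul h2.sin)

theorem contDiffAt_chart (c φ : ℝ) {u : E2} (hu : 0 < u.1) : ContDiffAt ℝ ∞ (chart c φ) u := by
  have h1 : ContDiffAt ℝ ∞ (fun y => √(sqn y)) u := contDiff_sqn.contDiffAt.sqrt (sqn_pos_of_fst hu).ne'
  have h2 : ContDiffAt ℝ ∞ (fun y : E2 => φ + arctan (y.2 / y.1) / c) u :=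
    contDiffAt_const.add (((contDiffAt_snd.div contDiffAt_fst hu.ne').arctan).div_const c)
  unfold chart
  exact (h1.mul h2.cos).prodMk (h1.mul h2.sin)

theorem psi_eq_zero {n : ℕ} {δ : ℝ} (hδ : 0 < δ) (hδ1 : δ ≤ 1) {z : E2} (hz : 120 ≤ sqn z) :
    psi n δ z = 0 := by
  have h1 : cutR z = 0 := Real.smoothTransition.zero_of_nonpos (by linarith)
  have h2 : bumpB (z.1 / δ, z.2 / δ) = 0 := by
    refine Real.smoothTransition.zero_of_nonpos ?_
    have e : sqn (z.1 / δ, z.2 / δ) = sqn z / δ ^ 2 := by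
      simp only [sqn, div_pow]; ring
    have : sqn z ≤ sqn z / δ ^ 2 := le_div_self (sqn_nonneg z) (by positivity) (pow_le_one₀ hδ.le hδ1)
    linarith
  simp [psi, h1, h2]

theorem contDiff_psi (n : ℕ) (δ : ℝ) : ContDiff ℝ ∞ (psi n δ) := by
  have hc : ContDiff ℝ ∞ (cutR : E2 → ℝ) :=
    Real.smoothTransition.contDiff.comp ((contDiff_const.sub contDiff_sqn).div_const _)
  have hp : ContDiff ℝ ∞ (psi0 : E2 → ℝ) :=
    (contDiff_sqn.div_const _).sub ((contDiff_sqn.pow 2).div_const _)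
  have hb : ContDiff ℝ ∞ fun z : E2 => bumpB (z.1 / δ, z.2 / δ) :=
    Real.smoothTransition.contDiff.comp (contDiff_const.sub
      (contDiff_sqn.comp ((contDiff_fst.div_const δ).prodMk (contDiff_snd.div_const δ))))
  exact (hc.mul hp).add (contDiff_const.mul hb)

/-- The support of a patch. -/
def patchSet (c φ ρ : ℝ) (a : E2) : Set E2 := chart c φ '' Metric.closedBall a (11 * ρ)

theorem fst_pos_of_mem {ρ : ℝ} {a u : E2} (ha : 11 * ρ < a.1)
    (hu : u ∈ Metric.closedBall a (11 * ρ)) : 0 < u.1 := by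
  rw [Metric.mem_closedBall, Prod.dist_eq, max_le_iff, Real.dist_eq, abs_le] at hu
  linarith [hu.1.1]

theorem isCompact_patchSet {c φ ρ : ℝ} {a : E2} (ha : 11 * ρ < a.1) :
    IsCompact (patchSet c φ ρ a) :=
  (isCompact_closedBall a (11 * ρ)).image_of_continuousOn fun u hu =>
    (contDiffAt_chart c φ (fst_pos_of_mem ha hu)).continuousAt.continuousWithinAt

theorem patchSet_subset {c φ ρ : ℝ} {a : E2} (hc : 1 < c) (ha : 11 * ρ < a.1) :
    patchSet c φ ρ a ⊆ {x | 0 < rot1 φ x} := by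
  rintro _ ⟨u, hu, rfl⟩
  exact rot1_chart_pos hc (fst_pos_of_mem ha hu)

theorem sig_eq_zero {n : ℕ} {δ c φ ρ : ℝ} {a x : E2} (hδ : 0 < δ) (hδ1 : δ ≤ 1) (hc : 1 < c)
    (hc2 : c < 2) (hρ : 0 < ρ) (ha : 11 * ρ < a.1) (hx : x ∉ patchSet c φ ρ a) :
    sig n δ c φ ρ a x = 0 := by
  rw [sig]
  split_ifs with h
  · refine psi_eq_zero hδ hδ1 (le_of_not_gt fun hlt => hx ?_)
    have hb : chartInv c φ x ∈ Metric.closedBall a (11 * ρ) := by
      have e : sqn (ρ⁻¹ • (chartInv c φ x - a)) = sqn (chartInv c φ x - a) / ρ ^ 2 := by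
        simp only [sqn, Prod.smul_fst, Prod.smul_snd, smul_eq_mul]; field_simp
      rw [e, div_lt_iff₀ (by positivity)] at hlt
      simp only [sqn, Prod.fst_sub, Prod.snd_sub] at hlt
      rw [Metric.mem_closedBall, Prod.dist_eq, max_le_iff, Real.dist_eq, Real.dist_eq]
      constructor <;> refine abs_le_of_sq_le_sq ?_ (by positivity) <;>
        nlinarith [sq_nonneg ((chartInv c φ x).1 - a.1), sq_nonneg ((chartInv c φ x).2 - a.2), sq_nonneg ρ]
    exact ⟨_, hb, chart_chartInv hc hc2 h (fst_pos_of_mem ha hb)⟩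
  · rfl

theorem sig_eventuallyEq_zero {n : ℕ} {δ c φ ρ : ℝ} {a x : E2} (hδ : 0 < δ) (hδ1 : δ ≤ 1) (hc : 1 < c)
    (hc2 : c < 2) (hρ : 0 < ρ) (ha : 11 * ρ < a.1) (hx : x ∉ patchSet c φ ρ a) :
    sig n δ c φ ρ a =ᶠ[𝓝 x] fun _ => 0 := by
  filter_upwards [(isCompact_patchSet ha).isClosed.isOpen_compl.mem_nhds hx] with y hy
  exact sig_eq_zero hδ hδ1 hc hc2 hρ ha hy

theorem contDiff_sig {n : ℕ} {δ c φ ρ : ℝ} {a : E2} (hδ : 0 < δ) (hδ1 : δ ≤ 1) (hc : 1 < c)
    (hc2 : c < 2) (hρ : 0 < ρ) (ha : 11 * ρ < a.1) : ContDiff ℝ ∞ (sig n δ c φ ρ a) := by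
  refine contDiff_iff_contDiffAt.2 fun x => ?_
  by_cases hx : 0 < rot1 φ x
  · refine ((contDiff_psi n δ).contDiffAt.comp x
      (((contDiffAt_chartInv c hx).sub (contDiffAt_const (c := a))).const_smul ρ⁻¹)).congr_of_eventuallyEq ?_
    filter_upwards [(isOpen_sector φ).mem_nhds hx] with y hy
    simp [sig, if_pos (show 0 < rot1 φ y from hy)]
  · exact contDiffAt_const.congr_of_eventuallyEq
      (sig_eventuallyEq_zero hδ hδ1 hc hc2 hρ ha fun h => hx (patchSet_subset hc ha h))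

/-- Derivatives of a patch are bounded independently of the width of its bump. -/
theorem sig_bound (hP : PsiBoundStmt) {n : ℕ} {c φ ρ : ℝ} {a : E2} (hc : 1 < c) (hc2 : c < 2)
    (hρ : 0 < ρ) (ha : 11 * ρ < a.1) :
    ∃ C, 0 ≤ C ∧ ∀ δ, 0 < δ → δ ≤ 1 → ∀ N ≤ n, ∀ x,
      ‖iteratedFDeriv ℝ N (sig n δ c φ ρ a) x‖ ≤ C := by
  set K := patchSet c φ ρ a
  set L : E2 → E2 := fun y => ρ⁻¹ • (chartInv c φ y - a)
  set Sec := {x : E2 | 0 < rot1 φ x}
  have hS : IsOpen Sec := isOpen_sector φ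
  have hL : ContDiffOn ℝ ∞ L Sec := fun y hy =>
    (((contDiffAt_chartInv c hy).sub contDiffAt_const).const_smul ρ⁻¹).contDiffWithinAt
  have hB : ∀ N : ℕ, ∃ B, 0 ≤ B ∧ ∀ x ∈ K, ‖iteratedFDerivWithin ℝ N L Sec x‖ ≤ B := fun N => by
    obtain ⟨B, hB⟩ := (isCompact_patchSet ha).exists_bound_of_continuousOn
      ((hL.continuousOn_iteratedFDerivWithin (m := N) (mod_cast le_top) hS.uniqueDiffOn).mono
        (patchSet_subset hc ha))
    exact ⟨max B 0, le_max_right _ _, fun x hx => (hB x hx).trans (le_max_left _ _)⟩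
  choose B hB0 hB using hB
  have hP' : ∀ N, ∃ A, 0 ≤ A ∧ (N ≤ n → ∀ δ, 0 < δ → δ ≤ 1 →
      ∀ z, ‖iteratedFDeriv ℝ N (psi n δ) z‖ ≤ A) := fun N => by
    by_cases h : N ≤ n
    · obtain ⟨A, hA⟩ := hP n N h
      exact ⟨max A 0, le_max_right _ _, fun _ δ h1 h2 z => (hA δ h1 h2 z).trans (le_max_left _ _)⟩
    · exact ⟨0, le_rfl, fun h' => absurd h' h⟩
  choose A hA0 hA using hP'
  set At := ∑ N ∈ Finset.range (n + 1), A N
  set D := 1 + ∑ N ∈ Finset.range (n + 1), B N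
  have hD1 : 1 ≤ D := le_add_of_nonneg_right (Finset.sum_nonneg fun N _ => hB0 N)
  have hAt : 0 ≤ At := Finset.sum_nonneg fun N _ => hA0 N
  refine ⟨n.factorial * At * D ^ n, by positivity, fun δ hδ hδ1 N hN x => ?_⟩
  by_cases hx : x ∈ K
  · have hxS : x ∈ Sec := patchSet_subset hc ha hx
    have he : EqOn (sig n δ c φ ρ a) (psi n δ ∘ L) Sec := fun y hy => by
      simp [sig, L, if_pos (show 0 < rot1 φ y from hy)]
    rw [← iteratedFDerivWithin_of_isOpen N hS hxS, iteratedFDerivWithin_congr he hxS]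
    refine (norm_iteratedFDerivWithin_comp_le (t := univ) (N := ∞) (contDiff_psi n δ).contDiffOn hL
      (mod_cast le_top) uniqueDiffOn_univ hS.uniqueDiffOn (mapsTo_univ _ _) hxS (C := At) (D := D)
      (fun i hi => ?_) fun i h1 hi => ?_).trans ?_
    · rw [iteratedFDerivWithin_univ]
      exact (hA i (hi.trans hN) δ hδ hδ1 _).trans (Finset.single_le_sum (f := A) (fun k _ => hA0 k)
        (Finset.mem_range.2 (by omega)))
    · refine (hB i x hx).trans (le_trans ?_ (le_self_pow₀ hD1 (by omega : i ≠ 0)))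
      linarith [Finset.single_le_sum (f := B) (fun k _ => hB0 k) (Finset.mem_range.2 (show i < n + 1 by omega))]
    · have h1 : (N.factorial : ℝ) ≤ n.factorial := by exact_mod_cast Nat.factorial_le hN
      exact mul_le_mul (mul_le_mul_of_nonneg_right h1 hAt) (pow_le_pow_right₀ hD1 hN) (by positivity)
        (by positivity)
  · rw [((sig_eventuallyEq_zero hδ hδ1 hc hc2 hρ ha hx).iteratedFDeriv ℝ N).eq_of_nhds]
    simp only [iteratedFDeriv_fun_zero, Pi.zero_apply, norm_zero]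
    positivity

end Vale.Agent.P229.Met
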