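import Vale.Agent.P229.Line
import Vale.Agent.P229.LevelsDef

/-!
P229: the right-hand side of the hodograph system as a fixed smooth function of ten numbers
`p, q, v, w, ψ, ψ_x, ψ_y, Δψ, t, λ`.
-/

namespace Vale.Agent.P229

open Set Filter
open scoped ContDiff Topology

abbrev E10 : Type := Fin 10 → ℝ

noncomputable def fA (j : E10) : ℝ := j 8 * j 9 ^ 2 * (-(j 5) * j 0 + j 6 * j 1)

noncomputable def fB (j : E10) : ℝ := -(j 8 * j 9 ^ 2) * (j 6 * j 0 + j 5 * j 1)

noncomputable def fXi (j : E10) : ℝ :=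
  Real.exp (2 * (j 8 * j 9 ^ 2) * j 4) - j 9 ^ 2 * (j 0 ^ 2 + j 1 ^ 2)

noncomputable def fQ (j : E10) : ℝ := -(j 8) * j 7 * fXi j

/-- The right-hand side as a function of the ten arguments. -/
noncomputable def phi10 (j : E10) : ℝ :=
  fA j + ((fQ j + fB j ^ 2) * j 2 + 2 * fB j * j 3 - fA j * j 3 ^ 2) / (1 + fA j * j 2)

/-- Where the denominator is positive. -/
def dom10 : Set E10 := {j | 0 < 1 + fA j * j 2}

lemma contDiff_fA : ContDiff ℝ ∞ fA := by unfold fA; fun_prop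
lemma contDiff_fB : ContDiff ℝ ∞ fB := by unfold fB; fun_prop
lemma contDiff_fXi : ContDiff ℝ ∞ fXi := by unfold fXi; fun_prop
lemma contDiff_fQ : ContDiff ℝ ∞ fQ := by
  have := contDiff_fXi
  unfold fQ; fun_prop

lemma isOpen_dom10 : IsOpen dom10 := by
  have := contDiff_fA.continuous
  exact isOpen_lt continuous_const (by fun_prop)

lemma contDiffOn_phi10 : ContDiffOn ℝ ∞ phi10 dom10 := by
  have := contDiff_fA; have := contDiff_fB; have := contDiff_fQ
  exact ContDiffOn.add contDiff_fA.contDiffOn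
    (ContDiffOn.div (by fun_prop) (by fun_prop) fun j hj => ne_of_gt hj)

/-- The ten arguments along a solution. -/
noncomputable def jet (ψ : E2 → ℝ) (t lam : ℝ) (X q : E2 → ℝ) (z : E2) : E10 :=
  ![z.1, q z, d1 X z, d1 q z, ψ (X z, z.2), d1 ψ (X z, z.2), d2 ψ (X z, z.2),
    lap ψ (X z, z.2), t, lam]

variable {ψ : E2 → ℝ} {t lam : ℝ} {X q : E2 → ℝ}

lemma phi10_jet (z : E2) :
    along (rhsF ψ t lam) X q z = phi10 (jet ψ t lam X q z) := by
  simp [along, rhsF, phi10, jet, fA, fB, fQ, fXi, cA, cB, cQ]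

lemma contDiff_lapW (hψ : ContDiff ℝ ∞ ψ) : ContDiff ℝ ∞ (lap ψ) := by
  have h : ∀ g : E2 → ℝ, ContDiff ℝ ∞ g → ContDiff ℝ ∞ (d1 g) := fun g hg =>
    contDiff_d1_iter' hg 1
  have h' : ∀ g : E2 → ℝ, ContDiff ℝ ∞ g → ContDiff ℝ ∞ (d2 g) := fun g hg =>
    contDiffOn_univ.mp (contDiffOn_d2W isOpen_univ hg.contDiffOn)
  exact (h _ (h _ hψ)).add (h' _ (h' _ hψ))

lemma contDiff_jet (hψ : ContDiff ℝ ∞ ψ) (hX : ContDiff ℝ ∞ X) (hq : ContDiff ℝ ∞ q) :
    ContDiff ℝ ∞ (jet ψ t lam X q) := by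
  have hp : ContDiff ℝ ∞ fun z : E2 => (X z, z.2) := hX.prodMk contDiff_snd
  have a1 := (contDiff_d1_iter' hψ 1).comp hp
  have a2 := (contDiffOn_univ.mp (contDiffOn_d2W isOpen_univ hψ.contDiffOn)).comp hp
  have a3 := (contDiff_lapW hψ).comp hp
  refine contDiff_pi.mpr fun i => ?_
  fin_cases i
  · exact contDiff_fst
  · exact hq
  · exact contDiff_d1_iter' hX 1
  · exact contDiff_d1_iter' hq 1
  · exact hψ.comp hp
  · exact a1
  · exact a2
  · exact a3
  · exact contDiff_const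
  · exact contDiff_const

lemma clm_e10 (f : E10 →L[ℝ] ℝ) (v : E10) : f v = ∑ i, v i * f (Pi.single i 1) := by
  conv_lhs => rw [show v = ∑ i, v i • (Pi.single i (1 : ℝ) : E10) by
    funext k; simp [Finset.sum_apply, Pi.single_apply]]
  simp [map_sum]

lemma fderiv_phi10_single {j : E10} (hj : j ∈ dom10) (i : Fin 10) :
    HasDerivAt (fun s => phi10 (Function.update j i s))
      (fderiv ℝ phi10 j (Pi.single i 1)) (j i) := by
  have h := ((contDiffOn_phi10.contDiffAt (isOpen_dom10.mem_nhds hj)).differentiableAt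
    (by simp)).hasFDerivAt
  have h2 := hasDerivAt_update j i (j i)
  rw [← Function.update_eq_self i j] at h
  have h3 := h.comp_hasDerivAt (j i) h2
  rwa [Function.update_eq_self i j] at h3

lemma phi10_e2 {j : E10} (hj : j ∈ dom10) :
    fderiv ℝ phi10 j (Pi.single 2 1) =
      (fQ j + (fB j - fA j * j 3) ^ 2) / (1 + fA j * j 2) ^ 2 := by
  refine (fderiv_phi10_single hj 2).unique ?_
  have hd : (1 : ℝ) + fA j * j 2 ≠ 0 := ne_of_gt hj
  have e : (fun s => phi10 (Function.update j 2 s)) = fun s =>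
      fA j + ((fQ j + fB j ^ 2) * s + 2 * fB j * j 3 - fA j * j 3 ^ 2) / (1 + fA j * s) := by
    funext s
    simp [phi10, fA, fB, fQ, fXi, Function.update]
  rw [e]
  have h := (((((hasDerivAt_id' (j 2)).const_mul (fQ j + fB j ^ 2)).add_const
    (2 * fB j * j 3)).sub_const (fA j * j 3 ^ 2)).div
      (((hasDerivAt_id' (j 2)).const_mul (fA j)).const_add 1) hd).const_add (fA j)
  refine h.congr_deriv ?_
  field_simp
  ring

lemma phi10_e3 {j : E10} (hj : j ∈ dom10) :
    fderiv ℝ phi10 j (Pi.single 3 1) = 2 * (fB j - fA j * j 3) / (1 + fA j * j 2) := by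
  refine (fderiv_phi10_single hj 3).unique ?_
  have e : (fun s => phi10 (Function.update j 3 s)) = fun s =>
      fA j + ((fQ j + fB j ^ 2) * j 2 + 2 * fB j * s - fA j * s ^ 2) / (1 + fA j * j 2) := by
    funext s
    simp [phi10, fA, fB, fQ, fXi, Function.update]
  rw [e]
  have h := (((((hasDerivAt_id' (j 3)).const_mul (2 * fB j)).const_add
    ((fQ j + fB j ^ 2) * j 2)).sub ((hasDerivAt_pow 2 (j 3)).const_mul (fA j))).div_const
      (1 + fA j * j 2)).const_add (fA j)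
  refine h.congr_deriv ?_
  push_cast
  ring

lemma phi10_e7 {j : E10} (hj : j ∈ dom10) :
    fderiv ℝ phi10 j (Pi.single 7 1) = -(j 8) * fXi j * j 2 / (1 + fA j * j 2) := by
  refine (fderiv_phi10_single hj 7).unique ?_
  have e : (fun s => phi10 (Function.update j 7 s)) = fun s =>
      fA j + ((-(j 8) * s * fXi j + fB j ^ 2) * j 2 + 2 * fB j * j 3 - fA j * j 3 ^ 2) /
        (1 + fA j * j 2) := by
    funext s
    simp [phi10, fA, fB, fQ, fXi, Function.update]
  rw [e]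
  have h := (((((((hasDerivAt_id' (j 7)).const_mul (-(j 8))).mul_const (fXi j)).add_const
    (fB j ^ 2)).mul_const (j 2)).add_const (2 * fB j * j 3)).sub_const
      (fA j * j 3 ^ 2)).div_const (1 + fA j * j 2) |>.const_add (fA j)
  refine h.congr_deriv ?_
  ring

lemma gam_eq {z : E2} (hj : jet ψ t lam X q z ∈ dom10) :
    gam ψ t lam X q z = fderiv ℝ phi10 (jet ψ t lam X q z) (Pi.single 2 1) := by
  rw [phi10_e2 hj]
  simp [gam, along, gamF, jet, fA, fB, fQ, fXi, cA, cB, cQ]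

lemma bet_eq {z : E2} (hj : jet ψ t lam X q z ∈ dom10) :
    bet ψ t lam X q z = fderiv ℝ phi10 (jet ψ t lam X q z) (Pi.single 3 1) := by
  rw [phi10_e3 hj]
  simp [bet, along, betF, jet, fA, fB, fQ, fXi, cA, cB, cQ]

lemma cX_eq (hψ : ContDiff ℝ ∞ ψ) {z : E2} (hj : jet ψ t lam X q z ∈ dom10) :
    cX ψ t lam X q z =
      fderiv ℝ phi10 (jet ψ t lam X q z) (Pi.single 4 1) * d1 ψ (X z, z.2)
      + fderiv ℝ phi10 (jet ψ t lam X q z) (Pi.single 5 1) * d1 (d1 ψ) (X z, z.2)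
      + fderiv ℝ phi10 (jet ψ t lam X q z) (Pi.single 6 1) * d1 (d2 ψ) (X z, z.2)
      + fderiv ℝ phi10 (jet ψ t lam X q z) (Pi.single 7 1) * d1 (lap ψ) (X z, z.2) := by
  set j := jet ψ t lam X q z with hjd
  let c : ℝ → E10 := fun s => ![z.1, q z, d1 X z, d1 q z, ψ (s, z.2), d1 ψ (s, z.2),
    d2 ψ (s, z.2), lap ψ (s, z.2), t, lam]
  have hc : HasDerivAt c ![0, 0, 0, 0, d1 ψ (X z, z.2), d1 (d1 ψ) (X z, z.2),
      d1 (d2 ψ) (X z, z.2), d1 (lap ψ) (X z, z.2), 0, 0] (X z) := by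
    refine hasDerivAt_pi.mpr fun i => ?_
    have hd : ∀ g : E2 → ℝ, ContDiff ℝ ∞ g → HasDerivAt (fun s => g (s, z.2)) (d1 g (X z, z.2))
        (X z) := fun g hg => hasDerivAt_line (hg.differentiable (by simp) _)
    fin_cases i
    · exact hasDerivAt_const _ _
    · exact hasDerivAt_const _ _
    · exact hasDerivAt_const _ _
    · exact hasDerivAt_const _ _
    · exact hd _ hψ
    · exact hd _ (contDiff_d1_iter' hψ 1)
    · exact hd _ (contDiffOn_univ.mp (contDiffOn_d2W isOpen_univ hψ.contDiffOn))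
    · exact hd _ (contDiff_lapW hψ)
    · exact hasDerivAt_const _ _
    · exact hasDerivAt_const _ _
  have hF := ((contDiffOn_phi10.contDiffAt (isOpen_dom10.mem_nhds hj)).differentiableAt
    (by simp)).hasFDerivAt
  have h := hF.comp_hasDerivAt_of_eq (X z) hc rfl
  have e : (fun s => rhsF ψ t lam z.1 z.2 s (q z) (d1 X z) (d1 q z)) = phi10 ∘ c := by
    funext s
    simp [c, rhsF, phi10, fA, fB, fQ, fXi, cA, cB, cQ]
  show deriv (fun s => rhsF ψ t lam z.1 z.2 s (q z) (d1 X z) (d1 q z)) (X z) = _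
  rw [e, h.deriv, clm_e10]
  simp [Fin.sum_univ_succ, Fin.sum_univ_zero]
  ring

lemma cq_eq {z : E2} (hj : jet ψ t lam X q z ∈ dom10) :
    cq ψ t lam X q z = fderiv ℝ phi10 (jet ψ t lam X q z) (Pi.single 1 1) := by
  have h := fderiv_phi10_single hj 1
  have e : (fun s => rhsF ψ t lam z.1 z.2 (X z) s (d1 X z) (d1 q z))
      = fun s => phi10 (Function.update (jet ψ t lam X q z) 1 s) := by
    funext s
    simp [jet, rhsF, phi10, fA, fB, fQ, fXi, cA, cB, cQ, Function.update]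
  show deriv (fun s => rhsF ψ t lam z.1 z.2 (X z) s (d1 X z) (d1 q z)) (q z) = _
  rw [e]
  exact (show HasDerivAt _ _ (q z) from h).deriv

end Vale.Agent.P229
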